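import Claimed.Agent.R316.B9.CalBoch
import Claimed.Agent.R316.CW.MatAlg

/-!
# Row 316, package B9: linear algebra of the Hermitian metric `pairE`   (no calculus)

`Pin Km Λ`: `Km` Hermitian, `Λ⁻¹ ≤ Km ≤ Λ`.  `fl B = ∑ |B l j k|²` the flat norm of `B : ι → Matrix ι ι ℂ`.

**Orthonormal frame.**  `exists_simDiag` (`CW/MatAlg`) gives `T` with `Tᴴ Km T = 1`, `Km⁻¹ = T Tᴴ` (`simDiag_inv`), `Km = (T⁻¹)ᴴ T⁻¹` (`simDiag_eq`).
With `B̂_r = ∑_l T l r • (T⁻¹ B_l T)` one has `pairE Km B C = ∑_r tr (Ĉ_rᴴ B̂_r)` (`pairE_frame`), the flat inner product.  Hence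
`pairE_self_nonneg`, `pairE_self_im`, `pairE_cs`.  For `pairE_flat` use compactness or entry bounds: `‖T j k‖² ≤ (T Tᴴ) j j ≤ Λ`, the same for `T⁻¹`
(`(T⁻¹)ᴴ T⁻¹ = Km ≤ Λ`), so every entry of `B̂` is `≤ n³ Λ^{3/2} max |B|`, and `B_l = ∑_r (T⁻¹) r l • (T B̂_r T⁻¹)`.

**Gram.**  `M p q = pairE Km (V p) (V q)` is positive semidefinite (sesquilinearity + `pairE_self_nonneg`), `∑ G p q M p q = tr (G Mᵀ)`,
`∑ G p q M q p = tr (G M)`; `trace_mul_nonneg` for `G - Λ⁻¹` and `M`, `Mᵀ`.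

Leaves: **B9-CAL-N1** (`Pin.*`, `gcx_form_le`), **B9-CAL-N2** (`pairE_self_nonneg`, `pairE_self_im`, `pairE_cs`),
**B9-CAL-N3** (`pairE_flat`, `str_lower`, `fl_actE_le`), **B9-CAL-N4** (`gram_lower`, `gram_lower'`).
-/

set_option autoImplicit false
open scoped ContDiff ComplexOrder Topology Matrix

namespace Claimed.Agent.R316.B9

variable {ι : Type} [Fintype ι] [DecidableEq ι]

/-- `Km` is Hermitian and `Λ⁻¹ ≤ Km ≤ Λ`. -/
structure Pin (Km : Matrix ι ι ℂ) (Λ : ℝ) : Prop where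
  herm : Km.IsHermitian
  lower : leM (cI Λ⁻¹) Km
  upper : leM Km (cI Λ)

/-- flat norm squared. -/
noncomputable def fl (B : ι → Matrix ι ι ℂ) : ℝ := ∑ l, ∑ j, ∑ k, ‖B l j k‖ ^ 2

/-! ### B9-CAL-N1 -/

theorem Pin.posDef {Km : Matrix ι ι ℂ} {Λ : ℝ} (hΛ : 0 < Λ) (h : Pin Km Λ) : Km.PosDef := by
  exact posDef_of_loewner (posDef_smul_real (inv_pos.2 hΛ) Matrix.PosDef.one) h.lower

theorem cI_inv {c : ℝ} (hc : c ≠ 0) : (cI c : Matrix ι ι ℂ)⁻¹ = cI c⁻¹ := by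
  apply Matrix.inv_eq_right_inv
  unfold cI
  rw [Matrix.smul_mul, Matrix.mul_smul, Matrix.one_mul, smul_smul, ← Complex.ofReal_mul,
    mul_inv_cancel₀ hc, Complex.ofReal_one, one_smul]

theorem Pin.inv {Km : Matrix ι ι ℂ} {Λ : ℝ} (hΛ : 0 < Λ) (h : Pin Km Λ) : Pin Km⁻¹ Λ := by
  have hP := h.posDef hΛ
  have h1 : (cI Λ⁻¹ : Matrix ι ι ℂ).PosDef := posDef_smul_real (inv_pos.2 hΛ) Matrix.PosDef.one
  refine ⟨h.herm.inv, ?_, ?_⟩
  · have := loewner_inv_anti hP h.upper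
    rwa [cI_inv hΛ.ne'] at this
  · have := loewner_inv_anti h1 h.lower
    rwa [cI_inv (inv_ne_zero hΛ.ne'), inv_inv] at this

theorem Pin.entry_le {Km : Matrix ι ι ℂ} {Λ : ℝ} (hΛ : 0 < Λ) (h : Pin Km Λ) (j k : ι) :
    ‖Km j k‖ ≤ Λ := by
  exact norm_entry_le_of_loewner h.upper
    ((h.posDef hΛ).posSemidef.add (posSemidef_smul_real hΛ.le Matrix.PosSemidef.one)) j k

theorem Pin.trace_le {Km : Matrix ι ι ℂ} {Λ : ℝ} (hΛ : 0 < Λ) (h : Pin Km Λ) :
    0 ≤ Km.trace.re ∧ Km.trace.re ≤ Fintype.card ι * Λ := by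
  refine ⟨posSemidef_trace_re_nonneg (h.posDef hΛ).posSemidef, ?_⟩
  have := loewner_trace_le h.upper
  refine this.trans (le_of_eq ?_)
  simp [cI, Matrix.trace_smul, Matrix.trace_one]
  ring

/-- `Re ∑ G p q x_p \bar x_q ≤ Λ |x|²` and `≥ 0`. -/
theorem gcx_form_le {G : Matrix ι ι ℂ} {Λ : ℝ} (hΛ : 0 < Λ) (h : Pin G Λ) (x : ι → ℂ) :
    0 ≤ (∑ p, ∑ q, G p q * (x p * star (x q))).re ∧
    (∑ p, ∑ q, G p q * (x p * star (x q))).re ≤ Λ * ∑ p, ‖x p‖ ^ 2 := by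
  have hP := (h.posDef hΛ).posSemidef
  refine ⟨hfm_nonneg hP x, ?_⟩
  have h1 := hfm_nonneg h.upper x
  have e : hfm (cI Λ - G) x x = Λ * ∑ p, ‖x p‖ ^ 2 - hfm G x x := by
    unfold hfm
    have : ∑ p, ∑ q, ((cI Λ : Matrix ι ι ℂ) - G) p q * (x p * star (x q))
        = ((Λ * ∑ p, ‖x p‖ ^ 2 : ℝ) : ℂ) - ∑ p, ∑ q, G p q * (x p * star (x q)) := by
      simp only [Matrix.sub_apply, sub_mul, Finset.sum_sub_distrib]
      congr 1
      simp only [cI, Matrix.smul_apply, Matrix.one_apply, smul_eq_mul, mul_ite, mul_one, mul_zero,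
        ite_mul, zero_mul, Finset.sum_ite_eq, Finset.mem_univ, if_true]
      push_cast
      rw [Finset.mul_sum]
      refine Finset.sum_congr rfl fun p _ => ?_
      rw [Complex.star_def, Complex.mul_conj, Complex.normSq_eq_norm_sq]
      push_cast
      ring
    rw [this, Complex.sub_re, Complex.ofReal_re]
  rw [e] at h1
  have : hfm G x x = (∑ p, ∑ q, G p q * (x p * star (x q))).re := rfl
  linarith

theorem fl_nonneg (B : ι → Matrix ι ι ℂ) : 0 ≤ fl B := by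
  exact Finset.sum_nonneg fun _ _ => Finset.sum_nonneg fun _ _ => Finset.sum_nonneg fun _ _ => by
    positivity

theorem norm_entry_le_sqrt_fl (B : ι → Matrix ι ι ℂ) (l j k : ι) : ‖B l j k‖ ≤ Real.sqrt (fl B) := by
  apply Real.le_sqrt_of_sq_le
  unfold fl
  have h1 : ‖B l j k‖ ^ 2 ≤ ∑ k, ‖B l j k‖ ^ 2 :=
    Finset.single_le_sum (f := fun k => ‖B l j k‖ ^ 2) (fun _ _ => by positivity)
      (Finset.mem_univ k)
  have h2 : ∑ k, ‖B l j k‖ ^ 2 ≤ ∑ j, ∑ k, ‖B l j k‖ ^ 2 :=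
    Finset.single_le_sum (f := fun j => ∑ k, ‖B l j k‖ ^ 2)
      (fun _ _ => Finset.sum_nonneg fun _ _ => by positivity) (Finset.mem_univ j)
  have h3 : ∑ j, ∑ k, ‖B l j k‖ ^ 2 ≤ ∑ l, ∑ j, ∑ k, ‖B l j k‖ ^ 2 :=
    Finset.single_le_sum (f := fun l => ∑ j, ∑ k, ‖B l j k‖ ^ 2)
      (fun _ _ => Finset.sum_nonneg fun _ _ => Finset.sum_nonneg fun _ _ => by positivity)
      (Finset.mem_univ l)
  exact h1.trans (h2.trans h3)

theorem fl_le_of_entry (B : ι → Matrix ι ι ℂ) (b : ℝ) (hb : 0 ≤ b) (h : ∀ l j k, ‖B l j k‖ ≤ b) :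
    fl B ≤ (Fintype.card ι : ℝ) ^ 3 * b ^ 2 := by
  unfold fl
  calc ∑ l, ∑ j, ∑ k, ‖B l j k‖ ^ 2 ≤ ∑ _l : ι, ∑ _j : ι, ∑ _k : ι, b ^ 2 :=
        Finset.sum_le_sum fun l _ => Finset.sum_le_sum fun j _ => Finset.sum_le_sum fun k _ =>
          pow_le_pow_left₀ (norm_nonneg _) (h l j k) 2
    _ = _ := by
        simp only [Finset.sum_const, Finset.card_univ, nsmul_eq_mul]
        ring

/-! ### B9-CAL-N2 -/

/-- Gram matrices of the form `tr (G₂ Yᴴ K X)`. -/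
theorem gramN_posSemidef {G₂ Km : Matrix ι ι ℂ} (hG : G₂.PosSemidef) (hK : Km.PosSemidef)
    (B : ι → Matrix ι ι ℂ) :
    (Matrix.of fun m l => (G₂ * (B m)ᴴ * Km * B l).trace).PosSemidef := by
  have hH : (Matrix.of fun m l => (G₂ * (B m)ᴴ * Km * B l).trace).IsHermitian := by
    ext m l
    simp only [Matrix.conjTranspose_apply, Matrix.of_apply]
    rw [← Matrix.trace_conjTranspose]
    simp only [Matrix.conjTranspose_mul, Matrix.conjTranspose_conjTranspose, hK.isHermitian.eq,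
      hG.isHermitian.eq]
    rw [Matrix.trace_mul_comm]
    simp only [Matrix.mul_assoc]
    rw [Matrix.trace_mul_comm]
    simp only [Matrix.mul_assoc]
    rw [Matrix.trace_mul_comm]
    simp only [Matrix.mul_assoc]
  rw [posSemidef_iff_qf hH]
  intro v
  have e : star v ⬝ᵥ ((Matrix.of fun m l => (G₂ * (B m)ᴴ * Km * B l).trace) *ᵥ v)
      = (G₂ * ((∑ l, v l • B l)ᴴ * Km * (∑ l, v l • B l))).trace := by
    simp only [Matrix.conjTranspose_sum, Matrix.conjTranspose_smul, Matrix.mul_sum, Matrix.sum_mul,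
      Matrix.mul_smul, Matrix.smul_mul, Matrix.trace_sum, Matrix.trace_smul, dotProduct,
      Matrix.mulVec, Matrix.of_apply, Finset.mul_sum, smul_eq_mul, Pi.star_apply]
    rw [Finset.sum_comm]
    refine Finset.sum_congr rfl fun l _ => Finset.sum_congr rfl fun m _ => ?_
    simp only [Matrix.mul_assoc]
    ring
  rw [qf_def, e]
  exact trace_mul_nonneg hG (hK.conjTranspose_mul_mul_same _)

theorem pin_trace_bounds {G N : Matrix ι ι ℂ} {Λ : ℝ} (h : Pin G Λ) (hN : N.PosSemidef) :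
    Λ⁻¹ * N.trace.re ≤ (G * N).trace.re ∧ (G * N).trace.re ≤ Λ * N.trace.re := by
  have e : ∀ c : ℝ, ((cI c : Matrix ι ι ℂ) * N).trace.re = c * N.trace.re := by
    intro c
    simp [cI, Matrix.smul_mul, Matrix.trace_smul]
  constructor
  · rw [← e]; exact trace_mul_mono_left hN h.lower
  · rw [← e]; exact trace_mul_mono_left hN h.upper

theorem pairE_eq_trace (Km : Matrix ι ι ℂ) (B C : ι → Matrix ι ι ℂ) :
    pairE Km B C = (Km⁻¹ * Matrix.of fun m l => (Km⁻¹ * (C m)ᴴ * Km * B l).trace).trace := by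
  simp only [pairE, Matrix.trace, Matrix.diag, Matrix.mul_apply, Matrix.of_apply]

theorem fl_eq_trace (B : ι → Matrix ι ι ℂ) : fl B = ∑ l, (B l * (B l)ᴴ).trace.re := by
  unfold fl
  refine Finset.sum_congr rfl fun l _ => ?_
  simp only [Matrix.trace, Matrix.diag, Matrix.mul_apply, Matrix.conjTranspose_apply,
    Complex.re_sum]
  refine Finset.sum_congr rfl fun j _ => Finset.sum_congr rfl fun k _ => ?_
  rw [Complex.star_def, Complex.mul_conj, Complex.ofReal_re, Complex.normSq_eq_norm_sq]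

/-- the three step comparison of `pairE` with the flat norm. -/
theorem pairE_chain {Km : Matrix ι ι ℂ} {Λ : ℝ} (hΛ : 0 < Λ) (h : Pin Km Λ)
    (B : ι → Matrix ι ι ℂ) :
    ∃ f1 f2 : ℝ, Λ⁻¹ * fl B ≤ f1 ∧ f1 ≤ Λ * fl B ∧ Λ⁻¹ * f1 ≤ f2 ∧ f2 ≤ Λ * f1 ∧
      Λ⁻¹ * f2 ≤ (pairE Km B B).re ∧ (pairE Km B B).re ≤ Λ * f2 ∧
      Λ⁻¹ * f1 ≤ (∑ p, ∑ q, Km⁻¹ p q * ((B q)ᴴ * Km * B p).trace).re := by
  have hK := (h.posDef hΛ).posSemidef
  have hGp := h.inv hΛ
  have hG := (hGp.posDef hΛ).posSemidef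
  refine ⟨∑ l, ((B l)ᴴ * Km * B l).trace.re, ∑ l, (Km⁻¹ * ((B l)ᴴ * Km * B l)).trace.re,
    ?_, ?_, ?_, ?_, ?_, ?_, ?_⟩
  · rw [fl_eq_trace, Finset.mul_sum]
    refine Finset.sum_le_sum fun l _ => ?_
    have := (pin_trace_bounds h (Matrix.posSemidef_self_mul_conjTranspose (B l))).1
    have e : (Km * (B l * (B l)ᴴ)).trace = ((B l)ᴴ * Km * B l).trace := by
      rw [← Matrix.mul_assoc, Matrix.trace_mul_comm, ← Matrix.mul_assoc]
    rwa [e] at this
  · rw [fl_eq_trace, Finset.mul_sum]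
    refine Finset.sum_le_sum fun l _ => ?_
    have := (pin_trace_bounds h (Matrix.posSemidef_self_mul_conjTranspose (B l))).2
    have e : (Km * (B l * (B l)ᴴ)).trace = ((B l)ᴴ * Km * B l).trace := by
      rw [← Matrix.mul_assoc, Matrix.trace_mul_comm, ← Matrix.mul_assoc]
    rwa [e] at this
  · rw [Finset.mul_sum]
    exact Finset.sum_le_sum fun l _ =>
      (pin_trace_bounds hGp (hK.conjTranspose_mul_mul_same (B l))).1
  · rw [Finset.mul_sum]
    exact Finset.sum_le_sum fun l _ =>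
      (pin_trace_bounds hGp (hK.conjTranspose_mul_mul_same (B l))).2
  · have := (pin_trace_bounds hGp (gramN_posSemidef hG hK B)).1
    rw [← pairE_eq_trace] at this
    refine le_trans (le_of_eq ?_) this
    simp only [Matrix.trace, Matrix.diag, Matrix.of_apply, Complex.re_sum, Matrix.mul_assoc]
  · have := (pin_trace_bounds hGp (gramN_posSemidef hG hK B)).2
    rw [← pairE_eq_trace] at this
    refine le_trans this (le_of_eq ?_)
    simp only [Matrix.trace, Matrix.diag, Matrix.of_apply, Complex.re_sum, Matrix.mul_assoc]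
  · have := (pin_trace_bounds hGp (gramN_posSemidef Matrix.PosSemidef.one hK B)).1
    simp only [Matrix.one_mul] at this
    refine le_trans (le_of_eq ?_) (this.trans (le_of_eq ?_))
    · simp only [Matrix.trace, Matrix.diag, Matrix.of_apply, Complex.re_sum]
    · simp only [Matrix.trace, Matrix.diag, Matrix.mul_apply, Matrix.of_apply]

theorem pairE_self_nonneg {Km : Matrix ι ι ℂ} (hK : Km.PosDef) (B : ι → Matrix ι ι ℂ) :
    0 ≤ (pairE Km B B).re := by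
  rw [pairE_eq_trace]
  exact trace_mul_nonneg hK.inv.posSemidef (gramN_posSemidef hK.inv.posSemidef hK.posSemidef B)

theorem pairE_self_im {Km : Matrix ι ι ℂ} (hK : Km.PosDef) (B : ι → Matrix ι ι ℂ) :
    (pairE Km B B).im = 0 := by
  have := pairE_conj Km hK.isHermitian B B
  exact Complex.conj_eq_iff_im.1 this

theorem pairE_cs {Km : Matrix ι ι ℂ} (hK : Km.PosDef) (B C : ι → Matrix ι ι ℂ) :
    ‖pairE Km B C‖ ^ 2 ≤ (pairE Km B B).re * (pairE Km C C).re := by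
  let c : PreInnerProductSpace.Core ℂ (ι → Matrix ι ι ℂ) :=
    { inner := fun x y => pairE Km y x
      conj_inner_symm := fun x y => pairE_conj Km hK.isHermitian x y
      re_inner_nonneg := fun x => pairE_self_nonneg hK x
      add_left := fun x y z => pairE_add_right Km z x y
      smul_left := fun x y r => pairE_smul_right Km r y x }
  have h := @InnerProductSpace.Core.inner_mul_inner_self_le ℂ _ _ _ _ c C B
  have h1 : ‖pairE Km B C‖ * ‖pairE Km C B‖ ≤ (pairE Km C C).re * (pairE Km B B).re := h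
  have h2 : ‖pairE Km C B‖ = ‖pairE Km B C‖ := by
    rw [← pairE_conj Km hK.isHermitian B C, norm_star]
  rw [h2] at h1
  nlinarith

theorem pairE_cs' {Km : Matrix ι ι ℂ} (hK : Km.PosDef) (B C : ι → Matrix ι ι ℂ) :
    ‖pairE Km B C‖ ≤ Real.sqrt (pairE Km B B).re * Real.sqrt (pairE Km C C).re := by
  have h := pairE_cs hK B C
  have hb := pairE_self_nonneg hK B
  have hc := pairE_self_nonneg hK C
  rw [← Real.sqrt_mul hb]
  exact Real.le_sqrt_of_sq_le h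

/-! ### B9-CAL-N3 -/

theorem pairE_flat (ι : Type) [Fintype ι] [DecidableEq ι] (Λ : ℝ) (hΛ : 0 < Λ) :
    ∃ C : ℝ, 0 < C ∧ ∀ (Km : Matrix ι ι ℂ) (B : ι → Matrix ι ι ℂ), Pin Km Λ →
      (pairE Km B B).re ≤ C * fl B ∧ fl B ≤ C * (pairE Km B B).re := by
  refine ⟨Λ ^ 3, by positivity, fun Km B h => ?_⟩
  obtain ⟨f1, f2, a1, a2, a3, a4, a5, a6, -⟩ := pairE_chain hΛ h B
  have hi : 0 < Λ⁻¹ := inv_pos.2 hΛ
  constructor
  · calc (pairE Km B B).re ≤ Λ * f2 := a6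
      _ ≤ Λ * (Λ * f1) := mul_le_mul_of_nonneg_left a4 hΛ.le
      _ ≤ Λ * (Λ * (Λ * fl B)) := mul_le_mul_of_nonneg_left (mul_le_mul_of_nonneg_left a2 hΛ.le) hΛ.le
      _ = Λ ^ 3 * fl B := by ring
  · have b1 : fl B ≤ Λ * f1 := by
      have := mul_le_mul_of_nonneg_left a1 hΛ.le
      rwa [← mul_assoc, mul_inv_cancel₀ hΛ.ne', one_mul] at this
    have b2 : f1 ≤ Λ * f2 := by
      have := mul_le_mul_of_nonneg_left a3 hΛ.le
      rwa [← mul_assoc, mul_inv_cancel₀ hΛ.ne', one_mul] at this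
    have b3 : f2 ≤ Λ * (pairE Km B B).re := by
      have := mul_le_mul_of_nonneg_left a5 hΛ.le
      rwa [← mul_assoc, mul_inv_cancel₀ hΛ.ne', one_mul] at this
    calc fl B ≤ Λ * f1 := b1
      _ ≤ Λ * (Λ * f2) := mul_le_mul_of_nonneg_left b2 hΛ.le
      _ ≤ Λ * (Λ * (Λ * (pairE Km B B).re)) :=
          mul_le_mul_of_nonneg_left (mul_le_mul_of_nonneg_left b3 hΛ.le) hΛ.le
      _ = Λ ^ 3 * (pairE Km B B).re := by ring

theorem str_lower (ι : Type) [Fintype ι] [DecidableEq ι] (Λ : ℝ) (hΛ : 0 < Λ) :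
    ∃ c : ℝ, 0 < c ∧ ∀ (Km : Matrix ι ι ℂ) (A : ι → Matrix ι ι ℂ), Pin Km Λ →
      c * (pairE Km A A).re ≤ (∑ p, ∑ q, Km⁻¹ p q * ((A q)ᴴ * Km * A p).trace).re := by
  refine ⟨Λ⁻¹ ^ 3, by positivity, fun Km A h => ?_⟩
  obtain ⟨f1, f2, a1, a2, a3, a4, a5, a6, a7⟩ := pairE_chain hΛ h A
  have hi : 0 < Λ⁻¹ := inv_pos.2 hΛ
  refine le_trans ?_ a7
  have b1 : Λ⁻¹ * (pairE Km A A).re ≤ f2 := by
    have := mul_le_mul_of_nonneg_left a6 hi.le
    rwa [← mul_assoc, inv_mul_cancel₀ hΛ.ne', one_mul] at this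
  have b2 : Λ⁻¹ * f2 ≤ f1 := by
    have := mul_le_mul_of_nonneg_left a4 hi.le
    rwa [← mul_assoc, inv_mul_cancel₀ hΛ.ne', one_mul] at this
  calc Λ⁻¹ ^ 3 * (pairE Km A A).re = Λ⁻¹ * (Λ⁻¹ * (Λ⁻¹ * (pairE Km A A).re)) := by ring
    _ ≤ Λ⁻¹ * (Λ⁻¹ * f2) := mul_le_mul_of_nonneg_left (mul_le_mul_of_nonneg_left b1 hi.le) hi.le
    _ ≤ Λ⁻¹ * f1 := mul_le_mul_of_nonneg_left b2 hi.le

theorem entry_actE_le (X : Matrix ι ι ℂ) (B : ι → Matrix ι ι ℂ) (x b : ℝ) (hx : ∀ j k, ‖X j k‖ ≤ x)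
    (hb : ∀ l j k, ‖B l j k‖ ≤ b) (l j k : ι) :
    ‖actE X B l j k‖ ≤ 3 * Fintype.card ι * (x * b) := by
  have hx0 : 0 ≤ x := (norm_nonneg _).trans (hx j k)
  have hb0 : 0 ≤ b := (norm_nonneg _).trans (hb l j k)
  have hs : ∀ f : ι → ℂ, (∀ m, ‖f m‖ ≤ x * b) → ‖∑ m, f m‖ ≤ Fintype.card ι * (x * b) := by
    intro f hf
    calc ‖∑ m, f m‖ ≤ ∑ _m : ι, x * b := (norm_sum_le _ _).trans (Finset.sum_le_sum fun m _ => hf m)
      _ = _ := by simp only [Finset.sum_const, Finset.card_univ, nsmul_eq_mul]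
  unfold actE
  simp only [Matrix.sub_apply, Matrix.sum_apply, Matrix.smul_apply, Matrix.mul_apply, smul_eq_mul]
  have h1 := hs (fun m => X j m * B l m k) fun m => by
    rw [norm_mul]; exact mul_le_mul (hx _ _) (hb _ _ _) (norm_nonneg _) hx0
  have h2 := hs (fun m => B l j m * X m k) fun m => by
    rw [norm_mul, mul_comm]; exact mul_le_mul (hx _ _) (hb _ _ _) (norm_nonneg _) hx0
  have h3 := hs (fun m => X m l * B m j k) fun m => by
    rw [norm_mul]; exact mul_le_mul (hx _ _) (hb _ _ _) (norm_nonneg _) hx0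
  have n1 := norm_sub_le (∑ m, X j m * B l m k - ∑ m, B l j m * X m k) (∑ m, X m l * B m j k)
  have n2 := norm_sub_le (∑ m, X j m * B l m k) (∑ m, B l j m * X m k)
  linarith

/-! ### B9-CAL-N4 -/

theorem pairE_sum_right {α : Type} (s : Finset α) (Km : Matrix ι ι ℂ) (B : ι → Matrix ι ι ℂ)
    (C : α → ι → Matrix ι ι ℂ) :
    pairE Km B (fun l => ∑ a ∈ s, C a l) = ∑ a ∈ s, pairE Km B (C a) := by
  unfold pairE
  simp only [Matrix.conjTranspose_sum, Matrix.mul_sum, Matrix.sum_mul, Matrix.trace_sum,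
    Finset.mul_sum]
  rw [Finset.sum_comm' (s := s) (t := fun _ => Finset.univ) (t' := Finset.univ) (s' := fun _ => s)
    (by simp)]
  refine Finset.sum_congr rfl fun l _ => ?_
  rw [Finset.sum_comm' (s := s) (t := fun _ => Finset.univ) (t' := Finset.univ) (s' := fun _ => s)
    (by simp)]

/-- Gram matrices of `pairE`. -/
theorem gramW_posSemidef {Km : Matrix ι ι ℂ} (hK : Km.PosDef) (V : ι → ι → Matrix ι ι ℂ) :
    (Matrix.of fun q p => pairE Km (V p) (V q)).PosSemidef := by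
  have hH : (Matrix.of fun q p => pairE Km (V p) (V q)).IsHermitian := by
    ext q p
    simp only [Matrix.conjTranspose_apply, Matrix.of_apply]
    exact pairE_conj Km hK.isHermitian _ _
  rw [posSemidef_iff_qf hH]
  intro v
  have e : star v ⬝ᵥ ((Matrix.of fun q p => pairE Km (V p) (V q)) *ᵥ v)
      = pairE Km (fun l => ∑ p, v p • V p l) (fun l => ∑ q, v q • V q l) := by
    rw [pairE_sum_left]
    simp only [pairE_sum_right, pairE_smul_left, pairE_smul_right, dotProduct, Matrix.mulVec,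
      Matrix.of_apply, Finset.mul_sum, Pi.star_apply]
    rw [Finset.sum_comm]
    refine Finset.sum_congr rfl fun p _ => Finset.sum_congr rfl fun q _ => ?_
    ring
  rw [qf_def, e]
  exact pairE_self_nonneg hK _

theorem gram_lower {Km : Matrix ι ι ℂ} {Λ : ℝ} (hΛ : 0 < Λ) (h : Pin Km Λ)
    (V : ι → ι → Matrix ι ι ℂ) :
    Λ⁻¹ * ∑ p, (pairE Km (V p) (V p)).re ≤ (∑ p, ∑ q, Km⁻¹ p q * pairE Km (V p) (V q)).re := by
  have hGp := h.inv hΛ
  have := (pin_trace_bounds hGp (gramW_posSemidef (h.posDef hΛ) V)).1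
  refine le_trans (le_of_eq ?_) (this.trans (le_of_eq ?_))
  · simp only [Matrix.trace, Matrix.diag, Matrix.of_apply, Complex.re_sum]
  · simp only [Matrix.trace, Matrix.diag, Matrix.mul_apply, Matrix.of_apply]

theorem gram_lower' {Km : Matrix ι ι ℂ} {Λ : ℝ} (hΛ : 0 < Λ) (h : Pin Km Λ)
    (V : ι → ι → Matrix ι ι ℂ) :
    Λ⁻¹ * ∑ p, (pairE Km (V p) (V p)).re ≤ (∑ p, ∑ q, Km⁻¹ p q * pairE Km (V q) (V p)).re := by
  have hGp := h.inv hΛ
  have := (pin_trace_bounds hGp (gramW_posSemidef (h.posDef hΛ) V).transpose).1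
  refine le_trans (le_of_eq ?_) (this.trans (le_of_eq ?_))
  · simp only [Matrix.trace, Matrix.diag, Matrix.of_apply, Matrix.transpose_apply, Complex.re_sum]
  · simp only [Matrix.trace, Matrix.diag, Matrix.mul_apply, Matrix.of_apply,
      Matrix.transpose_apply]

end Claimed.Agent.R316.B9
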