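import Claimed.Agent.R316.B9.Cont
import Claimed.Agent.R316.B9.CalNorm
import Claimed.Agent.R316.B8M.Cont
import Claimed.Agent.R316.B8M.Atlas

/-!
# Row 316, package B9: `S3.StContinuation` (R3) = adapter on `B8M.UAtlas.continuation` (helper111) + a priori estimates (R1)

`A : UAtlas V (CE (Fin n))` from `B8M.exists_uatlas_of_bddGeom` (`AtlasOK`: `A.X = X.carrier`, every `A.Φ i` is a `UChart X α 3 Λ' Ck'`).

* `leviB B`: the Levi matrix of the symmetric part of a real bilinear form `B` on `ℂ^ι` (`levi f z = leviB (D² f z)`).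
* `crM α A i t z J = α_i(z) - t Ric_i(z) + leviB J.2.2`,  `crF α A i t z J = log (det (crM …) / det α_i(z))`,  `crG α A i t z = {J | crM … > 0}`.
* `A.SolCl (crF α A) (crG α A) T' u ut`  ⟹  a `CRSol X α T'` with `U = u` (`solCl_to_crsol`).
* a priori: for every `CRSol` with `C⁻¹ α ≤ K ≤ C α`: `A.SmM (S.U t) Cg` (`apriori_SmM`: `crsol_U_bounds` in the TRANSLATED charts `z ↦ A.Φ i (z₀ + z)`, `|z₀| < 2`, radius `1`; then
  `A.exists_SmM_of_ball2`).
* restart condition (`good_of_bounds`): if `A.SmM g Cg` and `Pin (crM α A i t₀ z (jet g)) Λ₀` then the shifted nonlinearity satisfies `A.NLHyp (min σ (T - t₀)) δ lam CF` and the tube is admissible, with `σ, δ, lam, CF`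
  depending only on `A, Λ', Ck', Λ₀, Cg, T`:  `σ sup|Ric| n ≤ 1/(4 Λ₀)`, `δ n ≤ 1/(4 Λ₀)`, so `crM ≥ 1/(2 Λ₀)` on the tube (a Hermitian matrix with entries `≤ ε` is `≤ n ε`).

Leaves
* **B9-CA-1** `levi_eq_leviB`, `leviB_clm`, `leviB_isHermitian`, `leviB_sqB`, `sum_normSq_cov`, `leviB_pullJ`.
  (`leviB_pullJ`: `L = Dτ(z)` is ℂ-linear, `Q = D²τ(z)` is ℂ-bilinear, so the term `p(Q(·,·))` has zero Levi part: `Q(iv,iw) = -Q(v,w)`, `Q(iv,w) = Q(v,iw)`; `L e_k = ∑_a (jac τ z) a k • e_a`.)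
* **B9-CA-2** `crF_compat`, `crM_jet` (`A.tr i j = invFunOn (A.Φ j) (ball 0 3) ∘ A.Φ i` on `A.dom i j` by `A.inj`; `X.compat`; `IsHForm.compat` for `α`, `ricF α` (`isHForm_ricF`); `det (Jᴴ M J) / det (Jᴴ a J) = det M / det a`).
* **B9-CA-3** `exists_SmB_thickening`, `ric_SmB`, `crF_SmN`.
* **B9-CA-4** `crF_tube` (pinching on the tube), `crF_EllN` (`fderiv_J log det M = tr (M⁻¹ leviB ·)`, `leviB_sqB`, `sum_normSq_cov`), `good_of_bounds`.
* **B9-CA-5** `smoothST_of_atlas`, `pin_of_det`, `solCl_to_crsol`.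
* **B9-CA-6** `UChart.translate`, `apriori_SmM`.
* **B9-CA-7** `stContinuation`.
-/

set_option autoImplicit false
set_option maxSynthPendingDepth 3
open scoped ContDiff ComplexOrder Topology Matrix

namespace Claimed.Agent.R316.B8M

open Set Filter Metric
open Claimed.Agent.R316 Claimed.Agent.R316.S3 Claimed.Agent.R316.B8

/-! ### complements to the `SmB` calculus (used here and in `B8M/Export.lean`) -/

section SmBMore

variable {n : ℕ}

theorem SmB.zero_fun {W G : Type*} [NormedAddCommGroup W] [NormedSpace ℝ W] [NormedAddCommGroup G]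
    [NormedSpace ℝ G] (Q : Set W) : SmB Q (fun _ => (0 : G)) (fun _ => 0) :=
  ⟨contDiffOn_const, fun k q _ => by simp⟩

theorem SmB.finset_sum {W G ι' : Type*} [NormedAddCommGroup W] [NormedSpace ℝ W]
    [NormedAddCommGroup G] [NormedSpace ℝ G] (s : Finset ι') {Q : Set W} {g : ι' → W → G}
    {C : ι' → ℕ → ℝ} (hQ : UniqueDiffOn ℝ Q) (h : ∀ a ∈ s, SmB Q (g a) (C a)) :
    SmB Q (fun q => ∑ a ∈ s, g a q) (fun k => ∑ a ∈ s, C a k) := by
  classical
  induction s using Finset.induction_on with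
  | empty => simpa using SmB.zero_fun (G := G) Q
  | insert a s ha ih =>
    have h1 := (h a (Finset.mem_insert_self a s)).add
      (ih fun b hb => h b (Finset.mem_insert_of_mem hb)) hQ
    simpa only [Finset.sum_insert ha] using h1

/-- a matrix valued map with bounded entries. -/
theorem exists_SmB_matrix {W : Type*} [NormedAddCommGroup W] [NormedSpace ℝ W] (n : ℕ)
    (Bk : ℕ → ℝ) : ∃ C : ℕ → ℝ, ∀ (Q : Set W) (k : W → Fin n → Fin n → ℂ), UniqueDiffOn ℝ Q →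
      (∀ j l, SmB Q (fun q => k q j l) Bk) → SmB Q k C := by
  let E : Fin n × Fin n → ℂ →L[ℝ] (Fin n → Fin n → ℂ) := fun p =>
    (ContinuousLinearMap.single ℝ (fun _ : Fin n => Fin n → ℂ) p.1) ∘L
      (ContinuousLinearMap.single ℝ (fun _ : Fin n => ℂ) p.2)
  refine ⟨fun m => ∑ p : Fin n × Fin n, ‖E p‖ * Bk m, fun Q k hQ hk => ?_⟩
  have h1 := SmB.finset_sum (Finset.univ : Finset (Fin n × Fin n)) hQ
    (g := fun p q => E p (k q p.1 p.2)) (C := fun p m => ‖E p‖ * Bk m)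
    (fun p _ => (hk p.1 p.2).clm_comp hQ (E p))
  refine h1.congr fun q _ => ?_
  funext a b
  simp only [E, Finset.sum_apply, ContinuousLinearMap.comp_apply, ContinuousLinearMap.single_apply,
    Fintype.sum_prod_type, Pi.single_apply]
  rw [Finset.sum_eq_single a (fun x _ hx => by simp [Ne.symm hx]) (fun h => absurd (Finset.mem_univ a) h)]
  simp [Pi.single_apply]

/-- the pinched matrices. -/
def lapPinSet (n : ℕ) (Λ : ℝ) : Set (Fin n → Fin n → ℂ) :=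
  {M | leM (cI Λ⁻¹) (Matrix.of M) ∧ leM (Matrix.of M) (cI Λ)}

theorem posDef_of_cI_le {Λ : ℝ} (hΛ : 0 < Λ) {H : Matrix (Fin n) (Fin n) ℂ} (h : leM (cI Λ⁻¹) H) :
    H.PosDef :=
  posDef_of_loewner (posDef_smul_real (inv_pos.2 hΛ) Matrix.PosDef.one) h

theorem isCompact_lapPinSet {Λ : ℝ} (hΛ : 0 < Λ) : IsCompact (lapPinSet n Λ) := by
  refine Metric.isCompact_of_isClosed_isBounded ?_ ?_
  · refine IsSeqClosed.isClosed fun Ms M hMs hlim => ?_
    have hent : ∀ j k, Tendsto (fun a => Ms a j k) atTop (𝓝 (M j k)) := fun j k =>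
      tendsto_pi_nhds.1 (tendsto_pi_nhds.1 hlim j) k
    constructor
    · exact posSemidef_of_tendsto (F := fun a => Matrix.of (Ms a) - cI Λ⁻¹)
        (Eventually.of_forall fun a => (hMs a).1) (fun j k => (hent j k).sub_const _)
    · exact posSemidef_of_tendsto (F := fun a => cI Λ - Matrix.of (Ms a))
        (Eventually.of_forall fun a => (hMs a).2) (fun j k => (hent j k).const_sub _)
  · refine (Metric.isBounded_iff_subset_closedBall 0).2 ⟨Λ, fun M hM => ?_⟩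
    rw [mem_closedBall_zero_iff, pi_norm_le_iff_of_nonneg hΛ.le]
    intro j
    rw [pi_norm_le_iff_of_nonneg hΛ.le]
    intro k
    have h2 : (Matrix.of M + ((Λ : ℝ) : ℂ) • (1 : Matrix (Fin n) (Fin n) ℂ)).PosSemidef :=
      (posDef_of_cI_le hΛ hM.1).posSemidef.add (posSemidef_smul_real hΛ.le Matrix.PosSemidef.one)
    exact norm_entry_le_of_loewner (A := Matrix.of M) hM.2 h2 j k

/-- bounds for the derivatives within a bigger set. -/
theorem SmB.of_bdd_subset {W G : Type*} [NormedAddCommGroup W] [NormedSpace ℝ W]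
    [NormedAddCommGroup G] [NormedSpace ℝ G] {Q Q' : Set W} {g : W → G} {C : ℕ → ℝ}
    (hs : ContDiffOn ℝ ∞ g Q) (hQ : UniqueDiffOn ℝ Q) (hQ' : UniqueDiffOn ℝ Q') (hsub : Q' ⊆ Q)
    (hb : ∀ k, ∀ q ∈ Q', ‖iteratedFDerivWithin ℝ k g Q q‖ ≤ C k) : SmB Q' g C := by
  refine ⟨hs.mono hsub, fun k q hq => ?_⟩
  rw [iteratedFDerivWithin_subset hsub hQ' hQ (hs.of_le (by exact_mod_cast le_top)) hq]
  exact hb k q hq

end SmBMore

end Claimed.Agent.R316.B8M

namespace Claimed.Agent.R316.B9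

open Claimed.Agent.R316.S3 Claimed.Agent.R316.B8 Claimed.Agent.R316.B8M

section LeviB

variable {ι : Type} [Fintype ι] [DecidableEq ι]

/-- the Levi matrix of (the symmetric part of) a real bilinear form on `ℂ^ι`; ALWAYS Hermitian (the tubes of B8M contain
non symmetric jets). -/
noncomputable def leviB (B : Bil (CE ι)) : Matrix ι ι ℂ := fun j k =>
  (1 / 8 : ℂ) * (((B (eb j) (eb k) + B (eb k) (eb j) + B (Complex.I • eb j) (Complex.I • eb k)
        + B (Complex.I • eb k) (Complex.I • eb j) : ℝ) : ℂ)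
    + Complex.I * ((B (Complex.I • eb j) (eb k) + B (eb k) (Complex.I • eb j)
        - B (eb j) (Complex.I • eb k) - B (Complex.I • eb k) (eb j) : ℝ) : ℂ))

/-- the `(1,0)` components of a real covector. -/
noncomputable def cov10 (ξ : CE ι →L[ℝ] ℝ) (k : ι) : ℂ :=
  ((ξ (eb k) : ℝ) : ℂ) - Complex.I * ((ξ (Complex.I • eb k) : ℝ) : ℂ)

/-! ### B9-CA-1 -/

theorem snd_ofReal {f : CE ι → ℝ} {z : CE ι} (hf : ContDiffAt ℝ 2 f z) (u v : CE ι) :
    fderiv ℝ (fderiv ℝ (fun y => ((f y : ℝ) : ℂ))) z u v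
      = ((fderiv ℝ (fderiv ℝ f) z u v : ℝ) : ℂ) := by
  have hd : ∀ᶠ w in 𝓝 z, DifferentiableAt ℝ f w := lv_eventually_differentiableAt_real hf
  have he : fderiv ℝ (fun y => ((f y : ℝ) : ℂ))
      =ᶠ[𝓝 z] fun w => Complex.ofRealCLM.comp (fderiv ℝ f w) := by
    filter_upwards [hd] with w hw
    exact (Complex.ofRealCLM.hasFDerivAt.comp w hw.hasFDerivAt).fderiv
  have h1 : DifferentiableAt ℝ (fderiv ℝ f) z :=
    (hf.fderiv_right (m := 1) (by norm_num)).differentiableAt (by norm_num)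
  have h2 := ((ContinuousLinearMap.compL ℝ (CE ι) ℝ ℂ Complex.ofRealCLM).hasFDerivAt.comp z
    h1.hasFDerivAt).fderiv
  have h3 : fderiv ℝ (fun w => Complex.ofRealCLM.comp (fderiv ℝ f w)) z = _ := h2
  rw [he.fderiv_eq, h3]
  rfl

theorem levi_eq_leviB {f : CE ι → ℝ} {z : CE ι} (hf : ContDiffAt ℝ 2 f z) :
    levi f z = leviB (fderiv ℝ (fderiv ℝ f) z) := by
  have hs : ∀ u v, fderiv ℝ (fderiv ℝ f) z u v = fderiv ℝ (fderiv ℝ f) z v u := fun u v =>
    hf.isSymmSndFDerivAt (by rw [minSmoothness_of_isRCLikeNormedField]) u v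
  have hF : ContDiffAt ℝ 2 (fun y => ((f y : ℝ) : ℂ)) z := contDiffAt_ofReal hf
  ext j k
  rw [levi_apply, dzb_def, fderiv_dz_apply hF, fderiv_dz_apply hF]
  simp only [snd_ofReal hf]
  unfold leviB
  rw [hs (eb k) (eb j), hs (Complex.I • eb k) (Complex.I • eb j), hs (eb k) (Complex.I • eb j),
    hs (Complex.I • eb k) (eb j)]
  push_cast
  linear_combination (-(1 / 4 : ℂ)) *
    ((fderiv ℝ (fderiv ℝ f) z (Complex.I • eb j) (Complex.I • eb k) : ℝ) : ℂ) * Complex.I_sq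

theorem leviB_clm : ∃ L : Bil (CE ι) →L[ℝ] (ι → ι → ℂ), (∀ B j k, L B j k = leviB B j k) ∧ ‖L‖ ≤ 1 := by
  have hb : ∀ (B : Bil (CE ι)) (u v : CE ι), ‖u‖ = 1 → ‖v‖ = 1 → |B u v| ≤ ‖B‖ := by
    intro B u v hu hv
    have := B.le_opNorm₂ u v
    rwa [hu, hv, mul_one, mul_one, Real.norm_eq_abs] at this
  have n1 : ∀ j : ι, ‖(eb j : CE ι)‖ = 1 := fun j => by simp [eb]
  have n2 : ∀ j : ι, ‖Complex.I • (eb j : CE ι)‖ = 1 := fun j => by
    rw [norm_smul, n1, Complex.norm_I, mul_one]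
  let L₀ : Bil (CE ι) →ₗ[ℝ] (ι → ι → ℂ) :=
    { toFun := fun B j k => leviB B j k
      map_add' := by
        intro B B'
        funext j k
        simp only [leviB, add_apply, Pi.add_apply]
        push_cast
        ring
      map_smul' := by
        intro c B
        funext j k
        simp only [leviB, smul_apply, Pi.smul_apply, smul_eq_mul,
          RingHom.id_apply, Complex.real_smul]
        push_cast
        ring }
  have hL : ∀ B, ‖L₀ B‖ ≤ 1 * ‖B‖ := by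
    intro B
    rw [one_mul, pi_norm_le_iff_of_nonneg (norm_nonneg _)]
    intro j
    rw [pi_norm_le_iff_of_nonneg (norm_nonneg _)]
    intro k
    show ‖leviB B j k‖ ≤ ‖B‖
    unfold leviB
    rw [norm_mul]
    have h8 : ‖(1 / 8 : ℂ)‖ = 1 / 8 := by norm_num
    rw [h8]
    have a1 : ‖(((B (eb j) (eb k) + B (eb k) (eb j) + B (Complex.I • eb j) (Complex.I • eb k)
        + B (Complex.I • eb k) (Complex.I • eb j) : ℝ) : ℂ))‖ ≤ 4 * ‖B‖ := by
      rw [Complex.norm_real, Real.norm_eq_abs]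
      have b1 := hb B _ _ (n1 j) (n1 k)
      have b2 := hb B _ _ (n1 k) (n1 j)
      have b3 := hb B _ _ (n2 j) (n2 k)
      have b4 := hb B _ _ (n2 k) (n2 j)
      rw [abs_le] at b1 b2 b3 b4 ⊢
      constructor <;> linarith [b1.1, b1.2, b2.1, b2.2, b3.1, b3.2, b4.1, b4.2]
    have a2 : ‖Complex.I * ((B (Complex.I • eb j) (eb k) + B (eb k) (Complex.I • eb j)
        - B (eb j) (Complex.I • eb k) - B (Complex.I • eb k) (eb j) : ℝ) : ℂ)‖ ≤ 4 * ‖B‖ := by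
      rw [norm_mul, Complex.norm_I, one_mul, Complex.norm_real, Real.norm_eq_abs]
      have b1 := hb B _ _ (n2 j) (n1 k)
      have b2 := hb B _ _ (n1 k) (n2 j)
      have b3 := hb B _ _ (n1 j) (n2 k)
      have b4 := hb B _ _ (n2 k) (n1 j)
      rw [abs_le] at b1 b2 b3 b4 ⊢
      constructor <;> linarith [b1.1, b1.2, b2.1, b2.2, b3.1, b3.2, b4.1, b4.2]
    have := (norm_add_le _ _).trans (add_le_add a1 a2)
    linarith
  exact ⟨L₀.mkContinuous 1 hL, fun B j k => rfl, L₀.mkContinuous_norm_le zero_le_one hL⟩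

theorem leviB_isHermitian (B : Bil (CE ι)) : (leviB B).IsHermitian := by
  ext j k
  rw [Matrix.conjTranspose_apply]
  unfold leviB
  simp only [star_mul', star_add, Complex.star_def, Complex.conj_ofReal, Complex.conj_I, map_div₀,
    map_one, map_ofNat]
  push_cast
  ring

theorem leviB_sqB (ξ : CE ι →L[ℝ] ℝ) (j k : ι) :
    leviB (sqB ξ) j k = (1 / 4 : ℂ) * (star (cov10 ξ j) * cov10 ξ k) := by
  have hs : ∀ u v, sqB ξ u v = ξ u * ξ v := fun u v => by simp [sqB]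
  unfold leviB cov10
  simp only [hs, star_sub, star_mul', Complex.star_def, Complex.conj_ofReal, Complex.conj_I]
  push_cast
  linear_combination ((1 / 4 : ℂ)) * ((ξ (Complex.I • eb j) : ℝ) : ℂ)
    * ((ξ (Complex.I • eb k) : ℝ) : ℂ) * Complex.I_sq

theorem sum_normSq_cov (ξ : CE ι →L[ℝ] ℝ) : ∑ k, ‖cov10 ξ k‖ ^ 2 = ‖ξ‖ ^ 2 := by
  obtain ⟨w, hw⟩ : ∃ w : CE ι, w = (InnerProductSpace.toDual ℝ (CE ι)).symm ξ := ⟨_, rfl⟩
  have hn : ‖ξ‖ = ‖w‖ := by rw [hw, LinearIsometryEquiv.norm_map]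
  have hx : ∀ v : CE ι, ξ v = ∑ j, ((starRingEnd ℂ) (w j) * v j).re := by
    intro v
    have h1 : inner ℝ w v = ξ v := by rw [hw, InnerProductSpace.toDual_symm_apply]
    rw [← h1, PiLp.inner_apply]
    simp only [Complex.inner, mul_comm]
  have hc : ∀ k, cov10 ξ k = star (w k) := by
    intro k
    unfold cov10
    rw [hx, hx]
    have e1 : ∑ j, ((starRingEnd ℂ) (w j) * (eb k : CE ι) j).re = (w k).re := by
      rw [Finset.sum_eq_single k]
      · simp [eb_apply]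
      · intro b _ hb
        simp [eb_apply, hb]
      · intro h
        exact absurd (Finset.mem_univ k) h
    have e2 : ∑ j, ((starRingEnd ℂ) (w j) * (Complex.I • (eb k : CE ι)) j).re = (w k).im := by
      rw [Finset.sum_eq_single k]
      · simp [eb_apply]
      · intro b _ hb
        simp [eb_apply, hb]
      · intro h
        exact absurd (Finset.mem_univ k) h
    rw [e1, e2]
    apply Complex.ext <;> simp
  rw [hn, EuclideanSpace.norm_sq_eq]
  simp only [hc, norm_star]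

/-- the sesquilinear form behind `leviB`. -/
noncomputable def lvF (H : Bil (CE ι)) (u v : CE ι) : ℂ :=
  (1 / 8 : ℂ) * (((H u v + H v u + H (Complex.I • u) (Complex.I • v)
        + H (Complex.I • v) (Complex.I • u) : ℝ) : ℂ)
    + Complex.I * ((H (Complex.I • u) v + H v (Complex.I • u)
        - H u (Complex.I • v) - H (Complex.I • v) u : ℝ) : ℂ))

theorem leviB_eq_lvF (H : Bil (CE ι)) (j k : ι) : leviB H j k = lvF H (eb j) (eb k) := rfl

omit [DecidableEq ι] in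
theorem lvF_add_right (H : Bil (CE ι)) (u v v' : CE ι) :
    lvF H u (v + v') = lvF H u v + lvF H u v' := by
  unfold lvF
  simp only [map_add, smul_add, add_apply]
  push_cast
  ring

omit [DecidableEq ι] in
theorem lvF_add_left (H : Bil (CE ι)) (u u' v : CE ι) :
    lvF H (u + u') v = lvF H u v + lvF H u' v := by
  unfold lvF
  simp only [map_add, smul_add, add_apply]
  push_cast
  ring

omit [DecidableEq ι] in
theorem lvF_rsmul_right (H : Bil (CE ι)) (u v : CE ι) (c : ℝ) :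
    lvF H u (c • v) = (c : ℂ) * lvF H u v := by
  unfold lvF
  simp only [smul_comm Complex.I c, map_smul, smul_apply, smul_eq_mul]
  push_cast
  ring

omit [DecidableEq ι] in
theorem lvF_rsmul_left (H : Bil (CE ι)) (u v : CE ι) (c : ℝ) :
    lvF H (c • u) v = (c : ℂ) * lvF H u v := by
  unfold lvF
  simp only [smul_comm Complex.I c, map_smul, smul_apply, smul_eq_mul]
  push_cast
  ring

omit [DecidableEq ι] in
theorem lvF_I_right (H : Bil (CE ι)) (u v : CE ι) :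
    lvF H u (Complex.I • v) = Complex.I * lvF H u v := by
  unfold lvF
  simp only [smul_smul, Complex.I_mul_I, neg_smul, one_smul, map_neg,
    neg_apply]
  push_cast
  linear_combination (-(1 / 8 : ℂ)) * (((H (Complex.I • u) v : ℝ) : ℂ)
    + ((H v (Complex.I • u) : ℝ) : ℂ) - ((H u (Complex.I • v) : ℝ) : ℂ)
    - ((H (Complex.I • v) u : ℝ) : ℂ)) * Complex.I_sq

omit [DecidableEq ι] in
theorem lvF_I_left (H : Bil (CE ι)) (u v : CE ι) :
    lvF H (Complex.I • u) v = - Complex.I * lvF H u v := by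
  unfold lvF
  simp only [smul_smul, Complex.I_mul_I, neg_smul, one_smul, map_neg,
    neg_apply]
  push_cast
  linear_combination ((1 / 8 : ℂ)) * (((H (Complex.I • u) v : ℝ) : ℂ)
    + ((H v (Complex.I • u) : ℝ) : ℂ) - ((H u (Complex.I • v) : ℝ) : ℂ)
    - ((H (Complex.I • v) u : ℝ) : ℂ)) * Complex.I_sq

omit [DecidableEq ι] in
theorem lvF_smul_right (H : Bil (CE ι)) (u v : CE ι) (c : ℂ) :
    lvF H u (c • v) = c * lvF H u v := by
  conv_lhs => rw [← Complex.re_add_im c]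
  rw [add_smul, mul_smul, Complex.coe_smul, Complex.coe_smul, lvF_add_right, lvF_rsmul_right,
    lvF_rsmul_right, lvF_I_right]
  conv_rhs => rw [← Complex.re_add_im c]
  ring

omit [DecidableEq ι] in
theorem lvF_smul_left (H : Bil (CE ι)) (u v : CE ι) (c : ℂ) :
    lvF H (c • u) v = star c * lvF H u v := by
  conv_lhs => rw [← Complex.re_add_im c]
  rw [add_smul, mul_smul, Complex.coe_smul, Complex.coe_smul, lvF_add_left, lvF_rsmul_left,
    lvF_rsmul_left, lvF_I_left]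
  have : star c = ((c.re : ℝ) : ℂ) - ((c.im : ℝ) : ℂ) * Complex.I := by
    apply Complex.ext <;> simp
  rw [this]
  ring

omit [DecidableEq ι] in
theorem lvF_sum_right {α : Type} (H : Bil (CE ι)) (u : CE ι) (s : Finset α) (f : α → CE ι) :
    lvF H u (∑ a ∈ s, f a) = ∑ a ∈ s, lvF H u (f a) := by
  classical
  induction s using Finset.induction_on with
  | empty => simp [lvF]
  | insert a s ha ih => rw [Finset.sum_insert ha, Finset.sum_insert ha, lvF_add_right, ih]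

omit [DecidableEq ι] in
theorem lvF_sum_left {α : Type} (H : Bil (CE ι)) (v : CE ι) (s : Finset α) (f : α → CE ι) :
    lvF H (∑ a ∈ s, f a) v = ∑ a ∈ s, lvF H (f a) v := by
  classical
  induction s using Finset.induction_on with
  | empty => simp [lvF]
  | insert a s ha ih => rw [Finset.sum_insert ha, Finset.sum_insert ha, lvF_add_left, ih]

theorem leviB_pullJ {τ : CE ι → CE ι} {z : CE ι} (hτ : ∀ᶠ w in 𝓝 z, DifferentiableAt ℂ τ w)
    (J : Jet (CE ι)) :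
    leviB (pullJ (fderiv ℝ τ z) (fderiv ℝ (fderiv ℝ τ) z) J).2.2
      = (jac τ z)ᴴ * leviB J.2.2 * jac τ z := by
  have hτz : DifferentiableAt ℂ τ z := hτ.self_of_nhds
  have h2 : ContDiffAt ℝ 2 τ z := (hol_contDiffAt_real hτ).of_le lv_two_le_infty
  obtain ⟨L, hLd⟩ : ∃ L, L = fderiv ℝ τ z := ⟨_, rfl⟩
  obtain ⟨Q, hQd⟩ : ∃ Q, Q = fderiv ℝ (fderiv ℝ τ) z := ⟨_, rfl⟩
  rw [← hLd, ← hQd]
  have hL' : L = (fderiv ℂ τ z).restrictScalars ℝ := by
    rw [hLd]; exact hτz.fderiv_restrictScalars ℝ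
  have hL : ∀ v, L (Complex.I • v) = Complex.I • L v := by
    intro v
    rw [hL']
    exact (fderiv ℂ τ z).map_smul Complex.I v
  have hLe : ∀ k, L (eb k) = ∑ a, jac τ z a k • eb a := by
    intro k
    rw [hL']
    exact CE_eq_sum_complex _
  have hd : DifferentiableAt ℝ (fderiv ℝ τ) z :=
    (h2.fderiv_right (m := 1) (by norm_num)).differentiableAt (by norm_num)
  have hap : ∀ v, HasFDerivAt (fun w => fderiv ℝ τ w v)
      ((ContinuousLinearMap.apply ℝ (CE ι) v).comp Q) z := fun v => by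
    rw [hQd]
    exact (ContinuousLinearMap.apply ℝ (CE ι) v).hasFDerivAt.comp z hd.hasFDerivAt
  have hQ1 : ∀ u v, Q u (Complex.I • v) = Complex.I • Q u v := by
    intro u v
    have he : (fun w => fderiv ℝ τ w (Complex.I • v))
        =ᶠ[𝓝 z] fun w => Complex.I • fderiv ℝ τ w v := by
      filter_upwards [hτ] with w hw
      rw [hw.fderiv_restrictScalars ℝ]
      exact (fderiv ℂ τ w).map_smul Complex.I v
    have e1 := (hap (Complex.I • v)).fderiv
    have e2 : HasFDerivAt (fun w => Complex.I • fderiv ℝ τ w v)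
        (Complex.I • ((ContinuousLinearMap.apply ℝ (CE ι) v).comp Q)) z :=
      (hap v).const_smul Complex.I
    have h3 := he.fderiv_eq (𝕜 := ℝ)
    rw [e1, e2.fderiv] at h3
    exact congrArg (fun T : CE ι →L[ℝ] CE ι => T u) h3
  have hsym : ∀ u v, Q u v = Q v u := fun u v => by
    rw [hQd]
    exact h2.isSymmSndFDerivAt (by rw [minSmoothness_of_isRCLikeNormedField]) u v
  have hQ2 : ∀ u v, Q (Complex.I • u) v = Complex.I • Q u v := fun u v => by
    rw [hsym, hQ1, hsym]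
  have hB : ∀ u v, (pullJ L Q J).2.2 u v = J.2.2 (L u) (L v) + J.2.1 (Q u v) := fun u v => rfl
  have key : ∀ u v, lvF (pullJ L Q J).2.2 u v = lvF J.2.2 (L u) (L v) := by
    intro u v
    unfold lvF
    simp only [hB, hL, hQ1, hQ2, smul_smul, Complex.I_mul_I, neg_smul, one_smul, map_neg]
    rw [hsym v u]
    push_cast
    ring
  ext j k
  rw [leviB_eq_lvF, key, hLe, hLe, lvF_sum_left]
  simp only [lvF_sum_right, lvF_smul_left, lvF_smul_right, Matrix.mul_apply,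
    Matrix.conjTranspose_apply, ← leviB_eq_lvF, Finset.sum_mul]
  rw [Finset.sum_comm]
  refine Finset.sum_congr rfl fun b _ => Finset.sum_congr rfl fun a _ => ?_
  ring

end LeviB

variable {V : Type} [NormedAddCommGroup V] [NormedSpace ℝ V] {n : ℕ}

/-- the evolving matrix in the chart `i` as a function of the 2-jet of the potential. -/
noncomputable def crM (α : HFam V (Fin n)) (A : UAtlas V (CE (Fin n))) (i : A.ι) (t : ℝ)
    (z : CE (Fin n)) (J : Jet (CE (Fin n))) : Matrix (Fin n) (Fin n) ℂ :=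
  α (A.Φ i) z - (t : ℂ) • ricF α (A.Φ i) z + leviB J.2.2

/-- the nonlinearity of the Chern-Ricci potential flow. -/
noncomputable def crF (α : HFam V (Fin n)) (A : UAtlas V (CE (Fin n))) :
    A.ι → ℝ → CE (Fin n) → Jet (CE (Fin n)) → ℝ :=
  fun i t z J => Real.log ((crM α A i t z J).det / (α (A.Φ i) z).det).re

/-- the admissible jets. -/
def crG (α : HFam V (Fin n)) (A : UAtlas V (CE (Fin n))) :
    A.ι → ℝ → CE (Fin n) → Set (Jet (CE (Fin n))) :=
  fun i t z => {J | (crM α A i t z J).PosDef}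

/-- the atlas consists of uniform holomorphic charts of `(X, α)`. -/
structure AtlasOK (X : CMfd V (Fin n)) (α : HFam V (Fin n)) (A : UAtlas V (CE (Fin n))) (Λ' : ℝ)
    (Ck' : ℕ → ℝ) : Prop where
  carrier : A.X = X.carrier
  Λ_pos : 0 < Λ'
  chart : ∀ i, UChart X α 3 Λ' Ck' (A.Φ i)

variable {X : CMfd V (Fin n)} {α : HFam V (Fin n)} {A : UAtlas V (CE (Fin n))} {Λ' : ℝ}
  {Ck' : ℕ → ℝ}

/-! ### B9-CA-2 -/

/-- `crM` at the jet of a function is the flow metric. -/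
theorem crM_jet (u : ℝ → V → ℝ) (i : A.ι) (t : ℝ) {z : CE (Fin n)}
    (hu : ContDiffAt ℝ 2 (A.rep i u t) z) :
    crM α A i t z (jet (A.rep i u) t z) = flowMetric α u t (A.Φ i) z := by
  have e : levi (u t ∘ A.Φ i) z = leviB (jet (A.rep i u) t z).2.2 := levi_eq_leviB hu
  unfold crM flowMetric ddc
  rw [e]

theorem crM_pull (hα : IsMetric X α) (hA : AtlasOK X α A Λ' Ck') (i j : A.ι) (t : ℝ)
    {z : CE (Fin n)} (hz : z ∈ A.dom i j) (J : Jet (CE (Fin n))) :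
    crM α A i t z (A.pull i j z J)
      = (jac (A.tr i j) z)ᴴ * crM α A j t (A.tr i j z) J * jac (A.tr i j) z ∧
    α (A.Φ i) z = (jac (A.tr i j) z)ᴴ * α (A.Φ j) (A.tr i j z) * jac (A.tr i j) z ∧
    (jac (A.tr i j) z).det ≠ 0 := by
  have hΦi := (hA.chart i).isHol
  have hΦj := (hA.chart j).isHol
  have hz3 : z ∈ Metric.ball (0 : CE (Fin n)) 3 := hz.1
  have hzj : A.Φ i z ∈ A.Φ j '' Metric.ball (0 : CE (Fin n)) 3 := hz.2
  have heq : ∀ w ∈ A.dom i j, A.tr i j w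
      = (Function.invFunOn (A.Φ j) (Metric.ball (0 : CE (Fin n)) 3) ∘ A.Φ i) w := by
    intro w hw
    have h1 := A.tr_eq i j w hw
    have h2 := A.tr_mem i j w hw
    show A.tr i j w = Function.invFunOn (A.Φ j) (Metric.ball (0 : CE (Fin n)) 3) (A.Φ i w)
    rw [← h1]
    exact ((A.inj j).leftInvOn_invFunOn h2).symm
  have hnh : A.dom i j ∈ 𝓝 z := (A.dom_open i j).mem_nhds hz
  have hev : A.tr i j =ᶠ[𝓝 z]
      (Function.invFunOn (A.Φ j) (Metric.ball (0 : CE (Fin n)) 3) ∘ A.Φ i) :=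
    Filter.eventually_of_mem hnh heq
  have hjac : jac (Function.invFunOn (A.Φ j) (Metric.ball (0 : CE (Fin n)) 3) ∘ A.Φ i) z
      = jac (A.tr i j) z := by
    unfold jac
    rw [hev.fderiv_eq (𝕜 := ℂ)]
  have hval : Function.invFunOn (A.Φ j) (Metric.ball (0 : CE (Fin n)) 3) (A.Φ i z)
      = A.tr i j z := (heq z hz).symm
  have hhol : ∀ᶠ w in 𝓝 z, DifferentiableAt ℂ (A.tr i j) w := by
    have hd := X.compat hΦi hΦj
    filter_upwards [(A.dom_open i j).eventually_mem hz] with w hw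
    have hw' : A.dom i j ∈ 𝓝 w := (A.dom_open i j).mem_nhds hw
    have h1 : DifferentiableAt ℂ
        (Function.invFunOn (A.Φ j) (Metric.ball (0 : CE (Fin n)) 3) ∘ A.Φ i) w :=
      (hd w hw).differentiableAt hw'
    exact h1.congr_of_eventuallyEq (Filter.eventually_of_mem hw' heq)
  have c1 := hα.toIsHForm.compat hΦi hΦj z hz3 hzj
  have c2 := (isHForm_ricF hα).compat hΦi hΦj z hz3 hzj
  rw [hjac, hval] at c1 c2
  have c3 : leviB (A.pull i j z J).2.2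
      = (jac (A.tr i j) z)ᴴ * leviB J.2.2 * jac (A.tr i j) z := leviB_pullJ hhol J
  refine ⟨?_, c1, ?_⟩
  · unfold crM
    rw [c3]
    conv_lhs => rw [c1, c2]
    simp only [Matrix.mul_add, Matrix.add_mul, Matrix.mul_sub, Matrix.sub_mul, Matrix.mul_smul,
      Matrix.smul_mul]
  · intro h0
    have hp := det_ne_zero_of_posDef (hα.posDef hΦi z hz3)
    rw [c1, Matrix.det_mul, Matrix.det_mul, h0, mul_zero] at hp
    exact hp rfl

theorem crF_compat (hα : IsMetric X α) (hA : AtlasOK X α A Λ' Ck') (i j : A.ι) (t : ℝ)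
    {z : CE (Fin n)} (hz : z ∈ A.dom i j) (J : Jet (CE (Fin n))) :
    crF α A i t z (A.pull i j z J) = crF α A j t (A.tr i j z) J := by
  obtain ⟨h1, h2, h3⟩ := crM_pull hα hA i j t hz J
  unfold crF
  rw [h1]
  conv_lhs => rw [h2]
  have h4 : (jac (A.tr i j) z)ᴴ.det ≠ 0 := by
    rw [Matrix.det_conjTranspose]
    exact star_ne_zero.2 h3
  congr 2
  simp only [Matrix.det_mul]
  by_cases h5 : (α (A.Φ j) (A.tr i j z)).det = 0
  · simp [h5]
  · field_simp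

/-! ### B9-CA-3 -/

/-- a smooth function has bounded derivatives on a small neighbourhood of a compact set. -/
theorem exists_SmB_thickening {W G : Type} [NormedAddCommGroup W] [NormedSpace ℝ W]
    [FiniteDimensional ℝ W] [NormedAddCommGroup G] [NormedSpace ℝ G] (Ψ : W → G) (U 𝒦 : Set W)
    (hU : IsOpen U) (hΨ : ContDiffOn ℝ ∞ Ψ U) (hK : IsCompact 𝒦) (hsub : 𝒦 ⊆ U) :
    ∃ (η : ℝ) (C : ℕ → ℝ), 0 < η ∧ Metric.thickening η 𝒦 ⊆ U ∧ SmB (Metric.thickening η 𝒦) Ψ C := by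
  haveI : ProperSpace W := FiniteDimensional.proper ℝ W
  obtain ⟨η, hη, hηU⟩ := hK.exists_cthickening_subset_open hU hsub
  have hc : IsCompact (Metric.cthickening η 𝒦) := hK.cthickening
  have hb : ∀ k : ℕ, ∃ C : ℝ, ∀ x ∈ Metric.cthickening η 𝒦, ‖iteratedFDeriv ℝ k Ψ x‖ ≤ C := by
    intro k
    have h1 : ContinuousOn (iteratedFDeriv ℝ k Ψ) U := by
      have := hΨ.continuousOn_iteratedFDerivWithin (m := k) (by exact_mod_cast le_top)
        hU.uniqueDiffOn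
      exact this.congr fun x hx => (iteratedFDerivWithin_of_isOpen k hU hx).symm
    exact hc.exists_bound_of_continuousOn (h1.mono hηU)
  choose C hC using hb
  have hsub' : Metric.thickening η 𝒦 ⊆ Metric.cthickening η 𝒦 := Metric.thickening_subset_cthickening _ _
  exact ⟨η, C, hη, hsub'.trans hηU, SmB.of_isOpen Metric.isOpen_thickening
    (hΨ.mono (hsub'.trans hηU)) fun k q hq => hC k q (hsub' hq)⟩

/-- second derivative. -/
theorem SmB.fderiv2 {E G : Type*} [NormedAddCommGroup E] [NormedSpace ℝ E] [NormedAddCommGroup G]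
    [NormedSpace ℝ G] {U : Set E} (hU : IsOpen U) {f : E → G} {C : ℕ → ℝ} (h : SmB U f C) :
    SmB U (fun z => fderiv ℝ (fderiv ℝ f) z) (fun m => C (m + 2)) := by
  have h1 := (h.fderivWithin hU.uniqueDiffOn).fderivWithin hU.uniqueDiffOn
  refine h1.congr fun z hz => ?_
  rw [← fderivWithin_of_isOpen hU hz]
  exact fderivWithin_congr (fun y hy => (fderivWithin_of_isOpen hU hy).symm)
    (fderivWithin_of_isOpen hU hz).symm

/-- `log det` of a pinched matrix valued map. -/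
theorem exists_SmB_logdet {W' : Type*} [NormedAddCommGroup W'] [NormedSpace ℝ W'] (n : ℕ) (Λ : ℝ)
    (hΛ : 0 < Λ) (C₀ : ℕ → ℝ) : ∃ C : ℕ → ℝ, ∀ (Q : Set W') (k : W' → Fin n → Fin n → ℂ),
      UniqueDiffOn ℝ Q → SmB Q k C₀ → (∀ q ∈ Q, k q ∈ lapPinSet n Λ) →
      SmB Q (fun q => Real.log (Matrix.of (k q)).det.re) C := by
  set Ψ : (Fin n → Fin n → ℂ) → ℝ := fun M => Real.log (Matrix.of M).det.re with hΨdef
  set U : Set (Fin n → Fin n → ℂ) := {M | (Matrix.of M).det.re ≠ 0} with hUdef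
  have hent : ∀ j k, ContDiff ℝ ∞ (fun w : Fin n → Fin n → ℂ => (Matrix.of w) j k) := fun j k =>
    contDiff_apply_apply ℝ ℂ j k
  have hdet : Continuous (fun w : Fin n → Fin n → ℂ => (Matrix.of w).det.re) := by
    have := (contDiffOn_det_re (H := fun w : Fin n → Fin n → ℂ => Matrix.of w) (s := Set.univ)
      (N := ∞) (fun j k => (hent j k).contDiffOn)).continuousOn
    exact continuousOn_univ.1 this
  have hU : IsOpen U := isOpen_ne_fun hdet continuous_const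
  have hΨ : ContDiffOn ℝ ∞ Ψ U :=
    contDiffOn_logDet (H := fun w : Fin n → Fin n → ℂ => Matrix.of w)
      (fun a b => (hent a b).contDiffOn) (fun w hw => hw)
  have hKU : lapPinSet n Λ ⊆ U := fun M hM => det_re_ne_zero_of_posDef (posDef_of_cI_le hΛ hM.1)
  obtain ⟨η, C₁, hη, hsub, hC₁⟩ :=
    exists_SmB_thickening Ψ U (lapPinSet n Λ) hU hΨ (isCompact_lapPinSet hΛ) hKU
  obtain ⟨C₂, hC₂⟩ := exists_SmB_comp_gen (W' := W') (W := Fin n → Fin n → ℂ) (G := ℝ) C₀ C₁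
  refine ⟨C₂, fun Q k hQ hk hpin => ?_⟩
  exact hC₂ Q (Metric.thickening η (lapPinSet n Λ)) k Ψ hQ Metric.isOpen_thickening.uniqueDiffOn
    (fun q hq => Metric.self_subset_thickening hη _ (hpin q hq)) hk hC₁

theorem norm_leviB_le {ι : Type} [Fintype ι] [DecidableEq ι] (B : Bil (CE ι)) (j k : ι) :
    ‖leviB B j k‖ ≤ ‖B‖ := by
  obtain ⟨L, hL, hn⟩ := leviB_clm (ι := ι)
  rw [← hL]
  calc ‖L B j k‖ ≤ ‖L B j‖ := norm_le_pi_norm _ k
    _ ≤ ‖L B‖ := norm_le_pi_norm _ j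
    _ ≤ ‖L‖ * ‖B‖ := L.le_opNorm B
    _ ≤ 1 * ‖B‖ := by gcongr
    _ = ‖B‖ := one_mul _

theorem leviB_add {ι : Type} [Fintype ι] [DecidableEq ι] (B B' : Bil (CE ι)) :
    leviB (B + B') = leviB B + leviB B' := by
  obtain ⟨L, hL, -⟩ := leviB_clm (ι := ι)
  ext j k
  rw [Matrix.add_apply, ← hL, ← hL, ← hL, map_add]
  rfl

/-- the Ricci form of `α` has bounded derivatives in uniform charts. -/
theorem ric_SmB (n : ℕ) (r Λ' : ℝ) (Ck' : ℕ → ℝ) (hΛ : 0 < Λ') : ∃ CR : ℕ → ℝ,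
    ∀ (V : Type) [NormedAddCommGroup V] [NormedSpace ℝ V] (X : CMfd V (Fin n)) (α : HFam V (Fin n))
      (Φ : CE (Fin n) → V), IsMetric X α → UChart X α r Λ' Ck' Φ → ∀ j k,
      SmB (Metric.ball (0 : CE (Fin n)) r) (fun z => ricF α Φ z j k) CR := by
  obtain ⟨C₀, hC₀⟩ := exists_SmB_matrix (W := CE (Fin n)) n Ck'
  obtain ⟨C₁, hC₁⟩ := exists_SmB_logdet (W' := CE (Fin n)) n Λ' hΛ C₀
  obtain ⟨L, hL, hn⟩ := leviB_clm (ι := Fin n)
  refine ⟨fun m => C₁ (m + 2), fun V _ _ X α Φ hα hΦ j k => ?_⟩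
  have hB : IsOpen (Metric.ball (0 : CE (Fin n)) r) := Metric.isOpen_ball
  have h1 : SmB (G := Fin n → Fin n → ℂ) (Metric.ball (0 : CE (Fin n)) r) (fun z => α Φ z) C₀ :=
    hC₀ _ _ hB.uniqueDiffOn fun a b =>
      SmB.of_isOpen hB (hα.smooth hΦ.isHol a b) (fun m q hq => hΦ.deriv m a b q hq)
  have h2 := hC₁ _ _ hB.uniqueDiffOn h1 (fun q hq => ⟨hΦ.lower q hq, hΦ.upper q hq⟩)
  have h3 := SmB.fderiv2 hB h2
  set P : Bil (CE (Fin n)) →L[ℝ] ℂ :=
    -((ContinuousLinearMap.proj (R := ℝ) (φ := fun _ : Fin n => ℂ) k) ∘L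
      (ContinuousLinearMap.proj (R := ℝ) (φ := fun _ : Fin n => Fin n → ℂ) j) ∘L L) with hP
  have hPv : ∀ B, P B = - leviB B j k := fun B => by
    rw [← hL]
    rfl
  have hPn : ‖P‖ ≤ 1 := by
    refine P.opNorm_le_bound zero_le_one fun B => ?_
    rw [hPv, norm_neg, one_mul]
    exact norm_leviB_le B j k
  refine (h3.clm_comp_le_one hB.uniqueDiffOn P hPn).congr fun z hz => ?_
  rw [hPv]
  have hc : ContDiffAt ℝ 2 (fun w => Real.log (α Φ w).det.re) z :=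
    ((h2.smooth).contDiffAt (hB.mem_nhds hz)).of_le (WithTop.coe_le_coe.2 le_top)
  show (- levi (fun w => Real.log (α Φ w).det.re) z) j k = _
  rw [levi_eq_leviB hc]
  rfl

/-- the quadratic form of a matrix with small entries. -/
theorem abs_qf_le_of_entry {ι : Type} [Fintype ι] [DecidableEq ι] {E : Matrix ι ι ℂ} {ε : ℝ}
    (hε : 0 ≤ ε) (h : ∀ j k, ‖E j k‖ ≤ ε) (v : ι → ℂ) :
    |qf E v| ≤ (Fintype.card ι * ε) * ∑ j, ‖v j‖ ^ 2 := by
  rw [qf_eq_sum]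
  calc |(∑ j, ∑ k, (starRingEnd ℂ) (v j) * E j k * v k).re|
      ≤ ‖∑ j, ∑ k, (starRingEnd ℂ) (v j) * E j k * v k‖ := Complex.abs_re_le_norm _
    _ ≤ ∑ j, ∑ k, ‖v j‖ * ε * ‖v k‖ := by
        refine (norm_sum_le _ _).trans (Finset.sum_le_sum fun j _ => ?_)
        refine (norm_sum_le _ _).trans (Finset.sum_le_sum fun k _ => ?_)
        rw [norm_mul, norm_mul, RCLike.norm_conj]
        gcongr
        exact h j k
    _ = ε * (∑ j, ‖v j‖) ^ 2 := by
        rw [sq, Finset.sum_mul_sum, Finset.mul_sum]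
        refine Finset.sum_congr rfl fun j _ => ?_
        rw [Finset.mul_sum]
        refine Finset.sum_congr rfl fun k _ => ?_
        ring
    _ ≤ ε * (Fintype.card ι * ∑ j, ‖v j‖ ^ 2) := by
        gcongr
        have := sq_sum_le_card_mul_sum_sq (s := (Finset.univ : Finset ι)) (f := fun j => ‖v j‖)
        simpa using this
    _ = _ := by ring

/-- a Hermitian matrix with small entries is small. -/
theorem leM_of_entry {n : ℕ} {E : Matrix (Fin n) (Fin n) ℂ} (hE : E.IsHermitian) {ε : ℝ}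
    (hε : 0 ≤ ε) (h : ∀ j k, ‖E j k‖ ≤ ε) :
    leM E (cI (n * ε)) ∧ leM (cI (-(n * ε))) E := by
  have hc : ∀ c : ℝ, (cI c : Matrix (Fin n) (Fin n) ℂ).IsHermitian := fun c =>
    isHermitian_smul_real c Matrix.isHermitian_one
  have hq : ∀ (c : ℝ) (v : Fin n → ℂ), qf (cI c) v = c * ∑ j, ‖v j‖ ^ 2 := fun c v => by
    unfold cI
    rw [qf_smul, qf_one]
  constructor
  · refine (posSemidef_sub_iff_qf hE (hc _)).2 fun v => ?_
    have := abs_qf_le_of_entry hε h v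
    rw [Fintype.card_fin] at this
    rw [hq]
    exact (le_abs_self _).trans this
  · refine (posSemidef_sub_iff_qf (hc _) hE).2 fun v => ?_
    have := abs_qf_le_of_entry hε h v
    rw [Fintype.card_fin] at this
    rw [hq]
    have h2 := neg_abs_le (qf E v)
    linarith

theorem cI_add {n : ℕ} (a b : ℝ) :
    (cI a : Matrix (Fin n) (Fin n) ℂ) + cI b = cI (a + b) := by
  unfold cI
  rw [← add_smul, Complex.ofReal_add]

/-- perturbation of a pinched matrix. -/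
theorem Pin.add_small {n : ℕ} {M E : Matrix (Fin n) (Fin n) ℂ} {Λ₀ ε : ℝ} (hΛ₀ : 0 < Λ₀)
    (hM : Pin M Λ₀) (hE : E.IsHermitian) (hε : 0 ≤ ε) (h : ∀ j k, ‖E j k‖ ≤ ε)
    (h1 : n * ε ≤ (2 * Λ₀)⁻¹) (h2 : n * ε ≤ Λ₀) : Pin (M + E) (2 * Λ₀) := by
  obtain ⟨hu, hl⟩ := leM_of_entry hE hε h
  refine ⟨hM.herm.add hE, ?_, ?_⟩
  · have h3 : leM (cI Λ₀⁻¹ + cI (-(n * ε))) (M + E) := loewner_add hM.lower hl
    rw [cI_add] at h3
    refine leM_trans' (leM_cI_of_le ?_) h3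
    have : Λ₀⁻¹ = 2 * (2 * Λ₀)⁻¹ := by
      field_simp
    linarith
  · have h3 : leM (M + E) (cI Λ₀ + cI (n * ε)) := loewner_add hM.upper hu
    rw [cI_add] at h3
    exact leM_trans' h3 (leM_cI_of_le (by linarith))

theorem crM_add (i : A.ι) (t s : ℝ) (z : CE (Fin n)) (J J' : Jet (CE (Fin n))) :
    crM α A i (t + s) z (J + J')
      = crM α A i t z J + (-(((s : ℝ) : ℂ) • ricF α (A.Φ i) z) + leviB J'.2.2) := by
  unfold crM
  have : (J + J').2.2 = J.2.2 + J'.2.2 := rfl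
  rw [this, leviB_add, Complex.ofReal_add, add_smul]
  abel

/-- pinching of `crM` on the tube around the jet of `g`, for a short time. -/
theorem crF_tube (hα : IsMetric X α) (hA : AtlasOK X α A Λ' Ck') (Λ₀ : ℝ) (hΛ₀ : 0 < Λ₀) :
    ∃ σ δ : ℝ, 0 < σ ∧ 0 < δ ∧ ∀ (t₀ : ℝ) (g : V → ℝ) (i : A.ι), ∀ z ∈ Metric.ball (0 : CE (Fin n)) 3,
      ContDiffAt ℝ 2 (A.rep0 i g) z →
      Pin (crM α A i t₀ z (jet (fun _ => A.rep0 i g) 0 z)) Λ₀ →
      ∀ s ∈ Set.Icc 0 σ, ∀ J ∈ Metric.ball (0 : Jet (CE (Fin n))) δ,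
        Pin (crM α A i (t₀ + s) z (jet (fun _ => A.rep0 i g) 0 z + J)) (2 * Λ₀) := by
  obtain ⟨CR, hCR⟩ := ric_SmB n 3 Λ' Ck' hA.Λ_pos
  set ε₀ : ℝ := min (2 * Λ₀)⁻¹ Λ₀ / (n + 1) with hε₀
  have hmin : 0 < min (2 * Λ₀)⁻¹ Λ₀ := lt_min (by positivity) hΛ₀
  have hε₀pos : 0 < ε₀ := by positivity
  have hnε : n * ε₀ ≤ min (2 * Λ₀)⁻¹ Λ₀ := by
    rw [hε₀, mul_div_assoc', div_le_iff₀ (by positivity)]
    nlinarith
  refine ⟨ε₀ / (2 * (|CR 0| + 1)), ε₀ / 2, by positivity, by positivity, ?_⟩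
  intro t₀ g i z hz _ hpin s hs J hJ
  rw [crM_add]
  have hric := (isHForm_ricF hα).herm (hA.chart i).isHol z hz
  refine Pin.add_small hΛ₀ hpin ?_ hε₀pos.le ?_ (hnε.trans (min_le_left _ _))
    (hnε.trans (min_le_right _ _))
  · exact ((isHermitian_smul_real s hric).neg).add (leviB_isHermitian _)
  · intro j k
    have h1 : ‖ricF α (A.Φ i) z j k‖ ≤ CR 0 := (hCR V X α _ hα (hA.chart i) j k).norm_le hz
    have h2 : ‖leviB J.2.2 j k‖ ≤ ε₀ / 2 := by
      refine (norm_leviB_le _ j k).trans ?_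
      have h3 : ‖J.2.2‖ ≤ ‖J‖ := (norm_snd_le J.2).trans (norm_snd_le J)
      exact h3.trans (mem_ball_zero_iff.1 hJ).le
    have h4 : ‖(((s : ℝ) : ℂ) • ricF α (A.Φ i) z) j k‖ ≤ ε₀ / 2 := by
      rw [Matrix.smul_apply, norm_smul, Complex.norm_real, Real.norm_eq_abs, abs_of_nonneg hs.1]
      have h5 : CR 0 ≤ |CR 0| + 1 := by linarith [le_abs_self (CR 0)]
      have h6 : (0 : ℝ) < |CR 0| + 1 := by positivity
      calc s * ‖ricF α (A.Φ i) z j k‖ ≤ ε₀ / (2 * (|CR 0| + 1)) * (|CR 0| + 1) := by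
            apply mul_le_mul hs.2 (h1.trans h5) (norm_nonneg _) (by positivity)
        _ = ε₀ / 2 := by field_simp
    rw [Matrix.add_apply, Matrix.neg_apply]
    calc _ ≤ ‖-(((s : ℝ) : ℂ) • ricF α (A.Φ i) z) j k‖ + ‖leviB J.2.2 j k‖ := norm_add_le _ _
      _ ≤ ε₀ / 2 + ε₀ / 2 := by
          rw [norm_neg]
          exact add_le_add h4 h2
      _ = ε₀ := by ring

/-- a function of the space variable on the tube. -/
theorem SmB.tube_z {E : Type} {G : Type*} [NormedAddCommGroup E] [NormedSpace ℝ E]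
    [NormedAddCommGroup G] [NormedSpace ℝ G] {I : Set ℝ} (hI : UniqueDiffOn ℝ I) {R δ : ℝ}
    {a : E → G} {C : ℕ → ℝ} (h : SmB (Metric.ball (0 : E) R) a C) :
    SmB (I ×ˢ Metric.ball (0 : E) R ×ˢ Metric.ball (0 : Jet E) δ)
      (fun q : ℝ × E × Jet E => a q.2.1) C := by
  set L : ℝ × E × Jet E →L[ℝ] E :=
    (ContinuousLinearMap.fst ℝ E (Jet E)) ∘L (ContinuousLinearMap.snd ℝ ℝ (E × Jet E)) with hLdef
  have hL : ‖L‖ ≤ 1 := by
    refine (ContinuousLinearMap.opNorm_comp_le _ _).trans ?_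
    calc _ ≤ (1 : ℝ) * 1 := mul_le_mul (ContinuousLinearMap.norm_fst_le ..)
          (ContinuousLinearMap.norm_snd_le ..) (norm_nonneg _) zero_le_one
      _ = 1 := one_mul 1
  have hO : IsOpen (L ⁻¹' Metric.ball (0 : E) R) := Metric.isOpen_ball.preimage L.continuous
  have h1 := h.comp_clm_le_one Metric.isOpen_ball.uniqueDiffOn L hL hO.uniqueDiffOn
  exact h1.subset hO.uniqueDiffOn
    (hI.prod (Metric.isOpen_ball.prod Metric.isOpen_ball).uniqueDiffOn) (fun q hq => hq.2.1)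

/-- all derivatives of the shifted nonlinearity are bounded on the tube. -/
theorem crF_SmN (hα : IsMetric X α) (hA : AtlasOK X α A Λ' Ck') (Λ₀ T σ δ : ℝ) (Cg : ℕ → ℝ)
    (hΛ₀ : 0 < Λ₀) (hσ : 0 < σ) (hδ : 0 < δ) : ∃ CF : ℕ → ℝ,
    ∀ (t₀ τ : ℝ) (g : V → ℝ), t₀ ∈ Set.Icc 0 T → 0 < τ → τ ≤ σ → A.SmM g Cg →
      (∀ i, ∀ z ∈ Metric.ball (0 : CE (Fin n)) 3, ∀ s ∈ Set.Icc 0 τ,
        ∀ J ∈ Metric.ball (0 : Jet (CE (Fin n))) δ,
        Pin (crM α A i (t₀ + s) z (jet (fun _ => A.rep0 i g) 0 z + J)) (2 * Λ₀)) →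
      A.SmN (Set.Icc 0 τ) δ (A.shiftF (crF α A) t₀ g) CF := by
  obtain ⟨CR, hCR⟩ := ric_SmB n 3 Λ' Ck' hA.Λ_pos
  obtain ⟨Ca, hCa⟩ := exists_SmB_matrix (W := CE (Fin n)) n Ck'
  obtain ⟨CRm, hCRm⟩ := exists_SmB_matrix (W := CE (Fin n)) n CR
  obtain ⟨L₀, hL₀, hL₀n⟩ := leviB_clm (ι := Fin n)
  set Lθ : ℝ × CE (Fin n) × Jet (CE (Fin n)) →L[ℝ] ℝ :=
    ContinuousLinearMap.fst ℝ ℝ (CE (Fin n) × Jet (CE (Fin n))) with hLθ
  set cθ : ℕ → ℝ := fun k => if k = 0 then T + σ else if k = 1 then ‖Lθ‖ else 0 with hcθ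
  obtain ⟨CθR, hCθR⟩ := exists_SmB_bilin (W := ℝ × CE (Fin n) × Jet (CE (Fin n))) (G₁ := ℝ)
    (G₂ := Fin n → Fin n → ℂ) (G₃ := Fin n → Fin n → ℂ) cθ CRm
  set Lℓ : ℝ × CE (Fin n) × Jet (CE (Fin n)) →L[ℝ] (Fin n → Fin n → ℂ) :=
    L₀ ∘L (ContinuousLinearMap.snd ℝ _ _) ∘L (ContinuousLinearMap.snd ℝ _ _) ∘L
      (ContinuousLinearMap.snd ℝ _ _) ∘L (ContinuousLinearMap.snd ℝ _ _) with hLℓ
  set cℓ : ℕ → ℝ := fun k => if k = 0 then δ else if k = 1 then ‖Lℓ‖ else 0 with hcℓ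
  obtain ⟨C1, hC1⟩ := exists_SmB_logdet (W' := ℝ × CE (Fin n) × Jet (CE (Fin n))) n (2 * Λ₀)
    (by positivity) (fun m => Ca m + CθR m + Cg (m + 2) + cℓ m)
  obtain ⟨C2, hC2⟩ := exists_SmB_logdet (W' := ℝ × CE (Fin n) × Jet (CE (Fin n))) n Λ' hA.Λ_pos Ca
  refine ⟨fun m => C1 m + C2 m, ?_⟩
  intro t₀ τ g ht₀ hτ hτσ hg hpin i
  set 𝒯 : Set (ℝ × CE (Fin n) × Jet (CE (Fin n))) :=
    Set.Icc (0 : ℝ) τ ×ˢ Metric.ball (0 : CE (Fin n)) 3 ×ˢ Metric.ball (0 : Jet (CE (Fin n))) δ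
    with h𝒯def
  have hI := uniqueDiffOn_Icc hτ
  have h𝒯 : UniqueDiffOn ℝ 𝒯 := hI.prod (Metric.isOpen_ball.prod Metric.isOpen_ball).uniqueDiffOn
  have hB : IsOpen (Metric.ball (0 : CE (Fin n)) 3) := Metric.isOpen_ball
  have hu := hA.chart i
  set aW : CE (Fin n) → Fin n → Fin n → ℂ := fun z => α (A.Φ i) z with haW
  set RW : CE (Fin n) → Fin n → Fin n → ℂ := fun z => ricF α (A.Φ i) z with hRW
  set MW : ℝ × CE (Fin n) × Jet (CE (Fin n)) → Fin n → Fin n → ℂ := fun q =>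
    crM α A i (t₀ + q.1) q.2.1 (jet (fun _ => A.rep0 i g) 0 q.2.1 + q.2.2) with hMW
  have ha0 : SmB (Metric.ball (0 : CE (Fin n)) 3) aW Ca :=
    hCa _ _ hB.uniqueDiffOn fun a b =>
      SmB.of_isOpen hB (hα.smooth hu.isHol a b) (fun m q hq => hu.deriv m a b q hq)
  have ha : SmB 𝒯 (fun q => aW q.2.1) Ca := SmB.tube_z hI ha0
  have hR0 : SmB (Metric.ball (0 : CE (Fin n)) 3) RW CRm :=
    hCRm _ _ hB.uniqueDiffOn (fun a b => hCR V X α _ hα hu a b)
  have hR : SmB 𝒯 (fun q => RW q.2.1) CRm := SmB.tube_z hI hR0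
  have hθ : SmB 𝒯 (fun q => Lθ q + t₀) cθ := SmB.affine 𝒯 h𝒯 Lθ t₀ (b := T + σ) (fun q hq => by
    show ‖q.1 + t₀‖ ≤ _
    rw [Real.norm_eq_abs, abs_of_nonneg (add_nonneg hq.1.1 ht₀.1)]
    linarith [hq.1.2, ht₀.2])
  have hθR := hCθR 𝒯 (ContinuousLinearMap.lsmul ℝ ℝ) _ _ h𝒯 ContinuousLinearMap.opNorm_lsmul_le
    hθ hR
  have hh0 := (SmB.fderiv2 hB (hg i)).clm_comp_le_one hB.uniqueDiffOn L₀ hL₀n
  have hh : SmB 𝒯 (fun q => L₀ (fderiv ℝ (fderiv ℝ (A.rep0 i g)) q.2.1)) (fun m => Cg (m + 2)) :=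
    SmB.tube_z hI hh0
  have hℓ : SmB 𝒯 (fun q => Lℓ q + 0) cℓ := SmB.affine 𝒯 h𝒯 Lℓ 0 (b := δ) (fun q hq => by
    rw [add_zero]
    show ‖L₀ q.2.2.2.2‖ ≤ δ
    have h3 : ‖q.2.2.2.2‖ ≤ ‖q.2.2‖ := (norm_snd_le q.2.2.2).trans (norm_snd_le q.2.2)
    calc ‖L₀ q.2.2.2.2‖ ≤ ‖L₀‖ * ‖q.2.2.2.2‖ := L₀.le_opNorm _
      _ ≤ 1 * ‖q.2.2‖ := by gcongr
      _ ≤ δ := by
          rw [one_mul]
          exact (mem_ball_zero_iff.1 hq.2.2).le)
  have hM0 := ((ha.sub hθR h𝒯).add hh h𝒯).add hℓ h𝒯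
  have hM : SmB 𝒯 MW (fun m => Ca m + CθR m + Cg (m + 2) + cℓ m) := by
    refine hM0.congr fun q _ => ?_
    funext a b
    have e1 : (jet (fun _ => A.rep0 i g) 0 q.2.1 + q.2.2).2.2
        = fderiv ℝ (fderiv ℝ (A.rep0 i g)) q.2.1 + q.2.2.2.2 := rfl
    have e2 : L₀ (fderiv ℝ (fderiv ℝ (A.rep0 i g)) q.2.1) a b
        = leviB (fderiv ℝ (fderiv ℝ (A.rep0 i g)) q.2.1) a b := hL₀ _ a b
    have e3 : (Lℓ q + 0) a b = leviB q.2.2.2.2 a b := by
      rw [add_zero]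
      exact hL₀ _ a b
    have e4 : (q.1 + t₀) • (ricF α (A.Φ i) q.2.1 a b)
        = ((t₀ + q.1 : ℝ) : ℂ) * (ricF α (A.Φ i) q.2.1 a b) := by
      rw [add_comm, Complex.real_smul]
    show (α (A.Φ i) q.2.1 - ((t₀ + q.1 : ℝ) : ℂ) • ricF α (A.Φ i) q.2.1
        + leviB (jet (fun _ => A.rep0 i g) 0 q.2.1 + q.2.2).2.2) a b
      = α (A.Φ i) q.2.1 a b - (q.1 + t₀) • (ricF α (A.Φ i) q.2.1 a b)
        + L₀ (fderiv ℝ (fderiv ℝ (A.rep0 i g)) q.2.1) a b + (Lℓ q + 0) a b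
    rw [e1, leviB_add, e2, e3, e4]
    simp only [Matrix.add_apply, Matrix.sub_apply, Matrix.smul_apply, smul_eq_mul]
    ring
  have h1 := hC1 𝒯 _ h𝒯 hM (fun q hq => by
    have hp := hpin i q.2.1 hq.2.1 q.1 hq.1 q.2.2 hq.2.2
    exact ⟨hp.lower, hp.upper⟩)
  have h2 := hC2 𝒯 _ h𝒯 ha (fun q hq => ⟨hu.lower _ hq.2.1, hu.upper _ hq.2.1⟩)
  refine (h1.sub h2 h𝒯).congr fun q hq => ?_
  have hp := hpin i q.2.1 hq.2.1 q.1 hq.1 q.2.2 hq.2.2
  show Real.log ((crM α A i (t₀ + q.1) q.2.1 (jet (fun _ => A.rep0 i g) 0 q.2.1 + q.2.2)).det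
    / (α (A.Φ i) q.2.1).det).re = _
  rw [log_det_div_re (posDef_of_cI_le (by positivity) hp.lower) (hα.posDef hu.isHol _ hq.2.1)]
  rfl

/-! ### B9-CA-4 -/

/-- the entries of `crM` are affine in the jet. -/
theorem hasFDerivAt_crM_entry (i : A.ι) (t : ℝ) (z : CE (Fin n)) (J : Jet (CE (Fin n)))
    (a b : Fin n) : ∃ P : Jet (CE (Fin n)) →L[ℝ] ℂ, (∀ J', P J' = leviB J'.2.2 a b) ∧
      HasFDerivAt (fun w => crM α A i t z w a b) P J := by
  obtain ⟨L, hL, -⟩ := leviB_clm (ι := Fin n)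
  set P : Jet (CE (Fin n)) →L[ℝ] ℂ :=
    (ContinuousLinearMap.proj (R := ℝ) (φ := fun _ : Fin n => ℂ) b) ∘L
      (ContinuousLinearMap.proj (R := ℝ) (φ := fun _ : Fin n => Fin n → ℂ) a) ∘L L ∘L
      (ContinuousLinearMap.snd ℝ _ _) ∘L (ContinuousLinearMap.snd ℝ _ _) with hP
  have hPv : ∀ J', P J' = leviB J'.2.2 a b := fun J' => hL _ a b
  refine ⟨P, hPv, ?_⟩
  have h1 : (fun w => crM α A i t z w a b)
      = fun w => (α (A.Φ i) z - (t : ℂ) • ricF α (A.Φ i) z) a b + P w := by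
    funext w
    rw [hPv]
    rfl
  rw [h1]
  exact P.hasFDerivAt.const_add _

/-- derivative of the nonlinearity in the jet variable. -/
theorem fderiv_crF (i : A.ι) (t : ℝ) (z : CE (Fin n)) (J J' : Jet (CE (Fin n)))
    (hM : (crM α A i t z J).PosDef) (ha : (α (A.Φ i) z).PosDef) :
    fderiv ℝ (crF α A i t z) J J' = ((crM α A i t z J)⁻¹ * leviB J'.2.2).trace.re := by
  choose P hPv hP using fun a b => hasFDerivAt_crM_entry (α := α) i t z J a b
  have hd : ∀ a b, DifferentiableAt ℝ (fun w => crM α A i t z w a b) J := fun a b =>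
    (hP a b).differentiableAt
  have hherm : ∀ w, (crM α A i t z w).IsHermitian := by
    intro w
    have h1 : crM α A i t z w = crM α A i t z J + (leviB w.2.2 - leviB J.2.2) := by
      unfold crM
      abel
    rw [h1]
    exact hM.isHermitian.add ((leviB_isHermitian _).sub (leviB_isHermitian _))
  have hcont : ContinuousAt (fun w => (crM α A i t z w).det.re) J :=
    (differentiableAt_det_re hd).continuousAt
  have hne : ∀ᶠ w in 𝓝 J, (crM α A i t z w).det.re ≠ 0 :=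
    hcont.eventually_ne (det_re_ne_zero_of_posDef hM)
  have hev : crF α A i t z =ᶠ[𝓝 J] fun w =>
      Real.log (crM α A i t z w).det.re - Real.log (α (A.Φ i) z).det.re := by
    filter_upwards [hne] with w hw
    show Real.log ((crM α A i t z w).det / (α (A.Φ i) z).det).re = _
    rw [det_div_re (hherm w) ha.isHermitian, Real.log_div hw (det_re_ne_zero_of_posDef ha)]
  have hfd : fdM (crM α A i t z) J J' = leviB J'.2.2 := by
    ext a b
    rw [fdM_apply, (hP a b).fderiv, hPv]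
  rw [hev.fderiv_eq, fderiv_sub_const, fderiv_logDet hd hM, hfd]

/-- uniform parabolicity on the tube. -/
theorem crF_EllN (hα : IsMetric X α) (hA : AtlasOK X α A Λ' Ck') {Λ₀ τ δ t₀ : ℝ} {g : V → ℝ}
    (hΛ₀ : 0 < Λ₀)
    (hpin : ∀ i, ∀ z ∈ Metric.ball (0 : CE (Fin n)) 3, ∀ s ∈ Set.Icc 0 τ,
      ∀ J ∈ Metric.ball (0 : Jet (CE (Fin n))) δ,
      Pin (crM α A i (t₀ + s) z (jet (fun _ => A.rep0 i g) 0 z + J)) (2 * Λ₀)) :
    A.EllN (Set.Icc 0 τ) δ ((2 * Λ₀)⁻¹ / 4) (A.shiftF (crF α A) t₀ g) := by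
  intro i s hs z hz J hJ ξ
  have hp := hpin i z hz s hs J hJ
  have h2Λ : 0 < 2 * Λ₀ := by positivity
  set H := crM α A i (t₀ + s) z (jet (fun _ => A.rep0 i g) 0 z + J) with hH
  have hPD : H.PosDef := posDef_of_cI_le h2Λ hp.lower
  have e0 : A.shiftF (crF α A) t₀ g i s z
      = fun J => crF α A i (t₀ + s) z (jet (fun _ => A.rep0 i g) 0 z + J) := rfl
  rw [e0, fderiv_comp_add_left, fderiv_crF _ _ _ _ _ hPD (hα.posDef (hA.chart i).isHol z hz)]
  show _ ≤ (H⁻¹ * leviB (sqB ξ)).trace.re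
  have e1 : leviB (sqB ξ) = ((1 / 4 : ℝ) : ℂ) •
      Matrix.of fun j k => (starRingEnd ℂ) (cov10 ξ j) * cov10 ξ k := by
    ext j k
    rw [leviB_sqB]
    simp
  rw [e1, Matrix.mul_smul, Matrix.trace_smul, smul_eq_mul, Complex.re_ofReal_mul,
    trace_inv_mul_rankOne, qf_transpose]
  have h3 : (H⁻¹ - (cI (2 * Λ₀))⁻¹).PosSemidef := loewner_inv_anti hPD hp.upper
  rw [cI_inv h2Λ.ne'] at h3
  have h4 := qf_mono h3 (star (cov10 ξ))
  unfold cI at h4
  rw [qf_smul, qf_one] at h4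
  have h5 : ∑ j, ‖star (cov10 ξ) j‖ ^ 2 = ‖ξ‖ ^ 2 := by
    rw [← sum_normSq_cov ξ]
    simp
  rw [h5] at h4
  calc (2 * Λ₀)⁻¹ / 4 * ‖ξ‖ ^ 2 = 1 / 4 * ((2 * Λ₀)⁻¹ * ‖ξ‖ ^ 2) := by ring
    _ ≤ _ := by gcongr

/-- compatibility of the shifted nonlinearity. -/
theorem crF_CompatN (hα : IsMetric X α) (hA : AtlasOK X α A Λ' Ck') (I : Set ℝ) (δ t₀ : ℝ)
    {g : V → ℝ} {Cg : ℕ → ℝ} (hg : A.SmM g Cg) : A.CompatN I δ (A.shiftF (crF α A) t₀ g) := by
  intro i j t _ z hz J _ _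
  show crF α A i (t₀ + t) z (jet (fun _ => A.rep0 i g) 0 z + A.pull i j z J)
    = crF α A j (t₀ + t) (A.tr i j z) (jet (fun _ => A.rep0 j g) 0 (A.tr i j z) + J)
  have h1 : jet (fun _ => A.rep0 i g) 0 z
      = A.pull i j z (jet (fun _ => A.rep0 j g) 0 (A.tr i j z)) :=
    A.jet_rep (u := fun _ => g) (t := 0) hz ((hg j).smooth.of_le (WithTop.coe_le_coe.2 le_top))
  rw [h1, ← A.pull_add, crF_compat hα hA]
  exact hz

/-- **the restart condition.** -/
theorem good_of_bounds (hα : IsMetric X α) (hA : AtlasOK X α A Λ' Ck') (Λ₀ T : ℝ) (Cg : ℕ → ℝ)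
    (hΛ₀ : 0 < Λ₀) (hT : 0 < T) : ∃ (σ δ lam : ℝ) (CF : ℕ → ℝ), 0 < σ ∧ 0 < δ ∧ 0 < lam ∧
    ∀ (t₀ : ℝ) (g : V → ℝ), 0 ≤ t₀ → t₀ < T → A.SmM g Cg →
      (∀ i, ∀ z ∈ Metric.ball (0 : CE (Fin n)) 3,
        Pin (crM α A i t₀ z (jet (fun _ => A.rep0 i g) 0 z)) Λ₀) →
      A.NLHyp (min σ (T - t₀)) δ lam CF (A.shiftF (crF α A) t₀ g) ∧
      ∀ i, ∀ s ∈ Set.Icc 0 (min σ (T - t₀)), ∀ z ∈ Metric.ball (0 : CE (Fin n)) 3,
        ∀ J ∈ Metric.ball (0 : Jet (CE (Fin n))) δ,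
        jet (fun _ => A.rep0 i g) 0 z + J ∈ crG α A i (t₀ + s) z := by
  obtain ⟨σ, δ, hσ, hδ, htube⟩ := crF_tube hα hA Λ₀ hΛ₀
  obtain ⟨CF, hCF⟩ := crF_SmN hα hA Λ₀ T σ δ Cg hΛ₀ hσ hδ
  refine ⟨σ, δ, (2 * Λ₀)⁻¹ / 4, CF, hσ, hδ, by positivity, ?_⟩
  intro t₀ g ht₀ ht₀T hg hpin
  have hτ : 0 < min σ (T - t₀) := lt_min hσ (by linarith)
  have hp : ∀ i, ∀ z ∈ Metric.ball (0 : CE (Fin n)) 3, ∀ s ∈ Set.Icc 0 (min σ (T - t₀)),
      ∀ J ∈ Metric.ball (0 : Jet (CE (Fin n))) δ,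
      Pin (crM α A i (t₀ + s) z (jet (fun _ => A.rep0 i g) 0 z + J)) (2 * Λ₀) := by
    intro i z hz s hs J hJ
    refine htube t₀ g i z hz ?_ (hpin i z hz) s ⟨hs.1, hs.2.trans (min_le_left _ _)⟩ J hJ
    exact ((hg i).smooth.contDiffAt (Metric.isOpen_ball.mem_nhds hz)).of_le
      (WithTop.coe_le_coe.2 le_top)
  refine ⟨⟨crF_CompatN hα hA _ δ t₀ hg, hCF t₀ _ g ⟨ht₀, ht₀T.le⟩ hτ (min_le_left _ _) hg hp,
    crF_EllN hα hA hΛ₀ hp⟩, ?_⟩
  intro i s hs z hz J hJ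
  exact posDef_of_cI_le (by positivity) (hp i z hz s hs J hJ).lower

/-! ### B9-CA-5 -/

/-- a positive definite matrix bounded above with determinant bounded below is bounded below. -/
theorem pin_of_det {ι : Type} [Fintype ι] [DecidableEq ι] (M d : ℝ) (hM : 0 < M) (hd : 0 < d) :
    ∃ Λ₁ : ℝ, 0 < Λ₁ ∧ ∀ Km : Matrix ι ι ℂ, Km.PosDef → leM Km (cI M) → d ≤ Km.det.re →
      Pin Km Λ₁ := by
  set c₀ : ℝ := d * M / M ^ Fintype.card ι with hc₀
  have hc₀pos : 0 < c₀ := by positivity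
  refine ⟨max M c₀⁻¹, lt_max_of_lt_left hM, fun Km hK hle hdet => ?_⟩
  have hone : (1 : Matrix ι ι ℂ).PosSemidef := Matrix.PosSemidef.one
  have h1 := det_ratio_smul_le hK hle
  have hdetM : (cI M : Matrix ι ι ℂ).det.re = M ^ Fintype.card ι := by
    rw [cI, det_smul_real_re, Matrix.det_one, Complex.one_re, mul_one]
  rw [hdetM] at h1
  have e : ((Km.det.re / M ^ Fintype.card ι : ℝ) : ℂ) • (cI M : Matrix ι ι ℂ)
      = cI (Km.det.re / M ^ Fintype.card ι * M) := by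
    simp only [cI, smul_smul, ← Complex.ofReal_mul]
  rw [e] at h1
  have hc : c₀ ≤ Km.det.re / M ^ Fintype.card ι * M := by
    rw [hc₀, div_mul_eq_mul_div]
    gcongr
  refine ⟨hK.isHermitian, ?_, ?_⟩
  · have h2 : (max M c₀⁻¹)⁻¹ ≤ c₀ := by
      rw [inv_le_comm₀ (lt_max_of_lt_left hM) hc₀pos]
      exact le_max_right _ _
    exact loewner_trans (loewner_smul_le (h2.trans hc) hone) h1
  · exact loewner_trans hle (loewner_smul_le (le_max_left _ _) hone)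

theorem ca_levi_entry_le {ι : Type} [Fintype ι] [DecidableEq ι] {f : CE ι → ℝ} {z : CE ι}
    (hf : ContDiffAt ℝ 2 f z) (j k : ι) : ‖levi f z j k‖ ≤ ‖iteratedFDeriv ℝ 2 f z‖ := by
  obtain ⟨L, hL, hn⟩ := leviB_clm (ι := ι)
  have e : ‖iteratedFDeriv ℝ 2 f z‖ = ‖fderiv ℝ (fderiv ℝ f) z‖ := by
    rw [show (2 : ℕ) = 1 + 1 from rfl, ← norm_iteratedFDeriv_fderiv, norm_iteratedFDeriv_one]
  rw [levi_eq_leviB hf, ← hL, e]
  calc ‖L (fderiv ℝ (fderiv ℝ f) z) j k‖ ≤ ‖L (fderiv ℝ (fderiv ℝ f) z) j‖ := norm_le_pi_norm _ k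
    _ ≤ ‖L (fderiv ℝ (fderiv ℝ f) z)‖ := norm_le_pi_norm _ j
    _ ≤ ‖L‖ * ‖fderiv ℝ (fderiv ℝ f) z‖ := L.le_opNorm _
    _ ≤ 1 * ‖fderiv ℝ (fderiv ℝ f) z‖ := mul_le_mul_of_nonneg_right hn (norm_nonneg _)
    _ = _ := one_mul _

theorem ca_le_smul {ι : Type} [Fintype ι] [DecidableEq ι] {K B : Matrix ι ι ℂ} {a b C : ℝ}
    (h1 : leM K (cI a)) (h2 : leM (cI b⁻¹) B) (ha : 0 ≤ a) (hb : 0 < b) (hB : B.PosSemidef)
    (hC : a * b ≤ C) : (((C : ℝ) : ℂ) • B - K).PosSemidef := by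
  have h3 := loewner_smul (mul_nonneg ha hb.le) h2
  have e : ((a * b : ℝ) : ℂ) • (cI b⁻¹ : Matrix ι ι ℂ) = cI a := by
    simp only [cI, smul_smul, ← Complex.ofReal_mul]
    rw [mul_assoc, mul_inv_cancel₀ hb.ne', mul_one]
  rw [e] at h3
  exact loewner_trans h1 (loewner_trans h3 (loewner_smul_le hC hB))

theorem ca_cI_add {ι : Type} [Fintype ι] [DecidableEq ι] (a b : ℝ) :
    (cI (a + b) : Matrix ι ι ℂ) = cI a + cI b := by
  simp only [cI, Complex.ofReal_add, add_smul]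

/-- a solution of the class on the atlas is a bounded solution on the manifold. -/
theorem solCl_to_crsol (hα : IsMetric X α) (hA : AtlasOK X α A Λ' Ck') {T' : ℝ} (hT : 0 < T')
    {u ut : ℝ → V → ℝ} (h : A.SolCl (crF α A) (crG α A) T' u ut) :
    ∃ S : CRSol X α T', S.U = u := by
  have hI : IsTimeDom (Set.Icc (0 : ℝ) T') := isTimeDom_Icc hT
  have hIu : UniqueDiffOn ℝ (Set.Icc (0 : ℝ) T') := uniqueDiffOn_Icc hT
  have hO : IsOpen (Metric.ball (0 : CE (Fin n)) 3) := Metric.isOpen_ball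
  obtain ⟨Cu, hCu⟩ := h.sm
  obtain ⟨CR, hCR⟩ := ric_SmB n 3 Λ' Ck' hA.Λ_pos
  have hΛ := hA.Λ_pos
  have hH : ∀ i, X.IsHol (A.Φ i) (Metric.ball 0 3) := fun i => (hA.chart i).isHol
  have hcov : ∀ x ∈ X.carrier, ∃ i, ∃ z ∈ Metric.ball (0 : CE (Fin n)) 3, A.Φ i z = x := by
    intro x hx
    obtain ⟨i, z, hz, hzx⟩ := A.cover x (hA.carrier ▸ hx)
    exact ⟨i, z, Metric.ball_subset_ball (by norm_num) hz, hzx⟩
  have hU : X.SmoothST (Set.Icc 0 T') u := CMfd.smoothST_of_cover fun x hx => by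
    obtain ⟨i, z, hz, hzx⟩ := hcov x hx
    exact ⟨A.Φ i, _, hH i, ⟨z, hz, hzx⟩, (hCu i).smooth⟩
  have hdt : ∀ t ∈ Set.Icc (0 : ℝ) T', ∀ x ∈ X.carrier,
      HasDerivWithinAt (fun s => u s x) (ut t x) (Set.Icc 0 T') t :=
    fun t ht x hx => h.dt t ht x (hA.carrier ▸ hx)
  have hP : X.SmoothST (Set.Icc 0 T') ut := hU.of_hasDerivWithinAt hI hdt
  obtain ⟨Pt, hPtdef⟩ : ∃ Pt : ℝ → V → ℝ,
      Pt = fun t x => derivWithin (fun s => ut s x) (Set.Icc 0 T') t := ⟨_, rfl⟩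
  have hPt : X.SmoothST (Set.Icc 0 T') Pt := by
    rw [hPtdef]
    exact hP.derivWithin hI
  have hPt' : ∀ t ∈ Set.Icc (0 : ℝ) T', ∀ x ∈ X.carrier,
      HasDerivWithinAt (fun s => ut s x) (Pt t x) (Set.Icc 0 T') t := by
    intro t ht x hx
    rw [hPtdef]
    exact hP.hasDerivWithinAt ht hx
  -- bounds of the time derivatives in the atlas
  have hb1 : ∀ i, SmB (Set.Icc 0 T' ×ˢ Metric.ball (0 : CE (Fin n)) 3)
      (fun q : ℝ × CE (Fin n) => ut q.1 (A.Φ i q.2)) (fun k => Cu (k + 1)) := by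
    intro i
    obtain ⟨ft, hft, hd⟩ := (hCu i).exists_dt hIu hO
    refine hft.congr fun q hq => ?_
    exact (hIu q.1 hq.1).eq_deriv _ (hdt q.1 hq.1 _ (CMfd.mem_carrier (hH i) hq.2))
      (hd q.1 hq.1 q.2 hq.2)
  have hb2 : ∀ i, SmB (Set.Icc 0 T' ×ˢ Metric.ball (0 : CE (Fin n)) 3)
      (fun q : ℝ × CE (Fin n) => Pt q.1 (A.Φ i q.2)) (fun k => Cu (k + 1 + 1)) := by
    intro i
    obtain ⟨ft, hft, hd⟩ := (hb1 i).exists_dt hIu hO
    refine hft.congr fun q hq => ?_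
    exact (hIu q.1 hq.1).eq_deriv _ (hPt' q.1 hq.1 _ (CMfd.mem_carrier (hH i) hq.2))
      (hd q.1 hq.1 q.2 hq.2)
  -- the metric in the atlas
  have hcd : ∀ i, ∀ t ∈ Set.Icc (0 : ℝ) T', ∀ z ∈ Metric.ball (0 : CE (Fin n)) 3,
      ContDiffAt ℝ 2 (A.rep i u t) z := fun i t ht z hz =>
    (((hU.smooth ht) (A.Φ i) _ (hH i)).contDiffAt (hO.mem_nhds hz)).of_le lv_two_le_infty
  have hKjet : ∀ i, ∀ t ∈ Set.Icc (0 : ℝ) T', ∀ z ∈ Metric.ball (0 : CE (Fin n)) 3,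
      crM α A i t z (jet (A.rep i u) t z) = flowMetric α u t (A.Φ i) z :=
    fun i t ht z hz => crM_jet u i t (hcd i t ht z hz)
  have hpd : ∀ i, ∀ t ∈ Set.Icc (0 : ℝ) T', ∀ z ∈ Metric.ball (0 : CE (Fin n)) 3,
      (flowMetric α u t (A.Φ i) z).PosDef := by
    intro i t ht z hz
    rw [← hKjet i t ht z hz]
    exact h.adm i t ht z hz
  have hform : ∀ t ∈ Set.Icc (0 : ℝ) T', IsHForm X (flowMetric α u t) :=
    fun t ht => isHForm_flowMetric hα (hU.smooth ht)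
  have hPeq : ∀ i, ∀ t ∈ Set.Icc (0 : ℝ) T', ∀ z ∈ Metric.ball (0 : CE (Fin n)) 3,
      ut t (A.Φ i z)
        = Real.log ((flowMetric α u t (A.Φ i) z).det / (α (A.Φ i) z).det).re := by
    intro i t ht z hz
    have h1 := h.sol i t ht z hz
    rw [← hKjet i t ht z hz]
    exact h1
  -- upper bound
  obtain ⟨b, hbdef⟩ : ∃ b : ℝ, b = T' * |CR 0| + |Cu 2| := ⟨_, rfl⟩
  have hb0 : 0 ≤ b := by rw [hbdef]; positivity
  obtain ⟨M, hMdef⟩ : ∃ M : ℝ, M = Λ' + b * Fintype.card (Fin n) := ⟨_, rfl⟩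
  have hM : 0 < M := by rw [hMdef]; positivity
  have hupper : ∀ i, ∀ t ∈ Set.Icc (0 : ℝ) T', ∀ z ∈ Metric.ball (0 : CE (Fin n)) 3,
      leM (flowMetric α u t (A.Φ i) z) (cI M) := by
    intro i t ht z hz
    have hE : (α (A.Φ i) z - flowMetric α u t (A.Φ i) z).IsHermitian :=
      (hα.herm (hH i) z hz).sub ((hform t ht).herm (hH i) z hz)
    have hent : ∀ j k, ‖(α (A.Φ i) z - flowMetric α u t (A.Φ i) z) j k‖ ≤ b := by
      intro j k
      have e : (α (A.Φ i) z - flowMetric α u t (A.Φ i) z) j k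
          = (t : ℂ) * ricF α (A.Φ i) z j k - levi (A.rep i u t) z j k := by
        simp only [flowMetric_apply, Matrix.sub_apply, Matrix.add_apply, Matrix.smul_apply,
          smul_eq_mul, ddc]
        have : (u t ∘ A.Φ i) = A.rep i u t := rfl
        rw [this]
        ring
      rw [e]
      refine (norm_sub_le _ _).trans ?_
      have h1 : ‖ricF α (A.Φ i) z j k‖ ≤ CR 0 :=
        (hCR V X α (A.Φ i) hα (hA.chart i) j k).norm_le hz
      have h2 : ‖levi (A.rep i u t) z j k‖ ≤ Cu 2 :=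
        (ca_levi_entry_le (hcd i t ht z hz) j k).trans
          (((hCu i).slice hIu hO ht).iteratedFDeriv_le hO 2 hz)
      rw [norm_mul, Complex.norm_real, Real.norm_eq_abs, abs_of_nonneg ht.1, hbdef]
      have h3 : t * ‖ricF α (A.Φ i) z j k‖ ≤ T' * |CR 0| :=
        mul_le_mul ht.2 (h1.trans (le_abs_self _)) (norm_nonneg _) hT.le
      linarith [le_abs_self (Cu 2)]
    have h4 := posSemidef_add_cI_of_entry_le hE hent
    have e2 : cI M - flowMetric α u t (A.Φ i) z = (cI Λ' - α (A.Φ i) z)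
        + (α (A.Φ i) z - flowMetric α u t (A.Φ i) z + cI (b * Fintype.card (Fin n))) := by
      rw [hMdef, ca_cI_add]
      abel
    unfold leM
    rw [e2]
    exact ((hA.chart i).upper z hz).add h4
  -- lower bound
  obtain ⟨d, hddef⟩ : ∃ d : ℝ, d = Real.exp (- |Cu 1|) * Λ'⁻¹ ^ Fintype.card (Fin n) := ⟨_, rfl⟩
  have hd : 0 < d := by rw [hddef]; positivity
  obtain ⟨Λ₁, hΛ₁, hpin⟩ := pin_of_det (ι := Fin n) M d hM hd
  have hlower : ∀ i, ∀ t ∈ Set.Icc (0 : ℝ) T', ∀ z ∈ Metric.ball (0 : CE (Fin n)) 3,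
      leM (cI Λ₁⁻¹) (flowMetric α u t (A.Φ i) z) := by
    intro i t ht z hz
    refine (hpin _ (hpd i t ht z hz) (hupper i t ht z hz) ?_).lower
    have hαpd := hα.posDef (hH i) z hz
    have h1 := hPeq i t ht z hz
    rw [log_det_div_re (hpd i t ht z hz) hαpd] at h1
    have h2 : (flowMetric α u t (A.Φ i) z).det.re
        = Real.exp (ut t (A.Φ i z)) * (α (A.Φ i) z).det.re := by
      rw [h1, sub_eq_add_neg, Real.exp_add, Real.exp_neg,
        Real.exp_log (det_re_pos_of_posDef (hpd i t ht z hz)),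
        Real.exp_log (det_re_pos_of_posDef hαpd)]
      field_simp [(det_re_pos_of_posDef hαpd).ne']
    have h3 : |ut t (A.Φ i z)| ≤ Cu 1 := (hb1 i).norm_le (q := (t, z)) ⟨ht, hz⟩
    have h4 : Real.exp (- |Cu 1|) ≤ Real.exp (ut t (A.Φ i z)) := by
      apply Real.exp_le_exp.2
      have := (abs_le.1 h3).1
      linarith [le_abs_self (Cu 1)]
    have h5 := pow_mul_det_le (inv_pos.2 hΛ).le (Matrix.PosDef.one (n := Fin n) (R := ℂ))
      ((hA.chart i).lower z hz)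
    simp only [Matrix.det_one, Complex.one_re, mul_one] at h5
    rw [h2, hddef]
    exact mul_le_mul h4 h5 (by positivity) (Real.exp_pos _).le
  -- the constant
  obtain ⟨C, hCdef⟩ : ∃ C : ℝ, C = |Cu 0| + |Cu 1| + |Cu 2| + M * Λ' + Λ' * Λ₁ := ⟨_, rfl⟩
  have hCpos : 0 < C := by rw [hCdef]; positivity
  have hle1 : ∀ t ∈ Set.Icc (0 : ℝ) T', leF X (flowMetric α u t) (smulF (fun _ => C) α) := by
    intro t ht
    refine leF_of_cover (hform t ht) (IsHForm.smulF (CMfd.smooth_const C) hα.toIsHForm)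
      fun x hx => ?_
    obtain ⟨i, z, hz, hzx⟩ := hcov x hx
    refine ⟨A.Φ i, _, z, hH i, hz, hzx, ?_⟩
    refine ca_le_smul (hupper i t ht z hz) ((hA.chart i).lower z hz) hM.le hΛ
      (hα.posDef (hH i) z hz).posSemidef ?_
    rw [hCdef]
    have : 0 ≤ Λ' * Λ₁ := by positivity
    linarith [abs_nonneg (Cu 0), abs_nonneg (Cu 1), abs_nonneg (Cu 2)]
  have hle2 : ∀ t ∈ Set.Icc (0 : ℝ) T', leF X α (smulF (fun _ => C) (flowMetric α u t)) := by
    intro t ht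
    refine leF_of_cover hα.toIsHForm (IsHForm.smulF (CMfd.smooth_const C) (hform t ht))
      fun x hx => ?_
    obtain ⟨i, z, hz, hzx⟩ := hcov x hx
    refine ⟨A.Φ i, _, z, hH i, hz, hzx, ?_⟩
    refine ca_le_smul ((hA.chart i).upper z hz) (hlower i t ht z hz) hΛ.le hΛ₁
      (hpd i t ht z hz).posSemidef ?_
    rw [hCdef]
    have : 0 ≤ M * Λ' := by positivity
    linarith [abs_nonneg (Cu 0), abs_nonneg (Cu 1), abs_nonneg (Cu 2)]
  have hmet : ∀ t ∈ Set.Icc (0 : ℝ) T', IsMetric X (flowMetric α u t) := by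
    intro t ht
    refine ⟨hform t ht, fun {Φ U} hΦ z hz => ?_⟩
    have h1 : (((C : ℝ) : ℂ) • flowMetric α u t Φ z).PosDef :=
      posDef_of_loewner (hα.posDef hΦ z hz) (hle2 t ht Φ U hΦ z hz)
    have h2 := posDef_smul_real (inv_pos.2 hCpos) h1
    rwa [smul_smul, ← Complex.ofReal_mul, inv_mul_cancel₀ hCpos.ne', Complex.ofReal_one,
      one_smul] at h2
  refine ⟨{ U := u, P := ut, Pt := Pt, U_smooth := hU, P_smooth := hP, Pt_smooth := hPt
            U_zero := fun x hx => h.init x (hA.carrier ▸ hx)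
            U_t := hdt, P_t := hPt', metric := hmet, P_eq := ?_, bdd := ?_ }, rfl⟩
  · intro t ht x hx
    obtain ⟨i, z, hz, rfl⟩ := hcov x hx
    rw [detRatio_eq (hform t ht) hα (hH i) hz]
    exact hPeq i t ht z hz
  · refine ⟨C, fun t ht => ⟨fun x hx => ?_, hle1 t ht, hle2 t ht⟩⟩
    obtain ⟨i, z, hz, rfl⟩ := hcov x hx
    have h0 : |u t (A.Φ i z)| ≤ Cu 0 := (hCu i).norm_le (q := (t, z)) ⟨ht, hz⟩
    have h1 : |ut t (A.Φ i z)| ≤ Cu 1 := (hb1 i).norm_le (q := (t, z)) ⟨ht, hz⟩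
    have h2 : |Pt t (A.Φ i z)| ≤ Cu 2 := (hb2 i).norm_le (q := (t, z)) ⟨ht, hz⟩
    have p1 : 0 ≤ M * Λ' := by positivity
    have p2 : 0 ≤ Λ' * Λ₁ := by positivity
    rw [hCdef]
    refine ⟨?_, ?_, ?_⟩ <;>
      linarith [abs_nonneg (Cu 0), abs_nonneg (Cu 1), abs_nonneg (Cu 2), le_abs_self (Cu 0),
        le_abs_self (Cu 1), le_abs_self (Cu 2)]

/-! ### B9-CA-6 -/

theorem ca_jac_translate {ι : Type} [Fintype ι] [DecidableEq ι] (z₀ w : CE ι) :
    jac (fun y : CE ι => z₀ + y) w = 1 := by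
  ext a b
  show fderiv ℂ (fun y : CE ι => z₀ + y) w (eb b) a = _
  rw [fderiv_const_add, fderiv_fun_id]
  simp [eb_apply, Matrix.one_apply]

/-- translation of a uniform chart. -/
theorem UChart.translate (hα : IsMetric X α) {r r' Λ : ℝ} {Ck : ℕ → ℝ} {Φ : CE (Fin n) → V}
    (hΦ : UChart X α r Λ Ck Φ) {z₀ : CE (Fin n)} (h : ‖z₀‖ + r' ≤ r) :
    UChart X α r' Λ Ck (fun z => Φ (z₀ + z)) ∧
    ∀ z ∈ Metric.ball (0 : CE (Fin n)) r', α (fun z => Φ (z₀ + z)) z = α Φ (z₀ + z) := by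
  have hH := hΦ.isHol
  have hmem : ∀ z ∈ Metric.ball (0 : CE (Fin n)) r', z₀ + z ∈ Metric.ball (0 : CE (Fin n)) r := by
    intro z hz
    rw [mem_ball_zero_iff] at hz ⊢
    calc ‖z₀ + z‖ ≤ ‖z₀‖ + ‖z‖ := norm_add_le _ _
      _ < ‖z₀‖ + r' := by linarith
      _ ≤ r := h
  have hH' : X.IsHol (fun z => Φ (z₀ + z)) (Metric.ball 0 r') := by
    have h1 := X.isHol_mono (CMfd.isHol_translate hH z₀) (U' := Metric.ball 0 r')
      Metric.isOpen_ball (fun z hz => by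
        show z + z₀ ∈ Metric.ball (0 : CE (Fin n)) r
        rw [add_comm]
        exact hmem z hz)
    have e : (fun z => Φ (z₀ + z)) = fun w => Φ (w + z₀) := by
      funext z
      rw [add_comm]
    rw [e]
    exact h1
  have hform : ∀ z ∈ Metric.ball (0 : CE (Fin n)) r',
      α (fun z => Φ (z₀ + z)) z = α Φ (z₀ + z) := by
    intro z hz
    have h1 := hα.compat hH' hH z hz ⟨z₀ + z, hmem z hz, rfl⟩
    have h2 : Function.invFunOn Φ (Metric.ball 0 r) (Φ (z₀ + z)) = z₀ + z :=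
      (X.isParam hH).leftInv (hmem z hz)
    have h3 : jac (Function.invFunOn Φ (Metric.ball 0 r) ∘ fun y => Φ (z₀ + y)) z = 1 := by
      rw [← ca_jac_translate z₀ z]
      refine jac_congr ?_
      filter_upwards [Metric.isOpen_ball.mem_nhds hz] with y hy
      exact (X.isParam hH).leftInv (hmem y hy)
    rw [h1, h2, h3]
    simp
  refine ⟨⟨hH', fun z hz => ?_, fun z hz => ?_, fun k j l z hz => ?_⟩, hform⟩
  · rw [hform z hz]
    exact hΦ.lower _ (hmem z hz)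
  · rw [hform z hz]
    exact hΦ.upper _ (hmem z hz)
  · have e : (fun y => α (fun z => Φ (z₀ + z)) y j l)
        =ᶠ[𝓝 z] fun y => (fun w => α Φ w j l) (z₀ + y) := by
      filter_upwards [Metric.isOpen_ball.mem_nhds hz] with y hy
      rw [hform y hy]
    have e2 : iteratedFDeriv ℝ k (fun y => (fun w => α Φ w j l) (z₀ + y)) z
        = iteratedFDeriv ℝ k (fun w => α Φ w j l) (z₀ + z) :=
      iteratedFDeriv_comp_add_left (𝕜 := ℝ) (f := fun w => α Φ w j l) k z₀ z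
    rw [(Filter.EventuallyEq.iteratedFDeriv (𝕜 := ℝ) e k).eq_of_nhds, e2]
    exact hΦ.deriv k j l _ (hmem z hz)

/-- **a priori bounds in the atlas.** -/
theorem apriori_SmM (hR1 : StCRLocalReg) (hα : IsMetric X α) (hA : AtlasOK X α A Λ' Ck')
    (C T : ℝ) (hC : 0 < C) : ∃ Cg : ℕ → ℝ, ∀ (T' : ℝ), 0 < T' → T' ≤ T → ∀ S : CRSol X α T',
      (∀ t ∈ Set.Icc (0 : ℝ) T', leF X (S.K t) (smulF (fun _ => C) α) ∧
        leF X α (smulF (fun _ => C) (S.K t))) →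
      ∀ t ∈ Set.Icc (0 : ℝ) T', A.SmM (S.U t) Cg := by
  obtain ⟨Cu, hCu⟩ := crsol_U_bounds hR1 n 1 Λ' C T Ck' one_pos hA.Λ_pos hC
  obtain ⟨Cg, hCg⟩ := A.exists_SmM_of_ball2 Cu
  refine ⟨Cg, fun T' hT hTT S hS t ht => hCg (S.U t) fun i => ?_⟩
  have hH : X.IsHol (A.Φ i) (Metric.ball 0 3) := (hA.chart i).isHol
  refine SmB.of_isOpen Metric.isOpen_ball ?_ ?_
  · exact ((S.U_smooth.smooth ht) (A.Φ i) _ hH).mono (Metric.ball_subset_ball (by norm_num))
  · intro k z₀ hz₀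
    have hz₀' : ‖z₀‖ + 1 ≤ 3 := by
      rw [mem_ball_zero_iff] at hz₀
      linarith
    obtain ⟨hU', _⟩ := UChart.translate hα (hA.chart i) hz₀'
    have h1 := hCu V X α (fun z => A.Φ i (z₀ + z)) T' hα hU' hT hTT S hS k t ht 0
      (Metric.mem_ball_self (by norm_num))
    have e : (S.U t ∘ fun z => A.Φ i (z₀ + z)) = fun z => (A.rep0 i (S.U t)) (z₀ + z) := rfl
    rw [e, iteratedFDeriv_comp_add_left, add_zero] at h1
    exact h1

/-! ### B9-CA-7 -/

/-- **(R3)**.  `exists_uatlas_of_bddGeom`; `C₀ = max C 1` from the hypothesis; `Cg` from `apriori_SmM` (`max` with `0`: the zero function);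
`Λ₀ = C₀ Λ'`; `(σ, δ, lam, CF)` from `good_of_bounds`; `UAtlas.continuation` (version with `σ`) with `F = crF α A`, `𝒢 = crG α A`; `h0`: `g = 0`, `crM = α`;
`h1`: `solCl_to_crsol`, the a priori hypothesis, `apriori_SmM`, `crM_jet`; finally `solCl_to_crsol` on `[0,T]`. -/
theorem stContinuation (hR1 : StCRLocalReg) : StContinuation := by
  intro V _ _ _ n X α f Cf T hα hG _ hT hap
  obtain ⟨G⟩ := hG
  obtain ⟨C, hC⟩ := hap
  obtain ⟨A, Λ', Ck', hcar, hΛ', hch⟩ := exists_uatlas_of_bddGeom hα G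
  have hA : AtlasOK X α A Λ' Ck' := ⟨hcar, hΛ', hch⟩
  have hH : ∀ i, X.IsHol (A.Φ i) (Metric.ball 0 3) := fun i => (hch i).isHol
  obtain ⟨C₀, hC₀def⟩ : ∃ C₀ : ℝ, C₀ = max C 1 := ⟨_, rfl⟩
  have hC₀1 : 1 ≤ C₀ := by rw [hC₀def]; exact le_max_right _ _
  have hCC₀ : C ≤ C₀ := by rw [hC₀def]; exact le_max_left _ _
  have hC₀ : 0 < C₀ := by linarith
  -- the a priori hypothesis with the constant `C₀`
  have hap' : ∀ T' : ℝ, 0 < T' → T' ≤ T → ∀ S : CRSol X α T', ∀ t ∈ Set.Icc (0 : ℝ) T',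
      leF X (S.K t) (smulF (fun _ => C₀) α) ∧ leF X α (smulF (fun _ => C₀) (S.K t)) := by
    intro T' hT' hTT S t ht
    obtain ⟨_, h1, h2⟩ := hC T' hT' hTT S t ht
    constructor
    · intro Φ U hΦ z hz
      exact loewner_trans (h1 Φ U hΦ z hz) (loewner_smul_le hCC₀ (hα.posDef hΦ z hz).posSemidef)
    · intro Φ U hΦ z hz
      exact loewner_trans (h2 Φ U hΦ z hz)
        (loewner_smul_le hCC₀ ((S.metric t ht).posDef hΦ z hz).posSemidef)
  obtain ⟨Cg, hCg⟩ := apriori_SmM hR1 hα hA C₀ T hC₀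
  have hΛ₀ : 0 < C₀ * Λ' := by positivity
  obtain ⟨σ, δ, lam, CF, hσ, hδ, hlam, hgood⟩ :=
    good_of_bounds hα hA (C₀ * Λ') T (fun k => max (Cg k) 0) hΛ₀ hT
  have h0 : A.Good (crF α A) (crG α A) T σ δ lam CF 0 0 := by
    have hsm : A.SmM (0 : V → ℝ) (fun k => max (Cg k) 0) := by
      intro i
      refine SmB.of_isOpen Metric.isOpen_ball contDiffOn_const fun k q _ => ?_
      have e : A.rep0 i (0 : V → ℝ) = fun _ => (0 : ℝ) := rfl
      rw [e, congrFun iteratedFDeriv_fun_zero q]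
      simp
    obtain ⟨g1, g2⟩ := hgood 0 0 le_rfl hT hsm (fun i z hz => by
      have e1 : jet (fun _ => A.rep0 i (0 : V → ℝ)) 0 z
          = jet (A.rep i (fun _ => (0 : V → ℝ))) 0 z := rfl
      have hcd : ContDiffAt ℝ 2 (A.rep i (fun _ => (0 : V → ℝ)) 0) z := contDiffAt_const
      rw [e1, crM_jet (fun _ => (0 : V → ℝ)) i 0 hcd,
        flowMetric_zero (𝓜 := X) (fun x _ => rfl) (hH i) hz]
      have hone : (1 : Matrix (Fin n) (Fin n) ℂ).PosSemidef := Matrix.PosSemidef.one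
      refine ⟨hα.herm (hH i) z hz, ?_, ?_⟩
      · refine loewner_trans (loewner_smul_le ?_ hone) ((hch i).lower z hz)
        exact inv_anti₀ hΛ' (le_mul_of_one_le_left hΛ'.le hC₀1)
      · exact loewner_trans ((hch i).upper z hz)
          (loewner_smul_le (le_mul_of_one_le_left hΛ'.le hC₀1) hone))
    exact ⟨g1, g2⟩
  have h1 : ∀ (T' : ℝ) (u ut : ℝ → V → ℝ), 0 < T' → T' < T →
      A.SolCl (crF α A) (crG α A) T' u ut →
      A.Good (crF α A) (crG α A) T σ δ lam CF T' (u T') := by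
    intro T' u ut hT' hTT hsol
    obtain ⟨S, hSU⟩ := solCl_to_crsol hα hA hT' hsol
    have hmem : T' ∈ Set.Icc (0 : ℝ) T' := ⟨hT'.le, le_rfl⟩
    have hsm : A.SmM (u T') (fun k => max (Cg k) 0) := by
      have h2 := hCg T' hT' hTT.le S (hap' T' hT' hTT.le S) T' hmem
      rw [hSU] at h2
      exact fun i => (h2 i).mono fun k => le_max_left _ _
    obtain ⟨g1, g2⟩ := hgood T' (u T') hT'.le hTT hsm (fun i z hz => by
      have e1 : jet (fun _ => A.rep0 i (u T')) 0 z = jet (A.rep i u) T' z := rfl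
      have hcd : ContDiffAt ℝ 2 (A.rep i u T') z := by
        have h3 := ((S.U_smooth.smooth hmem) (A.Φ i) _ (hH i)).contDiffAt
          (Metric.isOpen_ball.mem_nhds hz)
        rw [hSU] at h3
        exact h3.of_le lv_two_le_infty
      rw [e1, crM_jet u i T' hcd, ← hSU]
      obtain ⟨a1, a2⟩ := hap' T' hT' hTT.le S T' hmem
      exact ⟨(S.metric T' hmem).herm (hH i) z hz,
        ct_pin_lower hC₀ (a2 _ _ (hH i) z hz) ((hch i).lower z hz),
        ct_pin_upper hC₀ (a1 _ _ (hH i) z hz) ((hch i).upper z hz)⟩)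
    exact ⟨g1, g2⟩
  obtain ⟨u, ut, hsol⟩ := A.continuation (1 / 2) σ δ lam CF (by norm_num) (by norm_num) hσ hδ hlam
    hT (crF α A) (crG α A) h0 h1
  obtain ⟨S, _⟩ := solCl_to_crsol hα hA hT hsol
  exact ⟨S⟩

end Claimed.Agent.R316.B9
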