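import Claimed.Agent.R316.B9.QLProl

/-!
# Row 316, package B9: all derivative bounds for quasilinear systems, given a gradient bound

Leaves
* **B9-QL-S1**: `stage1` (spatial derivatives).  Induction on `m` over all `(α, S, 𝒦, …)`.
  `m = 0`: lists of length `≤ 1`: `𝒦` is bounded, `B₁`.
  `m + 1`: `W = pro e u` solves `S.prolong` (`pro_sol`), with values in `𝒦' = {W | nn W ∈ 𝒦 ∧ ‖sm W‖ ≤ B₁}` (`prolong_good`),
  affine growth `prolong_AG`; `D_d (a_ij (nn W)) = fderiv a_ij (u) (D_d u)` is bounded by `sup_𝒦 ‖fderiv a_ij‖ * B₁`; passive jets of `W` are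
  passive jets of `u` of one more order (`Dl_pro_none`, `Dl_pro_some`).  `grad_sys` on `ρ'' = (ρ' + ρ)/2`, `δ/2` bounds `‖D_i W‖ ≤ B₁'`;
  then the induction hypothesis for `(S.prolong, 𝒦', B₁')` on `ρ' < ρ''` (for (b): from the initial time `t₀ + δ/2`, with `δ/2`; if
  `t₁ < t₀ + δ/2` there is nothing to prove).  Lists of length `≤ m + 2` on `u` are `[]` or `d :: L` with `Dl (d :: L) u = Dl L W (some d, ·)`.
* **B9-QL-S2**: `stage2` (time derivatives).  Induction on `k` over all `(n, B)`.  A list with `k + 1` entries `none` is a permutation of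
  `none :: L₁` (`Dl_perm`, `List.perm_cons_erase`).  For active `β`: `Dl (tm :: L₁) u q β = Dl L₁ (fun q' => Ψ_β (h q')) q`,
  `h = (u, (D_i u)_i, (D_i D_j u)_{ij})`, `Ψ_β (W, Q, R) = ∑ a_ij W • R i j β + Φ (W, Q) β`, smooth on `dom ×ˢ univ`; `Dl_comp_bound` (finitely many
  lists: `List.finite_length_le`), the sublists `L'` of `L₁` give lists `some j :: some i :: L'` of length `≤ n + 1` with `≤ k` entries `none`.
* **B9-QL-MAIN**: `ql_main` = `stage1 (3 n)` + `stage2 n n`.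
-/

set_option autoImplicit false
set_option maxSynthPendingDepth 3
open scoped ContDiff Topology

namespace Claimed.Agent.R316.B9

variable {E : Type} [NormedAddCommGroup E] [NormedSpace ℝ E] [FiniteDimensional ℝ E]
variable {κ : Type} [Fintype κ]
variable {𝕍 : Type} [NormedAddCommGroup 𝕍] [InnerProductSpace ℝ 𝕍] [FiniteDimensional ℝ 𝕍]

/-- hypotheses on a solution, at the point `q`: values in `𝒦`, gradient bound, passive jets of order `≤ N`. -/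
structure TH {α : Type} [Fintype α] (e : κ → E) (S : QSys κ α 𝕍) (𝒦 : Set (α → 𝕍))
    (u : ℝ × E → α → 𝕍) (B₁ Bθ : ℝ) (N : ℕ) (q : ℝ × E) : Prop where
  mem : u q ∈ 𝒦
  grad : ∀ i, ‖Dd (sp e i) u q‖ ≤ B₁
  pas : ∀ β, ¬ S.act β → ∀ L : List (Option κ), L.length ≤ N → ‖Dl (L.map (dir e)) u q β‖ ≤ Bθ

theorem norm_Dl_pro_le {α : Type} [Fintype α] (e : κ → E) {u : ℝ × E → α → 𝕍} {q : ℝ × E}
    (hu : ContDiffAt ℝ ∞ u q) (L : List (ℝ × E)) {B : ℝ} (h0 : ‖Dl L u q‖ ≤ B)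
    (h1 : ∀ d, ‖Dl (sp e d :: L) u q‖ ≤ B) : ‖Dl L (pro e u) q‖ ≤ B := by
  rw [pi_norm_le_iff_of_nonneg ((norm_nonneg _).trans h0)]
  rintro ⟨_ | d, β⟩
  · rw [Dl_pro_none e hu]; exact (norm_le_pi_norm _ β).trans h0
  · rw [Dl_pro_some e hu]; exact (norm_le_pi_norm _ β).trans (h1 d)

theorem norm_Dl_le_pro_none {α : Type} [Fintype α] (e : κ → E) {u : ℝ × E → α → 𝕍} {q : ℝ × E}
    (hu : ContDiffAt ℝ ∞ u q) (L : List (ℝ × E)) : ‖Dl L u q‖ ≤ ‖Dl L (pro e u) q‖ := by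
  rw [pi_norm_le_iff_of_nonneg (norm_nonneg _)]
  intro β
  rw [← Dl_pro_none e hu]; exact norm_le_pi_norm _ _

theorem norm_Dl_le_pro_some {α : Type} [Fintype α] (e : κ → E) {u : ℝ × E → α → 𝕍} {q : ℝ × E}
    (hu : ContDiffAt ℝ ∞ u q) (L : List (ℝ × E)) (d : κ) :
    ‖Dl (sp e d :: L) u q‖ ≤ ‖Dl L (pro e u) q‖ := by
  rw [pi_norm_le_iff_of_nonneg (norm_nonneg _)]
  intro β
  rw [← Dl_pro_some e hu]; exact norm_le_pi_norm _ _

theorem exists_fderiv_a_bound {α : Type} [Fintype α] (S : QSys κ α 𝕍) {𝒦 : Set (α → 𝕍)}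
    {lam Lam : ℝ} (hG : S.Good 𝒦 lam Lam) :
    ∃ A₁ : ℝ, 0 ≤ A₁ ∧ ∀ W ∈ 𝒦, ∀ i j, ‖fderiv ℝ (S.a i j) W‖ ≤ A₁ := by
  have hc : ContinuousOn (fun W => ∑ i, ∑ j, ‖fderiv ℝ (S.a i j) W‖) 𝒦 :=
    continuousOn_finsetSum _ fun i _ => continuousOn_finsetSum _ fun j _ =>
      ((((hG.reg.a_smooth i j).fderiv_of_isOpen hG.reg.isOpen (m := ∞)
        (by simp)).continuousOn).mono hG.sub).norm
  obtain ⟨A₁, hA⟩ := hG.compact.exists_bound_of_continuousOn hc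
  refine ⟨max A₁ 0, le_max_right _ _, fun W hW i j => ?_⟩
  have h1 : ‖fderiv ℝ (S.a i j) W‖ ≤ ∑ j, ‖fderiv ℝ (S.a i j) W‖ :=
    Finset.single_le_sum (f := fun j => ‖fderiv ℝ (S.a i j) W‖) (fun _ _ => norm_nonneg _)
      (Finset.mem_univ j)
  have h2 : ∑ j, ‖fderiv ℝ (S.a i j) W‖ ≤ ∑ i, ∑ j, ‖fderiv ℝ (S.a i j) W‖ :=
    Finset.single_le_sum (f := fun i => ∑ j, ‖fderiv ℝ (S.a i j) W‖)
      (fun _ _ => Finset.sum_nonneg fun _ _ => norm_nonneg _) (Finset.mem_univ i)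
  exact (h1.trans h2).trans (((Real.le_norm_self _).trans (hA W hW)).trans (le_max_left _ _))

/-- **Stage 1**: spatial derivatives of order `≤ m + 1`. -/
theorem stage1 (e : κ → E) (m : ℕ) : ∀ (α : Type) [Fintype α] (S : QSys κ α 𝕍) (𝒦 : Set (α → 𝕍))
    (lam Lam : ℝ), S.Good 𝒦 lam Lam → ∀ (ρ' ρ δ B₁ Bθ B₀ : ℝ), 0 < ρ' → ρ' < ρ → 0 < δ →
    0 ≤ B₁ → 0 ≤ Bθ → 0 ≤ B₀ →
    ∃ C : ℝ, 0 ≤ C ∧ ∀ (t₀ t₁ : ℝ) (x₀ : E) (O : Set (ℝ × E)) (u : ℝ × E → α → 𝕍),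
      t₀ ≤ t₁ → IsOpen O → cyl t₀ t₁ x₀ ρ ⊆ O → ContDiffOn ℝ ∞ u O → Set.MapsTo u O S.dom →
      S.Sol e u O → (∀ q ∈ cyl t₀ t₁ x₀ ρ, TH e S 𝒦 u B₁ Bθ (m + 3) q) →
      ((∀ x ∈ Metric.closedBall x₀ ρ, ∀ L : List κ, L.length ≤ m + 1 →
          ‖Dl (L.map (sp e)) u (t₀, x)‖ ≤ B₀) →
        ∀ q ∈ cyl t₀ t₁ x₀ ρ', ∀ L : List κ, L.length ≤ m + 1 → ‖Dl (L.map (sp e)) u q‖ ≤ C) ∧
      (∀ q ∈ cyl (t₀ + δ) t₁ x₀ ρ', ∀ L : List κ, L.length ≤ m + 1 →
        ‖Dl (L.map (sp e)) u q‖ ≤ C) := by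
  induction m with
  | zero =>
    intro α _ S 𝒦 lam Lam hG ρ' ρ δ B₁ Bθ B₀ hρ' hρ hδ h1 hθ h0
    obtain ⟨R, hR⟩ := hG.compact.isBounded.subset_closedBall 0
    refine ⟨max (max R B₁) 0, le_max_right _ _, ?_⟩
    intro t₀ t₁ x₀ O u ht hO hsub hu hdom hsol hTH
    have key : ∀ q ∈ cyl t₀ t₁ x₀ ρ, ∀ L : List κ, L.length ≤ 0 + 1 →
        ‖Dl (L.map (sp e)) u q‖ ≤ max (max R B₁) 0 := by
      intro q hq L hL
      match L, hL with
      | [], _ =>
        exact (mem_closedBall_zero_iff.1 (hR (hTH q hq).mem)).trans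
          ((le_max_left _ _).trans (le_max_left _ _))
      | [i], _ =>
        exact ((hTH q hq).grad i).trans ((le_max_right _ _).trans (le_max_left _ _))
      | _ :: _ :: _, h => simp at h
    have hsubc : ∀ s, cyl s t₁ x₀ ρ' ⊆ cyl s t₁ x₀ ρ := fun s =>
      Set.prod_mono subset_rfl (Metric.closedBall_subset_closedBall hρ.le)
    refine ⟨fun _ q hq => key q (hsubc _ hq), fun q hq => key q ?_⟩
    exact ⟨⟨by linarith [hq.1.1], hq.1.2⟩, (hsubc _ hq).2⟩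
  | succ m ih =>
    intro α _ S 𝒦 lam Lam hG ρ' ρ δ B₁ Bθ B₀ hρ' hρ hδ h1 hθ h0
    obtain ⟨ρ'', hρ''⟩ : ∃ ρ'' : ℝ, ρ'' = (ρ' + ρ) / 2 := ⟨_, rfl⟩
    have hρ1 : ρ' < ρ'' := by rw [hρ'']; linarith
    have hρ2 : ρ'' < ρ := by rw [hρ'']; linarith
    have hG' := prolong_good S hG B₁
    obtain ⟨CAG, hCAG, hAG⟩ := prolong_AG S hG.reg hG'.compact hG'.sub
    obtain ⟨A₁, hA₁, hA⟩ := exists_fderiv_a_bound S hG
    obtain ⟨C₁, hC₁, HS⟩ := grad_sys e S.prolong hG' hCAG hAG ρ'' ρ (δ / 2) (A₁ * B₁) Bθ B₀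
      (hρ'.trans hρ1) hρ2 (by positivity) (by positivity) hθ h0
    obtain ⟨C₂, hC₂, HI⟩ := ih (Option κ × α) S.prolong _ lam Lam hG' ρ' ρ'' (δ / 2) C₁ Bθ B₀ hρ' hρ1
      (by positivity) hC₁ hθ h0
    refine ⟨C₂, hC₂, ?_⟩
    intro t₀ t₁ x₀ O u ht hO hsub hu hdom hsol hTH
    have hW : ContDiffOn ℝ ∞ (pro e u) O := contDiffOn_pro e hO hu
    have hWdom : Set.MapsTo (pro e u) O S.prolong.dom := fun q hq => hdom hq
    have hWsol := pro_sol e S hG.reg hO hu hdom hsol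
    have huq : ∀ q ∈ cyl t₀ t₁ x₀ ρ, ContDiffAt ℝ ∞ u q := fun q hq =>
      hu.contDiffAt (hO.mem_nhds (hsub hq))
    have hmem : ∀ q ∈ cyl t₀ t₁ x₀ ρ, pro e u q ∈ {W | nn W ∈ 𝒦 ∧ ‖sm W‖ ≤ B₁} := fun q hq =>
      ⟨(hTH q hq).mem, (pi_norm_le_iff_of_nonneg h1).2 fun i => (hTH q hq).grad i⟩
    have hpas : ∀ q ∈ cyl t₀ t₁ x₀ ρ, ∀ b, ¬ S.prolong.act b → ∀ L : List (Option κ),
        L.length ≤ m + 3 → ‖Dl (L.map (dir e)) (pro e u) q b‖ ≤ Bθ := by
      rintro q hq ⟨_ | d, β⟩ hb L hL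
      · rw [Dl_pro_none e (huq q hq)]
        exact (hTH q hq).pas β hb L (by omega)
      · rw [Dl_pro_some e (huq q hq)]
        exact (hTH q hq).pas β hb (some d :: L) (by simp; omega)
    have hSH : ∀ q ∈ cyl t₀ t₁ x₀ ρ,
        SH e S.prolong {W | nn W ∈ 𝒦 ∧ ‖sm W‖ ≤ B₁} (pro e u) (A₁ * B₁) Bθ 3 q := by
      intro q hq
      refine ⟨hmem q hq, fun d i j => ?_, fun b hb L hL => hpas q hq b hb L (by omega)⟩
      have e1 : (fun q' => S.prolong.a i j (pro e u q')) = fun q' => S.a i j (u q') := rfl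
      rw [e1, Dd_comp (((hG.reg.a_smooth i j).contDiffAt (hG.reg.isOpen.mem_nhds
        (hdom (hsub hq)))).differentiableAt (by simp)) ((huq q hq).differentiableAt (by simp))]
      rw [← Real.norm_eq_abs]
      exact (ContinuousLinearMap.le_opNorm _ _).trans
        (mul_le_mul (hA _ (hTH q hq).mem i j) ((hTH q hq).grad d) (norm_nonneg _) hA₁)
    have HS' := HS t₀ t₁ x₀ O (pro e u) ht hO hsub hW hWdom hWsol hSH
    have hsub2 : ∀ s, t₀ ≤ s → cyl s t₁ x₀ ρ'' ⊆ cyl t₀ t₁ x₀ ρ := fun s hs q hq =>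
      ⟨⟨hs.trans hq.1.1, hq.1.2⟩, Metric.closedBall_subset_closedBall hρ2.le hq.2⟩
    -- from bounds on `pro e u` back to `u`
    have back : ∀ q, ContDiffAt ℝ ∞ u q →
        (∀ L : List κ, L.length ≤ m + 1 → ‖Dl (L.map (sp e)) (pro e u) q‖ ≤ C₂) →
        ∀ L : List κ, L.length ≤ m + 1 + 1 → ‖Dl (L.map (sp e)) u q‖ ≤ C₂ := by
      intro q hq hb L hL
      match L, hL with
      | [], _ => exact (norm_Dl_le_pro_none e hq []).trans (hb [] (by simp))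
      | d :: L', h =>
        exact (norm_Dl_le_pro_some e hq (L'.map (sp e)) d).trans (hb L' (by simpa using h))
    constructor
    · intro hinit
      have hg := HS'.1 (fun x hx i => by
        have hq : (t₀, x) ∈ cyl t₀ t₁ x₀ ρ := ⟨⟨le_rfl, ht⟩, hx⟩
        exact norm_Dl_pro_le e (huq _ hq) [sp e i] (hinit x hx [i] (by simp))
          fun d => hinit x hx [d, i] (by simp))
      have HI' := HI t₀ t₁ x₀ O (pro e u) ht hO ((hsub2 t₀ le_rfl).trans hsub) hW hWdom hWsol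
        (fun q hq => ⟨hmem q (hsub2 _ le_rfl hq), hg q hq, hpas q (hsub2 _ le_rfl hq)⟩)
      have := HI'.1 (fun x hx L hL => by
        have hx' : x ∈ Metric.closedBall x₀ ρ := Metric.closedBall_subset_closedBall hρ2.le hx
        have hq : (t₀, x) ∈ cyl t₀ t₁ x₀ ρ := ⟨⟨le_rfl, ht⟩, hx'⟩
        exact norm_Dl_pro_le e (huq _ hq) (L.map (sp e)) (hinit x hx' L (by omega))
          fun d => hinit x hx' (d :: L) (by simp; omega))
      intro q hq
      have hq' : q ∈ cyl t₀ t₁ x₀ ρ :=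
        ⟨hq.1, Metric.closedBall_subset_closedBall hρ.le hq.2⟩
      exact back q (huq q hq') (this q hq)
    · intro q hq
      have ht' : t₀ + δ / 2 ≤ t₁ := by linarith [hq.1.1, hq.1.2]
      have hs : t₀ ≤ t₀ + δ / 2 := by linarith
      have HI' := HI (t₀ + δ / 2) t₁ x₀ O (pro e u) ht' hO ((hsub2 _ hs).trans hsub) hW hWdom hWsol
        (fun q hq => ⟨hmem q (hsub2 _ hs hq), HS'.2 q hq, hpas q (hsub2 _ hs hq)⟩)
      have hq' : q ∈ cyl t₀ t₁ x₀ ρ :=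
        ⟨⟨by linarith [hq.1.1], hq.1.2⟩, Metric.closedBall_subset_closedBall hρ.le hq.2⟩
      have hq2 : q ∈ cyl (t₀ + δ / 2 + δ / 2) t₁ x₀ ρ' := ⟨⟨by linarith [hq.1.1], hq.1.2⟩, hq.2⟩
      exact back q (huq q hq') (HI'.2 q hq2)

/-- one time derivative is a smooth function of `(u, Du, D²u)`. -/
theorem tm_comp_bound {α : Type} [Fintype α] (e : κ → E) (S : QSys κ α 𝕍) (hS : S.Reg)
    (𝒦 : Set (α → 𝕍)) (hK : IsCompact 𝒦) (hsub : 𝒦 ⊆ S.dom) (L₁ : List (Option κ)) (β : α)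
    (B' : ℝ) :
    ∃ C : ℝ, 0 ≤ C ∧ ∀ (O : Set (ℝ × E)) (u : ℝ × E → α → 𝕍) (q : ℝ × E), IsOpen O → q ∈ O →
      ContDiffOn ℝ ∞ u O → Set.MapsTo u O S.dom → S.Sol e u O → S.act β → u q ∈ 𝒦 →
      (∀ L'' : List (Option κ), L''.Sublist L₁ → ‖Dl (L''.map (dir e)) u q‖ ≤ B' ∧
        (∀ i, ‖Dl ((some i :: L'').map (dir e)) u q‖ ≤ B') ∧
        ∀ i j, ‖Dl ((some j :: some i :: L'').map (dir e)) u q‖ ≤ B') →
      ‖Dl ((none :: L₁).map (dir e)) u q β‖ ≤ C := by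
  obtain ⟨Ψ, hΨ⟩ : ∃ Ψ : (α → 𝕍) × ((κ → α → 𝕍) × (κ → κ → α → 𝕍)) → 𝕍,
      Ψ = fun p => (∑ i, ∑ j, S.a i j p.1 • p.2.2 i j β) + S.Φ (p.1, p.2.1) β := ⟨_, rfl⟩
  have hU : IsOpen (S.dom ×ˢ (Set.univ : Set ((κ → α → 𝕍) × (κ → κ → α → 𝕍)))) :=
    hS.isOpen.prod isOpen_univ
  have hΨs : ContDiffOn ℝ ∞ Ψ (S.dom ×ˢ Set.univ) := by
    rw [hΨ]
    have h1 : ∀ i j, ContDiffOn ℝ ∞
        (fun p : (α → 𝕍) × ((κ → α → 𝕍) × (κ → κ → α → 𝕍)) => S.a i j p.1 • p.2.2 i j β)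
        (S.dom ×ˢ Set.univ) := fun i j =>
      ((hS.a_smooth i j).comp contDiffOn_fst fun p hp => hp.1).smul
        ((contDiff_pi.1 ((contDiff_pi.1 ((contDiff_pi.1
          (contDiff_snd.comp contDiff_snd)) i)) j)) β).contDiffOn
    have h2 : ContDiffOn ℝ ∞
        (fun p : (α → 𝕍) × ((κ → α → 𝕍) × (κ → κ → α → 𝕍)) => S.Φ (p.1, p.2.1))
        (S.dom ×ˢ Set.univ) :=
      hS.Φ_smooth.comp (contDiff_fst.prodMk (contDiff_fst.comp contDiff_snd)).contDiffOn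
        fun p hp => ⟨hp.1, Set.mem_univ _⟩
    exact (ContDiffOn.sum fun i _ => ContDiffOn.sum fun j _ => h1 i j).add ((contDiffOn_pi.1 h2) β)
  obtain ⟨C, hC, H⟩ := Dl_comp_bound (L₁.map (dir e)) _ _ Ψ _
    (𝒦 ×ˢ (Metric.closedBall 0 B' ×ˢ Metric.closedBall 0 B')) hU hΨs
    (hK.prod ((isCompact_closedBall _ _).prod (isCompact_closedBall _ _)))
    (Set.prod_mono hsub (Set.subset_univ _)) B'
  refine ⟨C, hC, ?_⟩
  intro O u q hO hq hu hdom hsol hβ hmem hb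
  have huq : ContDiffAt ℝ ∞ u q := hu.contDiffAt (hO.mem_nhds hq)
  have hg1 : ContDiffAt ℝ ∞ (fun x => fun i => Dd (sp e i) u x) q :=
    contDiffAt_pi.2 fun i => contDiffAt_Dd huq _
  have hg2 : ContDiffAt ℝ ∞ (fun x => fun i j => Dd (sp e i) (Dd (sp e j) u) x) q :=
    contDiffAt_pi.2 fun i => contDiffAt_pi.2 fun j => contDiffAt_Dd (contDiffAt_Dd huq _) _
  have hh : ContDiffAt ℝ ∞ (fun x => (u x, ((fun i => Dd (sp e i) u x),
      fun i j => Dd (sp e i) (Dd (sp e j) u) x))) q := huq.prodMk (hg1.prodMk hg2)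
  have hDl : ∀ L'' : List (Option κ), L''.Sublist L₁ →
      ‖Dl (L''.map (dir e)) (fun x => (u x, ((fun i => Dd (sp e i) u x),
        fun i j => Dd (sp e i) (Dd (sp e j) u) x))) q‖ ≤ B' := by
    intro L'' hs
    obtain ⟨b0, b1, b2⟩ := hb L'' hs
    have hB0 : 0 ≤ B' := (norm_nonneg _).trans b0
    have c1 : ‖Dl (L''.map (dir e)) (fun x => fun i => Dd (sp e i) u x) q‖ ≤ B' := by
      rw [pi_norm_le_iff_of_nonneg hB0]
      intro i
      rw [Dl_apply (F := α → 𝕍) hg1]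
      exact b1 i
    have c2 : ‖Dl (L''.map (dir e)) (fun x => fun i j => Dd (sp e i) (Dd (sp e j) u) x) q‖
        ≤ B' := by
      rw [pi_norm_le_iff_of_nonneg hB0]
      intro i
      rw [Dl_apply (F := κ → α → 𝕍) hg2, pi_norm_le_iff_of_nonneg hB0]
      intro j
      rw [Dl_apply (F := α → 𝕍) ((contDiffAt_pi.1 hg2) i)]
      exact b2 i j
    rw [Dl_prodMk huq (hg1.prodMk hg2), Dl_prodMk hg1 hg2]
    exact max_le b0 (max_le c1 c2)
  have heq : (fun x => Dd tm u x β) =ᶠ[𝓝 q] fun x => Ψ (u x, ((fun i => Dd (sp e i) u x),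
      fun i j => Dd (sp e i) (Dd (sp e j) u) x)) :=
    Filter.eventuallyEq_of_mem (hO.mem_nhds hq) fun x hx => by
      rw [hΨ]; exact hsol x hx β hβ
  show ‖Dl (L₁.map (dir e)) (Dd tm u) q β‖ ≤ C
  rw [Dl_apply (contDiffAt_Dd huq _), Dl_congr_at heq]
  refine H _ q hh ⟨hmem, ?_, ?_⟩ ?_
  · have := (hDl [] (List.nil_sublist _))
    exact mem_closedBall_zero_iff.2 ((le_max_left _ _).trans ((le_max_right _ _).trans this))
  · have := (hDl [] (List.nil_sublist _))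
    exact mem_closedBall_zero_iff.2 ((le_max_right _ _).trans ((le_max_right _ _).trans this))
  · intro L' hL'
    obtain ⟨L'', hs, rfl⟩ := List.sublist_map_iff.1 hL'
    exact hDl L'' hs

/-- **Stage 2**: lists of length `≤ n` with at most `k` time directions. -/
theorem stage2 {α : Type} [Fintype α] (e : κ → E) (S : QSys κ α 𝕍) (hS : S.Reg) (𝒦 : Set (α → 𝕍))
    (hK : IsCompact 𝒦) (hsub : 𝒦 ⊆ S.dom) (k : ℕ) : ∀ (n : ℕ) (B : ℝ), 0 ≤ B →
    ∃ C : ℝ, 0 ≤ C ∧ ∀ (O : Set (ℝ × E)) (u : ℝ × E → α → 𝕍) (q : ℝ × E), IsOpen O → q ∈ O →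
      ContDiffOn ℝ ∞ u O → Set.MapsTo u O S.dom → S.Sol e u O → u q ∈ 𝒦 →
      (∀ L : List κ, L.length ≤ n + 2 * k → ‖Dl (L.map (sp e)) u q‖ ≤ B) →
      (∀ β, ¬ S.act β → ∀ L : List (Option κ), L.length ≤ n + 2 * k →
        ‖Dl (L.map (dir e)) u q β‖ ≤ B) →
      ∀ L : List (Option κ), L.length ≤ n → L.countP (fun o => o.isNone) ≤ k → ‖Dl (L.map (dir e)) u q‖ ≤ C := by
  classical
  induction k with
  | zero =>
    intro n B hB
    refine ⟨B, hB, ?_⟩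
    intro O u q _ _ _ _ _ _ hsp _ L hL hc
    have hc0 : L.countP (fun o => o.isNone) = 0 := Nat.le_zero.1 hc
    rw [List.countP_eq_zero] at hc0
    have : L = (L.filterMap id).map some := by
      clear hL hc
      induction L with
      | nil => rfl
      | cons a L ih =>
        have ha := hc0 a (by simp)
        obtain ⟨i, rfl⟩ : ∃ i, a = some i := by
          cases a with
          | none => simp at ha
          | some i => exact ⟨i, rfl⟩
        have := ih fun b hb => hc0 b (List.mem_cons_of_mem _ hb)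
        simp only [List.filterMap_cons, id, List.map_cons]
        exact congrArg _ this
    rw [this, List.map_map]
    have hlen : (L.filterMap id).length ≤ n + 2 * 0 :=
      (List.length_filterMap_le _ _).trans (by omega)
    exact hsp _ hlen
  | succ k ih =>
    intro n B hB
    obtain ⟨C', hC', HI⟩ := ih (n + 1) B hB
    have hstep := fun (L₁ : List (Option κ)) (β : α) => tm_comp_bound e S hS 𝒦 hK hsub L₁ β C'
    choose Cf hCf0 hCf using hstep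
    obtain ⟨T, hT⟩ : ∃ T : Finset (List (Option κ)), ∀ L : List (Option κ), L.length ≤ n → L ∈ T :=
      ⟨(List.finite_length_le (Option κ) n).toFinset, fun L hL => by simpa using hL⟩
    refine ⟨max (max C' B) (∑ L ∈ T, ∑ β, Cf L β), le_max_of_le_left (le_max_of_le_left hC'), ?_⟩
    intro O u q hO hq hu hdom hsol hmem hsp hpas L hL hc
    have huq : ContDiffAt ℝ ∞ u q := hu.contDiffAt (hO.mem_nhds hq)
    have HI' := HI O u q hO hq hu hdom hsol hmem (fun L hL => hsp L (by omega))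
      (fun β hβ L hL => hpas β hβ L (by omega))
    by_cases hck : L.countP (fun o => o.isNone) ≤ k
    · exact (HI' L (by omega) hck).trans ((le_max_left _ _).trans (le_max_left _ _))
    have hpos : 0 < L.countP (fun o => o.isNone) := by omega
    obtain ⟨a, haL, ha⟩ := List.countP_pos_iff.1 hpos
    obtain rfl : a = none := by
      cases a with
      | none => rfl
      | some i => simp at ha
    have hperm := List.perm_cons_erase haL
    obtain ⟨L₁, hL₁⟩ : ∃ L₁, L₁ = L.erase none := ⟨_, rfl⟩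
    rw [← hL₁] at hperm
    have hlen : L₁.length + 1 = L.length := by
      have := hperm.length_eq
      simpa using this.symm
    have hcnt : L₁.countP (fun o => o.isNone) ≤ k := by
      have := hperm.countP_eq (fun o => o.isNone)
      simp only [List.countP_cons, Option.isNone_none, if_true] at this
      omega
    rw [Dl_perm huq (hperm.map (dir e))]
    rw [pi_norm_le_iff_of_nonneg (le_max_of_le_left (le_max_of_le_left hC'))]
    intro β
    by_cases hβ : S.act β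
    · have h1 := hCf L₁ β O u q hO hq hu hdom hsol hβ hmem (fun L'' hs => by
        have l1 := hs.length_le
        have c1 := (hs.countP_le (p := fun o : Option κ => o.isNone)).trans hcnt
        refine ⟨HI' L'' (by omega) c1, fun i => HI' (some i :: L'') (by simp; omega) (by simpa using c1),
          fun i j => HI' (some j :: some i :: L'') (by simp; omega) (by simpa using c1)⟩)
      refine h1.trans (le_trans ?_ (le_max_right _ _))
      have h2 : Cf L₁ β ≤ ∑ β, Cf L₁ β :=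
        Finset.single_le_sum (f := fun β => Cf L₁ β) (fun b _ => hCf0 L₁ b) (Finset.mem_univ β)
      have h3 : ∑ β, Cf L₁ β ≤ ∑ L ∈ T, ∑ β, Cf L β :=
        Finset.single_le_sum (f := fun L => ∑ β, Cf L β)
          (fun L _ => Finset.sum_nonneg fun b _ => hCf0 L b) (hT L₁ (by omega))
      exact h2.trans h3
    · exact (hpas β hβ (none :: L₁) (by simp; omega)).trans
        ((le_max_right _ _).trans (le_max_left _ _))

/-- **Main theorem of the quasilinear package.**  Values in a compact set of uniform parabolicity, a gradient bound and bounds for the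
jets of the passive components imply bounds for all space-time derivatives: (a) up to the initial time if the initial
values have bounded derivatives, (b) after the time `δ`. -/
theorem ql_main {α : Type} [Fintype α] (e : κ → E) (n : ℕ) (S : QSys κ α 𝕍) (𝒦 : Set (α → 𝕍))
    (lam Lam : ℝ) (hG : S.Good 𝒦 lam Lam) (ρ' ρ δ B₁ Bθ B₀ : ℝ) (hρ' : 0 < ρ') (hρ : ρ' < ρ)
    (hδ : 0 < δ) (h1 : 0 ≤ B₁) (hθ : 0 ≤ Bθ) (h0 : 0 ≤ B₀) :
    ∃ C : ℝ, 0 ≤ C ∧ ∀ (t₀ t₁ : ℝ) (x₀ : E) (O : Set (ℝ × E)) (u : ℝ × E → α → 𝕍),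
      t₀ ≤ t₁ → IsOpen O → cyl t₀ t₁ x₀ ρ ⊆ O → ContDiffOn ℝ ∞ u O → Set.MapsTo u O S.dom →
      S.Sol e u O → (∀ q ∈ cyl t₀ t₁ x₀ ρ, TH e S 𝒦 u B₁ Bθ (3 * n + 3) q) →
      ((∀ x ∈ Metric.closedBall x₀ ρ, ∀ L : List κ, L.length ≤ 3 * n + 1 →
          ‖Dl (L.map (sp e)) u (t₀, x)‖ ≤ B₀) →
        ∀ q ∈ cyl t₀ t₁ x₀ ρ', ∀ L : List (Option κ), L.length ≤ n →
          ‖Dl (L.map (dir e)) u q‖ ≤ C) ∧
      (∀ q ∈ cyl (t₀ + δ) t₁ x₀ ρ', ∀ L : List (Option κ), L.length ≤ n →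
        ‖Dl (L.map (dir e)) u q‖ ≤ C) := by
  obtain ⟨C₁, hC₁, H1⟩ := stage1 e (3 * n) α S 𝒦 lam Lam hG ρ' ρ δ B₁ Bθ B₀ hρ' hρ hδ h1 hθ h0
  obtain ⟨C, hC, H2⟩ := stage2 e S hG.reg 𝒦 hG.compact hG.sub n n (max C₁ Bθ)
    (le_max_of_le_left hC₁)
  refine ⟨C, hC, ?_⟩
  intro t₀ t₁ x₀ O u ht hO hsub hu hdom hsol hTH
  have H1' := H1 t₀ t₁ x₀ O u ht hO hsub hu hdom hsol hTH
  have fin : ∀ q ∈ cyl t₀ t₁ x₀ ρ,
      (∀ L : List κ, L.length ≤ 3 * n + 1 → ‖Dl (L.map (sp e)) u q‖ ≤ C₁) →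
      ∀ L : List (Option κ), L.length ≤ n → ‖Dl (L.map (dir e)) u q‖ ≤ C := by
    intro q hq hb L hL
    exact H2 O u q hO (hsub hq) hu hdom hsol (hTH q hq).mem
      (fun L hL => (hb L (by omega)).trans (le_max_left _ _))
      (fun β hβ L hL => ((hTH q hq).pas β hβ L (by omega)).trans (le_max_right _ _)) L hL
      ((List.countP_le_length).trans hL)
  refine ⟨fun hi q hq => fin q ?_ (H1'.1 hi q hq), fun q hq => fin q ?_ (H1'.2 q hq)⟩
  · exact ⟨hq.1, Metric.closedBall_subset_closedBall hρ.le hq.2⟩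
  · exact ⟨⟨by linarith [hq.1.1], hq.1.2⟩, Metric.closedBall_subset_closedBall hρ.le hq.2⟩

end Claimed.Agent.R316.B9
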