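import Claimed.Agent.R316.B9.Calabi
import Claimed.Agent.R316.B9.QLTower

/-!
# Row 316, package B9: the Chern-Ricci flow in a chart as a quasilinear system; the core regularity theorem

Directions `eCR : ι ⊕ ι → CE ι` (`inl p ↦ e_p`, `inr p ↦ i e_p`); components `Alp ι = (ι × ι) ⊕ (ι × ι × ι)`:
`inl (j,k) ↦ K_{jk}` (active), `inr (j,k,l) ↦ τ_{jkl}` (passive); values in `𝕍 = ℂ`.

**Q-form of the flow** (`cr_qform`, checked numerically):
  `∂_t K_{jk} = ∑ G_pq ∂_p ∂̄_q K_{jk} + ∑ G_pq ∂_p \bar τ_{kqj} + ∑ (∂̄_j G_pq) (∂_p K_{qk} + τ_{qpk}) + ∑ G_pq ∂̄_j τ_{qpk}`.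
PROOF.  `∂_t K_{jk} = ∂̄_j ∂_k log det K = ∂̄_j ∑ G_pq ∂_k K_{qp} = ∂̄_j ∑ G_pq (∂_p K_{qk} + τ_{qpk})`; Leibniz; `∂̄_j ∂_p K_{qk} = ∂_p ∂̄_j K_{qk}`,
`∂̄_j K_{qk} = ∂̄_q K_{jk} + \bar τ_{kqj}` (`K` Hermitian).

**Principal part** (`lap_real`): for Hermitian `G = g + i h` and `f` smooth,
  `∑ G_pq ∂_p ∂̄_q f = ¼ ∑ [g_pq (D_{x_p} D_{x_q} + D_{y_p} D_{y_q}) f - h_pq D_{x_p} D_{y_q} f + h_pq D_{y_p} D_{x_q} f]`
(the imaginary combination cancels by symmetry).  Quadratic form: `∑ a_ij ξ_i ξ_j = ¼ Re ∑ G_pq ζ_p \bar ζ_q`, `ζ = x - i y`.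

Leaves: **B9-CR-1** (`crSys_reg`, `crSys_good`), **B9-CR-2** (`cr_qform`, `lap_real`), **B9-CR-3** (`uCR_smooth`, `uCR_mapsTo`, `Dd_uCR_*`, `crSys_sol`),
**B9-CR-4** (`uCR_passive`, `uCR_grad`, `uCR_initial`, `dir_span`), **B9-CR-CORE** (`cr_core`).
-/

set_option autoImplicit false
set_option maxSynthPendingDepth 3
open scoped ContDiff ComplexOrder Topology Matrix

namespace Claimed.Agent.R316.B9

variable {ι : Type} [Fintype ι] [DecidableEq ι]

/-- component index. -/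
abbrev Alp (ι : Type) := (ι × ι) ⊕ (ι × ι × ι)

/-- the real directions of `ℂ^ι`. -/
noncomputable def eCR : ι ⊕ ι → CE ι
  | Sum.inl p => eb p
  | Sum.inr p => Complex.I • eb p

/-- the matrix part of a value. -/
def Kof (W : Alp ι → ℂ) : Matrix ι ι ℂ := fun j k => W (Sum.inl (j, k))

/-- the torsion part of a value. -/
def tof (W : Alp ι → ℂ) (j k l : ι) : ℂ := W (Sum.inr (j, k, l))

/-- Wirtinger combination of a gradient slot. -/
noncomputable def dzQ (Q : ι ⊕ ι → Alp ι → ℂ) (p : ι) (b : Alp ι) : ℂ :=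
  (1 / 2 : ℂ) * (Q (Sum.inl p) b - Complex.I * Q (Sum.inr p) b)

/-- Wirtinger combination of a gradient slot. -/
noncomputable def dzbQ (Q : ι ⊕ ι → Alp ι → ℂ) (p : ι) (b : Alp ι) : ℂ :=
  (1 / 2 : ℂ) * (Q (Sum.inl p) b + Complex.I * Q (Sum.inr p) b)

/-- the Chern-Ricci flow in a chart. -/
noncomputable def crSys (ι : Type) [Fintype ι] [DecidableEq ι] : QSys (ι ⊕ ι) (Alp ι) ℂ where
  dom := {W | (Kof W).det ≠ 0}
  act := fun b => b.isLeft = true
  a := fun i j W => match i, j with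
    | Sum.inl p, Sum.inl q => (1 / 4) * ((Kof W)⁻¹ p q).re
    | Sum.inr p, Sum.inr q => (1 / 4) * ((Kof W)⁻¹ p q).re
    | Sum.inl p, Sum.inr q => - (1 / 4) * ((Kof W)⁻¹ p q).im
    | Sum.inr p, Sum.inl q => (1 / 4) * ((Kof W)⁻¹ p q).im
  Φ := fun P b => match b with
    | Sum.inl (j, k) =>
        (∑ p, ∑ q, (Kof P.1)⁻¹ p q * star (dzbQ P.2 p (Sum.inr (k, q, j))))
        + (∑ p, ∑ q, (- ((Kof P.1)⁻¹ * (Matrix.of fun a b => dzbQ P.2 j (Sum.inl (a, b))) * (Kof P.1)⁻¹) p q)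
            * (dzQ P.2 p (Sum.inl (q, k)) + tof P.1 q p k))
        + (∑ p, ∑ q, (Kof P.1)⁻¹ p q * dzbQ P.2 j (Sum.inr (q, p, k)))
    | Sum.inr _ => 0

/-- the compact set of values. -/
def KCR (ι : Type) [Fintype ι] [DecidableEq ι] (Λ B : ℝ) : Set (Alp ι → ℂ) :=
  {W | Pin (Kof W) Λ ∧ ∀ j k l, ‖tof W j k l‖ ≤ B}

/-- the family `(K, τ)`. -/
def uCR (K : ℝ → CE ι → Matrix ι ι ℂ) (τ : CE ι → ι → ι → ι → ℂ) (q : ℝ × CE ι) : Alp ι → ℂ :=
  fun b => match b with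
    | Sum.inl (j, k) => K q.1 q.2 j k
    | Sum.inr (j, k, l) => τ q.2 j k l

/-! ### B9-CR-1 -/

theorem kof_contDiff (j k : ι) : ContDiff ℝ ∞ (fun W : Alp ι → ℂ => Kof W j k) :=
  contDiff_apply ℝ ℂ (Sum.inl (j, k) : Alp ι)

theorem crSys_reg : (crSys ι).Reg := by
  refine ⟨?_, ?_, ?_⟩
  · have hc : Continuous fun W : Alp ι → ℂ => (Kof W).det :=
      Continuous.matrix_det (continuous_matrix fun j k => continuous_apply _)
    exact isOpen_ne_fun hc continuous_const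
  · intro i j
    have hinv : ∀ p q, ContDiffOn ℝ ∞ (fun W : Alp ι → ℂ => (Kof W)⁻¹ p q) (crSys ι).dom :=
      fun p q => contDiffOn_matInv (fun j k => (kof_contDiff j k).contDiffOn) (fun w hw => hw) p q
    have hre : ∀ p q, ContDiffOn ℝ ∞ (fun W : Alp ι → ℂ => ((Kof W)⁻¹ p q).re) (crSys ι).dom :=
      fun p q => Complex.reCLM.contDiff.comp_contDiffOn (hinv p q)
    have him : ∀ p q, ContDiffOn ℝ ∞ (fun W : Alp ι → ℂ => ((Kof W)⁻¹ p q).im) (crSys ι).dom :=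
      fun p q => Complex.imCLM.contDiff.comp_contDiffOn (hinv p q)
    rcases i with p | p <;> rcases j with q | q
    · exact contDiffOn_const.mul (hre p q)
    · exact contDiffOn_const.mul (him p q)
    · exact contDiffOn_const.mul (him p q)
    · exact contDiffOn_const.mul (hre p q)
  · intro P hP
    have hP' : (Kof P.1).det ≠ 0 := hP.1
    refine ContDiffAt.contDiffWithinAt ?_
    have hKof : ∀ a b, ContDiffAt ℝ ∞
        (fun P : (Alp ι → ℂ) × (ι ⊕ ι → Alp ι → ℂ) => Kof P.1 a b) P := fun a b =>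
      ((kof_contDiff a b).comp contDiff_fst).contDiffAt
    have hG : ∀ a b, ContDiffAt ℝ ∞
        (fun P : (Alp ι → ℂ) × (ι ⊕ ι → Alp ι → ℂ) => (Kof P.1)⁻¹ a b) P :=
      contDiffAt_matInv hKof hP'
    have hQ : ∀ i b, ContDiffAt ℝ ∞
        (fun P : (Alp ι → ℂ) × (ι ⊕ ι → Alp ι → ℂ) => P.2 i b) P := fun i b =>
      ((contDiff_apply_apply ℝ ℂ i b).comp contDiff_snd).contDiffAt
    have hdz : ∀ p b, ContDiffAt ℝ ∞
        (fun P : (Alp ι → ℂ) × (ι ⊕ ι → Alp ι → ℂ) => dzQ P.2 p b) P := fun p b =>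
      contDiffAt_const.mul ((hQ _ b).sub (contDiffAt_const.mul (hQ _ b)))
    have hdzb : ∀ p b, ContDiffAt ℝ ∞
        (fun P : (Alp ι → ℂ) × (ι ⊕ ι → Alp ι → ℂ) => dzbQ P.2 p b) P := fun p b =>
      contDiffAt_const.mul ((hQ _ b).add (contDiffAt_const.mul (hQ _ b)))
    have hst : ∀ p b, ContDiffAt ℝ ∞
        (fun P : (Alp ι → ℂ) × (ι ⊕ ι → Alp ι → ℂ) => star (dzbQ P.2 p b)) P := fun p b =>
      Complex.conjCLE.contDiff.contDiffAt.comp P (hdzb p b)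
    have ht : ∀ a b c, ContDiffAt ℝ ∞
        (fun P : (Alp ι → ℂ) × (ι ⊕ ι → Alp ι → ℂ) => tof P.1 a b c) P := fun a b c =>
      ((contDiff_apply ℝ ℂ (Sum.inr (a, b, c) : Alp ι)).comp contDiff_fst).contDiffAt
    rw [contDiffAt_pi]
    rintro (⟨j, k⟩ | b)
    · have hX : ∀ p q, ContDiffAt ℝ ∞ (fun P : (Alp ι → ℂ) × (ι ⊕ ι → Alp ι → ℂ) =>
          ((Kof P.1)⁻¹ * (Matrix.of fun a b => dzbQ P.2 j (Sum.inl (a, b))) * (Kof P.1)⁻¹) p q) P :=
        contDiffAt_matMul (contDiffAt_matMul hG fun a b => hdzb j _) hG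
      exact ((ContDiffAt.sum fun p _ => ContDiffAt.sum fun q _ => (hG p q).mul (hst p _)).add
        (ContDiffAt.sum fun p _ => ContDiffAt.sum fun q _ =>
          ((hX p q).neg).mul ((hdz p _).add (ht q p k)))).add
        (ContDiffAt.sum fun p _ => ContDiffAt.sum fun q _ => (hG p q).mul (hdzb j _))
    · exact contDiffAt_const

/-- `ζ = x - i y`. -/
noncomputable def zetaCR (ξ : ι ⊕ ι → ℝ) (p : ι) : ℂ :=
  ((ξ (Sum.inl p) : ℝ) : ℂ) - Complex.I * ((ξ (Sum.inr p) : ℝ) : ℂ)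

omit [DecidableEq ι] in
theorem zeta_normSq (ξ : ι ⊕ ι → ℝ) : ∑ p, ‖zetaCR ξ p‖ ^ 2 = ∑ i, ξ i ^ 2 := by
  rw [Fintype.sum_sum_type, ← Finset.sum_add_distrib]
  refine Finset.sum_congr rfl fun p _ => ?_
  rw [← Complex.normSq_eq_norm_sq, Complex.normSq_apply]
  simp [zetaCR]
  ring

theorem cr_quad (W : Alp ι → ℂ) (ξ : ι ⊕ ι → ℝ) :
    ∑ i, ∑ j, (crSys ι).a i j W * (ξ i * ξ j)
      = (1 / 4) * (∑ p, ∑ q, (Kof W)⁻¹ p q * (zetaCR ξ p * star (zetaCR ξ q))).re := by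
  simp only [Fintype.sum_sum_type, Complex.re_sum, Finset.mul_sum]
  rw [← Finset.sum_add_distrib]
  refine Finset.sum_congr rfl fun p _ => ?_
  rw [← Finset.sum_add_distrib, ← Finset.sum_add_distrib, ← Finset.sum_add_distrib]
  refine Finset.sum_congr rfl fun q _ => ?_
  have e1 : (crSys ι).a (Sum.inl p) (Sum.inl q) W = (1 / 4) * ((Kof W)⁻¹ p q).re := rfl
  have e2 : (crSys ι).a (Sum.inl p) (Sum.inr q) W = - (1 / 4) * ((Kof W)⁻¹ p q).im := rfl
  have e3 : (crSys ι).a (Sum.inr p) (Sum.inl q) W = (1 / 4) * ((Kof W)⁻¹ p q).im := rfl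
  have e4 : (crSys ι).a (Sum.inr p) (Sum.inr q) W = (1 / 4) * ((Kof W)⁻¹ p q).re := rfl
  rw [e1, e2, e3, e4]
  simp [zetaCR]
  ring

theorem gcx_form_ge {G : Matrix ι ι ℂ} {Λ : ℝ} (h : Pin G Λ) (x : ι → ℂ) :
    Λ⁻¹ * ∑ p, ‖x p‖ ^ 2 ≤ (∑ p, ∑ q, G p q * (x p * star (x q))).re := by
  have h1 := hfm_nonneg h.lower x
  have e : hfm (G - cI Λ⁻¹) x x = hfm G x x - Λ⁻¹ * ∑ p, ‖x p‖ ^ 2 := by
    unfold hfm
    have : ∑ p, ∑ q, (G - (cI Λ⁻¹ : Matrix ι ι ℂ)) p q * (x p * star (x q))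
        = (∑ p, ∑ q, G p q * (x p * star (x q))) - ((Λ⁻¹ * ∑ p, ‖x p‖ ^ 2 : ℝ) : ℂ) := by
      simp only [Matrix.sub_apply, sub_mul, Finset.sum_sub_distrib]
      congr 1
      simp only [cI, Matrix.smul_apply, Matrix.one_apply, smul_eq_mul, mul_ite, mul_one, mul_zero,
        ite_mul, zero_mul, Finset.sum_ite_eq, Finset.mem_univ, if_true]
      push_cast
      rw [Finset.mul_sum]
      refine Finset.sum_congr rfl fun p _ => ?_
      rw [Complex.star_def, Complex.mul_conj, Complex.normSq_eq_norm_sq]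
      push_cast
      ring
    rw [this, Complex.sub_re, Complex.ofReal_re]
  rw [e] at h1
  have : hfm G x x = (∑ p, ∑ q, G p q * (x p * star (x q))).re := rfl
  linarith

theorem isClosed_posSemidef_comp {Y : Type} [TopologicalSpace Y] {F : Y → Matrix ι ι ℂ}
    (hF : ∀ j k, Continuous fun y => F y j k) : IsClosed {y | (F y).PosSemidef} := by
  have e : {y | (F y).PosSemidef}
      = {y | (F y)ᴴ = F y} ∩ ⋂ v : ι → ℂ, {y | 0 ≤ qf (F y) v} := by
    ext y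
    simp only [Set.mem_ofPred_eq, Set.mem_inter_iff, Set.mem_iInter]
    constructor
    · intro h
      exact ⟨h.isHermitian, (posSemidef_iff_qf h.isHermitian).1 h⟩
    · rintro ⟨h1, h2⟩
      exact (posSemidef_iff_qf h1).2 h2
  rw [e]
  have hc : Continuous F := continuous_matrix hF
  refine IsClosed.inter (isClosed_eq hc.matrix_conjTranspose hc) (isClosed_iInter fun v => ?_)
  refine isClosed_le continuous_const ?_
  simp only [qf_eq_sum]
  exact Complex.continuous_re.comp (continuous_finsetSum _ fun j _ => continuous_finsetSum _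
    fun k _ => (continuous_const.mul (hF j k)).mul continuous_const)

theorem kcr_compact (Λ B : ℝ) (hΛ : 0 < Λ) : IsCompact (KCR ι Λ B) := by
  have hk : ∀ j k, Continuous fun W : Alp ι → ℂ => Kof W j k := fun j k => continuous_apply _
  have e : KCR ι Λ B = (({W | (Kof W)ᴴ = Kof W} ∩ {W | (Kof W - cI Λ⁻¹).PosSemidef})
      ∩ {W | (cI Λ - Kof W).PosSemidef}) ∩ ⋂ j, ⋂ k, ⋂ l, {W | ‖tof W j k l‖ ≤ B} := by
    ext W
    simp only [KCR, Set.mem_ofPred_eq, Set.mem_inter_iff, Set.mem_iInter]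
    constructor
    · rintro ⟨h1, h2⟩
      exact ⟨⟨⟨h1.herm, h1.lower⟩, h1.upper⟩, h2⟩
    · rintro ⟨⟨⟨h1, h2⟩, h3⟩, h4⟩
      exact ⟨⟨h1, h2, h3⟩, h4⟩
  have hcl : IsClosed (KCR ι Λ B) := by
    rw [e]
    have hc : Continuous fun W : Alp ι → ℂ => Kof W := continuous_matrix hk
    refine (((isClosed_eq hc.matrix_conjTranspose hc).inter ?_).inter ?_).inter ?_
    · exact isClosed_posSemidef_comp fun j k => (hk j k).sub continuous_const
    · exact isClosed_posSemidef_comp fun j k => continuous_const.sub (hk j k)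
    · exact isClosed_iInter fun j => isClosed_iInter fun k => isClosed_iInter fun l =>
        isClosed_le (continuous_norm.comp (continuous_apply _)) continuous_const
  refine Metric.isCompact_of_isClosed_isBounded hcl ?_
  refine (Metric.isBounded_closedBall (x := (0 : Alp ι → ℂ)) (r := max Λ B)).subset ?_
  intro W hW
  rw [mem_closedBall_zero_iff, pi_norm_le_iff_of_nonneg (le_max_of_le_left hΛ.le)]
  rintro (⟨j, k⟩ | ⟨j, k, l⟩)
  · exact (hW.1.entry_le hΛ j k).trans (le_max_left _ _)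
  · exact (hW.2 j k l).trans (le_max_right _ _)

theorem crSys_good (Λ B : ℝ) (hΛ : 0 < Λ) : (crSys ι).Good (KCR ι Λ B) (Λ⁻¹ / 4) (Λ / 4) := by
  have hquadP : ∀ W ∈ KCR ι Λ B, Pin (Kof W)⁻¹ Λ := fun W hW => hW.1.inv hΛ
  refine ⟨crSys_reg, by positivity, by positivity, kcr_compact Λ B hΛ, ?_, ?_, ?_⟩
  · intro W hW
    exact det_ne_zero_of_posDef (hW.1.posDef hΛ)
  · intro W hW
    have hG := hquadP W hW
    refine ⟨?_, ?_, ?_⟩
    · intro i j
      have g1 : ∀ p q, ((Kof W)⁻¹ q p).re = ((Kof W)⁻¹ p q).re := fun p q => by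
        rw [← hG.herm.apply p q]; simp
      have g2 : ∀ p q, ((Kof W)⁻¹ q p).im = - ((Kof W)⁻¹ p q).im := fun p q => by
        rw [← hG.herm.apply p q]; simp
      rcases i with p | p <;> rcases j with q | q
      · show (1 / 4 : ℝ) * ((Kof W)⁻¹ p q).re = (1 / 4) * ((Kof W)⁻¹ q p).re
        rw [g1]
      · show - (1 / 4 : ℝ) * ((Kof W)⁻¹ p q).im = (1 / 4) * ((Kof W)⁻¹ q p).im
        rw [g2]; ring
      · show (1 / 4 : ℝ) * ((Kof W)⁻¹ p q).im = - (1 / 4) * ((Kof W)⁻¹ q p).im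
        rw [g2]; ring
      · show (1 / 4 : ℝ) * ((Kof W)⁻¹ p q).re = (1 / 4) * ((Kof W)⁻¹ q p).re
        rw [g1]
    · intro ξ
      rw [cr_quad]
      have := (gcx_form_le hΛ hG (zetaCR ξ)).1
      linarith
    · intro ξ
      rw [cr_quad, ← zeta_normSq]
      have := (gcx_form_le hΛ hG (zetaCR ξ)).2
      linarith
  · intro W hW ξ
    rw [cr_quad, ← zeta_normSq]
    have := gcx_form_ge (hquadP W hW) (zetaCR ξ)
    linarith

/-! ### B9-CR-2 -/

variable {O : Set (ℝ × CE ι)} {K : ℝ → CE ι → Matrix ι ι ℂ} {τ : CE ι → ι → ι → ι → ℂ}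
  {Λ : ℝ} {Bτ : ℕ → ℝ} {t : ℝ} {z : CE ι}

omit [DecidableEq ι] in
theorem qform_alg (G : Matrix ι ι ℂ) (P : ι → Matrix ι ι ℂ) (X : Matrix ι ι ℂ)
    (M : ι → ι → Matrix ι ι ℂ) (j k : ι) :
    (G * M j k).trace - (X * P k).trace =
      (∑ p, ∑ q, G p q * M q p j k) + (∑ p, ∑ q, G p q * (M j p q k - M q p j k))
      + (∑ p, ∑ q, (- X p q) * (P p q k + (P k q p - P p q k)))
      + ∑ p, ∑ q, G p q * (M j k q p - M j p q k) := by
  simp only [Matrix.trace, Matrix.diag, Matrix.mul_apply]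
  simp only [← Finset.sum_add_distrib, ← Finset.sum_sub_distrib]
  refine Finset.sum_congr rfl fun p _ => Finset.sum_congr rfl fun q _ => ?_
  ring

theorem cr_qform (h : CRC O K τ Λ Bτ) (hΛ : 0 < Λ) (hq : (t, z) ∈ O) (j k : ι) :
    deriv (fun r => K r z j k) t
      = (∑ p, ∑ q, (K t z)⁻¹ p q * dz p (fun w => dzb q (fun y => K t y j k) w) z)
        + (∑ p, ∑ q, (K t z)⁻¹ p q * dz p (fun y => star (τ y k q j)) z)
        + (∑ p, ∑ q, dzb j (fun y => (K t y)⁻¹ p q) z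
            * (dz p (fun y => K t y q k) z + τ z q p k))
        + (∑ p, ∑ q, (K t z)⁻¹ p q * dzb j (fun y => τ y q p k) z) := by
  have hS := h.toSPD hΛ
  have hK : ∀ j k, ContDiffAt ℝ ∞ (fun w => K t w j k) z := hS.slice_smooth hq
  have hK2 : ∀ j k, ContDiffAt ℝ 2 (fun w => K t w j k) z := fun j k =>
    (hK j k).of_le lv_two_le_infty
  have hK1 : ∀ j k, DifferentiableAt ℝ (fun w => K t w j k) z := fun j k =>
    (hK j k).differentiableAt (by simp)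
  have hP : (K t z).PosDef := hS.posDef _ hq
  have hH : ∀ᶠ w in 𝓝 z, (K t w).IsHermitian := by
    filter_upwards [h.eventually_mem hq] with w hw
    exact h.herm _ hw
  have hτ : ∀ᶠ w in 𝓝 z, ∀ j k l, τ w j k l = dzM l (K t) w j k - dzM k (K t) w j l := by
    filter_upwards [h.eventually_mem hq] with w hw j k l
    exact (h.tors _ hw j k l).symm
  have r1 : ∀ p q, dz p (fun w => dzb q (fun y => K t y j k) w) z
      = dzbM q (dzM p (K t)) z j k := fun p q => dz_dzb_comm (hK2 j k)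
  have r2 : ∀ p q, dz p (fun y => K t y q k) z = dzM p (K t) z q k := fun p q => rfl
  rw [h.flow _ hq j k]
  have := levi_logDet (j := j) (k := k) hK2 hH hP
  refine this.trans ?_
  simp only [r1, r2, dz_star_tau hK hH hτ, dzb_tau hK hτ,
    dzb_inv_apply hK1 (det_ne_zero_of_posDef hP)]
  simp only [hτ.self_of_nhds]
  exact qform_alg _ (fun l => dzM l (K t) z) _ (fun q p => dzbM q (dzM p (K t)) z) j k

omit [DecidableEq ι] in
theorem sum_antisymm {s : ι → ι → ℂ} (h : ∀ p q, s q p = - s p q) : ∑ p, ∑ q, s p q = 0 := by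
  have h1 : ∑ p, ∑ q, s p q = - ∑ p, ∑ q, s p q := by
    conv_lhs => rw [Finset.sum_comm]
    rw [← Finset.sum_neg_distrib]
    refine Finset.sum_congr rfl fun p _ => ?_
    rw [← Finset.sum_neg_distrib]
    exact Finset.sum_congr rfl fun q _ => h p q
  have h2 : (2 : ℂ) * ∑ p, ∑ q, s p q = 0 := by linear_combination h1
  simpa using h2

theorem lap_real {G : Matrix ι ι ℂ} (hG : G.IsHermitian) {f : CE ι → ℂ}
    (hf : ContDiffAt ℝ ∞ f z) :
    ∑ p, ∑ q, G p q * dz p (fun w => dzb q f w) z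
      = ∑ p, ∑ q,
        ((((1 / 4) * (G p q).re : ℝ) : ℂ) *
            (Dd (eb p) (Dd (eb q) f) z + Dd (Complex.I • eb p) (Dd (Complex.I • eb q) f) z)
          + (((1 / 4) * (G p q).im : ℝ) : ℂ) *
            (Dd (Complex.I • eb p) (Dd (eb q) f) z - Dd (eb p) (Dd (Complex.I • eb q) f) z)) := by
  have h2 : ContDiffAt ℝ 2 f z := hf.of_le lv_two_le_infty
  obtain ⟨T, hT⟩ : ∃ T, T = fderiv ℝ (fderiv ℝ f) z := ⟨_, rfl⟩
  have hd : DifferentiableAt ℝ (fderiv ℝ f) z :=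
    (h2.fderiv_right (m := 1) (by norm_num)).differentiableAt (by norm_num)
  have hD : ∀ u v, Dd u (Dd v f) z = T u v := by
    intro u v
    have h1 : HasFDerivAt (fun w => fderiv ℝ f w v)
        ((ContinuousLinearMap.apply ℝ ℂ v).comp (fderiv ℝ (fderiv ℝ f) z)) z :=
      (ContinuousLinearMap.apply ℝ ℂ v).hasFDerivAt.comp z hd.hasFDerivAt
    have : Dd u (Dd v f) z = fderiv ℝ (fun w => fderiv ℝ f w v) z u := rfl
    rw [this, h1.fderiv, hT]
    rfl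
  have hsym : ∀ u v, T u v = T v u := fun u v => by rw [hT]; exact sndFDeriv_symm h2 u v
  have hL : ∀ p q, dz p (fun w => dzb q f w) z = (1 / 4 : ℂ) * (T (eb p) (eb q)
      + T (Complex.I • eb p) (Complex.I • eb q)
      + Complex.I * (T (eb p) (Complex.I • eb q) - T (Complex.I • eb p) (eb q))) := by
    intro p q
    rw [dz_def p, show (fun w => dzb q f w) = dzb q f from rfl, fderiv_dzb_apply h2,
      fderiv_dzb_apply h2, ← hT]
    linear_combination (-(1 / 4 : ℂ)) * T (Complex.I • eb p) (Complex.I • eb q) * Complex.I_sq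
  rw [← sub_eq_zero, ← Finset.sum_sub_distrib]
  simp only [← Finset.sum_sub_distrib, hD, hL]
  apply sum_antisymm
  intro p q
  have g1 : (G q p).re = (G p q).re := by rw [← hG.apply p q]; simp
  have g2 : (G q p).im = - (G p q).im := by rw [← hG.apply p q]; simp
  rw [g1, g2, hsym (eb q) (eb p), hsym (Complex.I • eb q) (Complex.I • eb p),
    hsym (eb q) (Complex.I • eb p), hsym (Complex.I • eb q) (eb p)]
  have e1 : G p q = (((G p q).re : ℝ) : ℂ) + (((G p q).im : ℝ) : ℂ) * Complex.I :=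
    (Complex.re_add_im _).symm
  have e2 : G q p = (((G p q).re : ℝ) : ℂ) - (((G p q).im : ℝ) : ℂ) * Complex.I := by
    rw [← Complex.re_add_im (G q p), g1, g2]; push_cast; ring
  rw [e2]
  conv_rhs => rw [e1]
  simp only [Complex.add_re, Complex.add_im, Complex.ofReal_re, Complex.ofReal_im, Complex.mul_re,
    Complex.mul_im, Complex.I_re, Complex.I_im, mul_zero, mul_one, sub_zero, add_zero, zero_add]
  push_cast
  linear_combination ((1 / 2 : ℂ)) * (((G p q).im : ℝ) : ℂ)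
    * (T (eb p) (Complex.I • eb q) - T (Complex.I • eb p) (eb q)) * Complex.I_sq

/-! ### B9-CR-3 -/

theorem uCR_smooth (h : CRC O K τ Λ Bτ) : ContDiffOn ℝ ∞ (uCR K τ) O := by
  rw [contDiffOn_pi]
  rintro (⟨j, k⟩ | ⟨j, k, l⟩)
  · exact h.smooth j k
  · intro q hq
    have : ContDiffAt ℝ ∞ (fun q : ℝ × CE ι => τ q.2 j k l) q :=
      (h.tau_smooth (t := q.1) (z := q.2) hq j k l).comp q contDiffAt_snd
    exact this.contDiffWithinAt

theorem uCR_mapsTo (h : CRC O K τ Λ Bτ) (hΛ : 0 < Λ) : Set.MapsTo (uCR K τ) O (crSys ι).dom := by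
  intro q hq
  exact det_ne_zero_of_posDef ((h.toSPD hΛ).posDef q hq)

theorem uCR_mem (h : CRC O K τ Λ Bτ) {q : ℝ × CE ι} (hq : q ∈ O) : uCR K τ q ∈ KCR ι Λ (Bτ 0) := by
  refine ⟨⟨h.herm q hq, h.lower q hq, h.upper q hq⟩, fun j k l => ?_⟩
  have := h.tbd q hq 0 j k l
  rwa [norm_iteratedFDeriv_zero] at this

theorem crSys_sol (h : CRC O K τ Λ Bτ) (hΛ : 0 < Λ) : (crSys ι).Sol eCR (uCR K τ) O := by
  rintro ⟨t, z⟩ hq β hβ
  rcases β with ⟨j, k⟩ | b
  swap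
  · exact absurd hβ (by simp [crSys])
  have hS := h.toSPD hΛ
  have hu : ContDiffAt ℝ ∞ (uCR K τ) (t, z) := (uCR_smooth h).contDiffAt (h.isOpen.mem_nhds hq)
  have hu1 : DifferentiableAt ℝ (uCR K τ) (t, z) := hu.differentiableAt (by simp)
  have huc : ∀ b, ContDiffAt ℝ ∞ (fun x => uCR K τ x b) (t, z) := fun b => contDiffAt_pi.1 hu b
  have hK1 : ∀ j k, DifferentiableAt ℝ (fun w => K t w j k) z := fun j k =>
    (hS.slice_smooth hq j k).differentiableAt (by simp)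
  have hP : (K t z).PosDef := hS.posDef _ hq
  have c0 : Dd tm (uCR K τ) (t, z) (Sum.inl (j, k)) = deriv (fun r => K r z j k) t := by
    rw [Dd_apply hu1]
    exact Dd_tm_eq_deriv ((huc (Sum.inl (j, k))).differentiableAt (by simp))
  have c1 : ∀ i b, Dd (sp eCR i) (uCR K τ) (t, z) b
      = Dd (eCR i) (fun y => uCR K τ (t, y) b) z := by
    intro i b
    rw [Dd_apply hu1]
    exact Dd_slice ((huc b).differentiableAt (by simp)) (eCR i)
  have c2 : ∀ i i', Dd (sp eCR i) (Dd (sp eCR i') (uCR K τ)) (t, z) (Sum.inl (j, k))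
      = Dd (eCR i) (Dd (eCR i') (fun y => K t y j k)) z := by
    intro i i'
    have a1 := Dl_apply hu [sp eCR i', sp eCR i] (Sum.inl (j, k))
    have a2 := Dl_slice (huc (Sum.inl (j, k))) [eCR i', eCR i]
    exact a1.trans a2
  have hQ : (fun i => Dd (sp eCR i) (uCR K τ) (t, z))
      = fun i b => Dd (eCR i) (fun y => uCR K τ (t, y) b) z := by
    funext i b
    exact c1 i b
  have dQb : ∀ p b, dzbQ (fun i => Dd (sp eCR i) (uCR K τ) (t, z)) p b
      = dzb p (fun y => uCR K τ (t, y) b) z := by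
    intro p b
    rw [hQ]
    rfl
  have dQ : ∀ p b, dzQ (fun i => Dd (sp eCR i) (uCR K τ) (t, z)) p b
      = dz p (fun y => uCR K τ (t, y) b) z := by
    intro p b
    rw [hQ]
    rfl
  have hΦ : (crSys ι).Φ (uCR K τ (t, z), fun i => Dd (sp eCR i) (uCR K τ) (t, z)) (Sum.inl (j, k))
      = (∑ p, ∑ q, (K t z)⁻¹ p q * dz p (fun y => star (τ y k q j)) z)
        + (∑ p, ∑ q, dzb j (fun y => (K t y)⁻¹ p q) z
            * (dz p (fun y => K t y q k) z + τ z q p k))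
        + (∑ p, ∑ q, (K t z)⁻¹ p q * dzb j (fun y => τ y q p k) z) := by
    have e0 : (crSys ι).Φ (uCR K τ (t, z), fun i => Dd (sp eCR i) (uCR K τ) (t, z))
        (Sum.inl (j, k))
        = (∑ p, ∑ q, (K t z)⁻¹ p q
            * star (dzbQ (fun i => Dd (sp eCR i) (uCR K τ) (t, z)) p (Sum.inr (k, q, j))))
        + (∑ p, ∑ q, (- ((K t z)⁻¹ * (Matrix.of fun a b =>
              dzbQ (fun i => Dd (sp eCR i) (uCR K τ) (t, z)) j (Sum.inl (a, b))) * (K t z)⁻¹) p q)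
            * (dzQ (fun i => Dd (sp eCR i) (uCR K τ) (t, z)) p (Sum.inl (q, k)) + τ z q p k))
        + (∑ p, ∑ q, (K t z)⁻¹ p q
            * dzbQ (fun i => Dd (sp eCR i) (uCR K τ) (t, z)) j (Sum.inr (q, p, k))) := rfl
    rw [e0]
    simp only [dQb, dQ]
    have e1 : ∀ p q, star (dzb p (fun y => uCR K τ (t, y) (Sum.inr (k, q, j))) z)
        = dz p (fun y => star (τ y k q j)) z := fun p q => dz_conj.symm
    have e2 : (Matrix.of fun a b => dzb j (fun y => uCR K τ (t, y) (Sum.inl (a, b))) z)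
        = dzbM j (K t) z := rfl
    have e3 : ∀ p q, - ((K t z)⁻¹ * dzbM j (K t) z * (K t z)⁻¹) p q
        = dzb j (fun y => (K t y)⁻¹ p q) z := fun p q =>
      (dzb_inv_apply hK1 (det_ne_zero_of_posDef hP) p q).symm
    simp only [e1, e2, e3]
    rfl
  rw [c0, hΦ, cr_qform h hΛ hq j k,
    lap_real ((h.pin hq).inv hΛ).herm (hS.slice_smooth hq j k)]
  simp only [c2, add_assoc]
  congr 1
  simp only [Fintype.sum_sum_type]
  rw [← Finset.sum_add_distrib]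
  refine Finset.sum_congr rfl fun p _ => ?_
  rw [← Finset.sum_add_distrib, ← Finset.sum_add_distrib, ← Finset.sum_add_distrib]
  refine Finset.sum_congr rfl fun q _ => ?_
  have a1 : (crSys ι).a (Sum.inl p) (Sum.inl q) (uCR K τ (t, z))
      = (1 / 4) * ((K t z)⁻¹ p q).re := rfl
  have a2 : (crSys ι).a (Sum.inl p) (Sum.inr q) (uCR K τ (t, z))
      = - (1 / 4) * ((K t z)⁻¹ p q).im := rfl
  have a3 : (crSys ι).a (Sum.inr p) (Sum.inl q) (uCR K τ (t, z))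
      = (1 / 4) * ((K t z)⁻¹ p q).im := rfl
  have a4 : (crSys ι).a (Sum.inr p) (Sum.inr q) (uCR K τ (t, z))
      = (1 / 4) * ((K t z)⁻¹ p q).re := rfl
  rw [a1, a2, a3, a4]
  simp only [Complex.real_smul, eCR]
  push_cast
  ring

/-! ### B9-CR-4 -/

section GenSnd

variable {E F : Type} [NormedAddCommGroup E] [NormedSpace ℝ E] [NormedAddCommGroup F]
  [NormedSpace ℝ F]

theorem Dl_comp_snd {t : ℝ} {x : E} (L : List (ℝ × E)) :
    ∀ {g : E → F}, ContDiffAt ℝ ∞ g x →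
      Dl L (fun q : ℝ × E => g q.2) (t, x) = Dl (L.map Prod.snd) g x := by
  induction L with
  | nil => intro g _; rfl
  | cons v L ih =>
    intro g hg
    have he : Dd v (fun q : ℝ × E => g q.2) =ᶠ[𝓝 (t, x)] fun q => Dd v.2 g q.2 := by
      have hd : ∀ᶠ y in 𝓝 x, DifferentiableAt ℝ g y :=
        ev_diff_nat (n := 0) (contDiffAt_nat_of_top hg 1)
      have hd' : ∀ᶠ q in 𝓝 (t, x), DifferentiableAt ℝ g q.2 :=
        (continuous_snd.tendsto (t, x)).eventually hd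
      filter_upwards [hd'] with q hq
      have := (hq.hasFDerivAt.comp q hasFDerivAt_snd).fderiv
      have e : Dd v (fun q : ℝ × E => g q.2) q = fderiv ℝ (g ∘ Prod.snd) q v := rfl
      rw [e, this]
      rfl
    show Dl L (Dd v (fun q : ℝ × E => g q.2)) (t, x) = Dl (L.map Prod.snd) (Dd v.2 g) x
    rw [Dl_congr_at he L]
    exact ih (contDiffAt_Dd hg v.2)

theorem prod_norm_le_one (L : List E) (h : ∀ v ∈ L, ‖v‖ ≤ 1) :
    (L.map (fun v => ‖v‖)).prod ≤ 1 := by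
  induction L with
  | nil => simp
  | cons v L ih =>
    simp only [List.map_cons, List.prod_cons]
    have h1 := h v (by simp)
    have h2 := ih (fun w hw => h w (by simp [hw]))
    have h3 : 0 ≤ (L.map (fun v => ‖v‖)).prod := by
      apply List.prod_nonneg
      intro a ha
      simp only [List.mem_map] at ha
      obtain ⟨w, -, rfl⟩ := ha
      exact norm_nonneg _
    nlinarith [norm_nonneg v]

end GenSnd

theorem norm_eCR (i : ι ⊕ ι) : ‖eCR i‖ = 1 := by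
  rcases i with p | p
  · exact b9_norm_eb p
  · show ‖Complex.I • eb p‖ = 1
    rw [norm_smul, b9_norm_eb, Complex.norm_I, mul_one]

theorem norm_dir_snd_le (o : Option (ι ⊕ ι)) : ‖(dir eCR o).2‖ ≤ 1 := by
  rcases o with _ | i
  · show ‖(0 : CE ι)‖ ≤ 1
    simp
  · exact (norm_eCR i).le

/-- jets of the passive components. -/
theorem uCR_passive (h : CRC O K τ Λ Bτ) {q : ℝ × CE ι} (hq : q ∈ O) (L : List (Option (ι ⊕ ι)))
    (j k l : ι) : ‖Dl (L.map (dir eCR)) (uCR K τ) q (Sum.inr (j, k, l))‖ ≤ Bτ L.length := by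
  obtain ⟨t, z⟩ := q
  have hu : ContDiffAt ℝ ∞ (uCR K τ) (t, z) := (uCR_smooth h).contDiffAt (h.isOpen.mem_nhds hq)
  rw [Dl_apply hu]
  have hg := h.tau_smooth hq j k l
  have e : (fun x => uCR K τ x (Sum.inr (j, k, l)))
      = fun q : ℝ × CE ι => (fun y => τ y j k l) q.2 := rfl
  rw [e, Dl_comp_snd _ hg]
  refine (norm_Dl_le hg _).trans ?_
  rw [List.length_map, List.length_map]
  have hb := h.tbd _ hq L.length j k l
  refine le_trans (mul_le_mul_of_nonneg_left (prod_norm_le_one _ ?_) (norm_nonneg _)) ?_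
  · intro v hv
    simp only [List.mem_map] at hv
    obtain ⟨w, ⟨o, -, rfl⟩, rfl⟩ := hv
    exact norm_dir_snd_le o
  · rw [mul_one]
    exact hb

/-- the gradient in terms of Calabi's quantity. -/
theorem uCR_grad (ι : Type) [Fintype ι] [DecidableEq ι] (Λ S₁ : ℝ) (hΛ : 0 < Λ) (hS : 0 ≤ S₁)
    (Bτ : ℕ → ℝ) :
    ∃ B₁ : ℝ, 0 ≤ B₁ ∧ ∀ (O : Set (ℝ × CE ι)) (K : ℝ → CE ι → Matrix ι ι ℂ)
      (τ : CE ι → ι → ι → ι → ℂ) (q : ℝ × CE ι), CRC O K τ Λ Bτ → q ∈ O →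
      Scal (K q.1) q.2 ≤ S₁ → ∀ i, ‖Dd (sp eCR i) (uCR K τ) q‖ ≤ B₁ := by
  obtain ⟨C, hC, H⟩ := deriv_le_of_scal ι Λ S₁ hΛ hS
  refine ⟨max C |Bτ 1|, le_max_of_le_left hC, ?_⟩
  rintro O K τ ⟨t, z⟩ h hq hS' i
  have hSP := h.toSPD hΛ
  have hu : ContDiffAt ℝ ∞ (uCR K τ) (t, z) := (uCR_smooth h).contDiffAt (h.isOpen.mem_nhds hq)
  have hu1 : DifferentiableAt ℝ (uCR K τ) (t, z) := hu.differentiableAt (by simp)
  have huc : ∀ b, ContDiffAt ℝ ∞ (fun x => uCR K τ x b) (t, z) := fun b => contDiffAt_pi.1 hu b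
  rw [pi_norm_le_iff_of_nonneg (le_max_of_le_left hC)]
  rintro (⟨j, k⟩ | ⟨j, k, l⟩)
  · have c1 : Dd (sp eCR i) (uCR K τ) (t, z) (Sum.inl (j, k))
        = fderiv ℝ (fun y => K t y j k) z (eCR i) := by
      rw [Dd_apply hu1]
      exact Dd_slice ((huc (Sum.inl (j, k))).differentiableAt (by simp)) (eCR i)
    rw [c1]
    have hH : ∀ᶠ w in 𝓝 z, (K t w).IsHermitian := by
      filter_upwards [h.eventually_mem hq] with w hw
      exact h.herm _ hw
    have hb := H (K t) z (fun j k => (hSP.slice_smooth hq j k).differentiableAt (by simp)) hH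
      (h.pin hq) hS' j k
    rcases i with l | l
    · exact ((hb l).1).trans (le_max_left _ _)
    · exact ((hb l).2).trans (le_max_left _ _)
  · have := uCR_passive h hq [some i] j k l
    exact (this.trans (le_abs_self _)).trans (le_max_right _ _)

/-- spatial lists at a fixed time in terms of the derivatives of the time slice. -/
theorem uCR_initial (h : CRC O K τ Λ Bτ) {q : ℝ × CE ι} (hq : q ∈ O) (L : List (ι ⊕ ι)) (B₀ : ℝ)
    (hB₀ : 0 ≤ B₀) (h0 : ∀ j k, ‖iteratedFDeriv ℝ L.length (fun y => K q.1 y j k) q.2‖ ≤ B₀) :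
    ‖Dl (L.map (sp eCR)) (uCR K τ) q‖ ≤ max B₀ (Bτ L.length) := by
  obtain ⟨t, z⟩ := q
  have hu : ContDiffAt ℝ ∞ (uCR K τ) (t, z) := (uCR_smooth h).contDiffAt (h.isOpen.mem_nhds hq)
  have huc : ∀ b, ContDiffAt ℝ ∞ (fun x => uCR K τ x b) (t, z) := fun b => contDiffAt_pi.1 hu b
  rw [pi_norm_le_iff_of_nonneg (le_max_of_le_left hB₀)]
  rintro (⟨j, k⟩ | ⟨j, k, l⟩)
  · rw [Dl_apply hu]
    have e : L.map (sp eCR) = (L.map eCR).map (fun v => ((0 : ℝ), v)) := by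
      rw [List.map_map]; rfl
    rw [e, Dl_slice (huc _)]
    have hs : ContDiffAt ℝ ∞ (fun y => K t y j k) z :=
      slice_contDiffAt h.isOpen (f := fun r y => K r y j k) (h.smooth j k) hq
    refine le_trans ((norm_Dl_le hs _).trans ?_) (le_max_left _ _)
    rw [List.length_map]
    refine le_trans (mul_le_mul_of_nonneg_left (prod_norm_le_one _ ?_) (norm_nonneg _)) ?_
    · intro v hv
      simp only [List.mem_map] at hv
      obtain ⟨i, -, rfl⟩ := hv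
      exact (norm_eCR i).le
    · rw [mul_one]
      exact h0 j k
  · have := uCR_passive h hq (L.map some) j k l
    rw [List.map_map, List.length_map] at this
    exact this.trans (le_max_right _ _)

theorem dir_span : Submodule.span ℝ (Set.range (dir (eCR (ι := ι)))) = ⊤ := by
  rw [eq_top_iff]
  rintro ⟨s, v⟩ -
  have hv : v = ∑ p, ((v p).re • eb p + (v p).im • (Complex.I • eb p)) := by
    conv_lhs => rw [CE_eq_sum_complex v]
    refine Finset.sum_congr rfl fun p _ => ?_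
    conv_lhs => rw [← Complex.re_add_im (v p)]
    rw [add_smul, mul_smul, Complex.coe_smul, Complex.coe_smul]
  have e : ((s, v) : ℝ × CE ι) = s • dir eCR none
      + ∑ p, ((v p).re • dir eCR (some (Sum.inl p)) + (v p).im • dir eCR (some (Sum.inr p))) := by
    apply Prod.ext
    · simp [dir, tm, sp, Prod.fst_sum]
    · simp only [dir, tm, sp, eCR, Prod.snd_add, Prod.snd_sum, Prod.smul_snd, smul_zero, zero_add]
      exact hv
  rw [e]
  exact Submodule.add_mem _ (Submodule.smul_mem _ _ (Submodule.subset_span ⟨_, rfl⟩))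
    (Submodule.sum_mem _ fun p _ => Submodule.add_mem _
      (Submodule.smul_mem _ _ (Submodule.subset_span ⟨_, rfl⟩))
      (Submodule.smul_mem _ _ (Submodule.subset_span ⟨_, rfl⟩)))

/-! ### B9-CR-CORE -/

/-- **Core regularity theorem** on open sets of space-time: derivatives of order `n`.
`calabi_local` on `ρ → (ρ + ρ')/2` (for (b): with `δ/2`), `uCR_grad`, `ql_main` on `(ρ + ρ')/2 → ρ'`, `norm_iteratedFDeriv_le_of_Dl`. -/
theorem cr_core (ι : Type) [Fintype ι] [DecidableEq ι] (n : ℕ) (ρ' ρ δ Λ B₀ : ℝ) (Bτ : ℕ → ℝ)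
    (hρ' : 0 < ρ') (hρ : ρ' < ρ) (hδ : 0 < δ) (hΛ : 0 < Λ) (h0 : 0 ≤ B₀) :
    ∃ C : ℝ, 0 ≤ C ∧ ∀ (t₀ t₁ : ℝ) (z₀ : CE ι) (O : Set (ℝ × CE ι))
      (K : ℝ → CE ι → Matrix ι ι ℂ) (τ : CE ι → ι → ι → ι → ℂ), t₀ ≤ t₁ → CRC O K τ Λ Bτ →
      cyl t₀ t₁ z₀ ρ ⊆ O →
      ((∀ z ∈ Metric.closedBall z₀ ρ, ∀ m ≤ 3 * n + 1, ∀ j k,
          ‖iteratedFDeriv ℝ m (fun y => K t₀ y j k) z‖ ≤ B₀) →
        ∀ q ∈ cyl t₀ t₁ z₀ ρ', ∀ j k,
          ‖iteratedFDeriv ℝ n (fun q' : ℝ × CE ι => K q'.1 q'.2 j k) q‖ ≤ C) ∧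
      (∀ q ∈ cyl (t₀ + δ) t₁ z₀ ρ', ∀ j k,
        ‖iteratedFDeriv ℝ n (fun q' : ℝ × CE ι => K q'.1 q'.2 j k) q‖ ≤ C) := by
  obtain ⟨S₀, hS₀, HS0⟩ := scal_le_of_deriv ι Λ B₀ hΛ h0
  have hρ₁ : ρ' < (ρ + ρ') / 2 := by linarith
  have hρ₂ : (ρ + ρ') / 2 < ρ := by linarith
  have hρ₁0 : 0 < (ρ + ρ') / 2 := by linarith
  obtain ⟨CS, hCS, HC⟩ := calabi_local ι ((ρ + ρ') / 2) ρ (δ / 2) Λ S₀ Bτ hρ₁0 hρ₂ (by positivity)
    hΛ hS₀
  obtain ⟨B₁, hB₁, HG⟩ := uCR_grad ι Λ CS hΛ hCS Bτ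
  obtain ⟨Bθ, hBθ⟩ : ∃ Bθ, Bθ = ∑ m ∈ Finset.range (3 * n + 4), |Bτ m| := ⟨_, rfl⟩
  have hBθ0 : 0 ≤ Bθ := by
    rw [hBθ]; exact Finset.sum_nonneg fun _ _ => abs_nonneg _
  have hBθm : ∀ m ≤ 3 * n + 3, Bτ m ≤ Bθ := by
    intro m hm
    rw [hBθ]
    exact (le_abs_self _).trans (Finset.single_le_sum (f := fun m => |Bτ m|)
      (fun _ _ => abs_nonneg _) (Finset.mem_range.2 (by omega)))
  obtain ⟨CQ, hCQ, HQ⟩ := ql_main (eCR (ι := ι)) n (crSys ι) (KCR ι Λ (Bτ 0)) (Λ⁻¹ / 4) (Λ / 4)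
    (crSys_good Λ (Bτ 0) hΛ) ρ' ((ρ + ρ') / 2) (δ / 2) B₁ Bθ (max B₀ Bθ) hρ' hρ₁ (by positivity)
    hB₁ hBθ0 (le_max_of_le_left h0)
  obtain ⟨CI, hCI, HI⟩ := norm_iteratedFDeriv_le_of_Dl (F := ℂ) (dir (eCR (ι := ι))) dir_span n
  refine ⟨CI * CQ, by positivity, ?_⟩
  intro t₀ t₁ z₀ O K τ ht h hsub
  have hsm := uCR_smooth h
  have conv : ∀ q ∈ O, (∀ L : List (Option (ι ⊕ ι)), L.length ≤ n →
      ‖Dl (L.map (dir eCR)) (uCR K τ) q‖ ≤ CQ) → ∀ j k,
      ‖iteratedFDeriv ℝ n (fun q' : ℝ × CE ι => K q'.1 q'.2 j k) q‖ ≤ CI * CQ := by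
    intro q hq hb j k
    have hu : ContDiffAt ℝ ∞ (uCR K τ) q := hsm.contDiffAt (h.isOpen.mem_nhds hq)
    refine HI _ q CQ (contDiffAt_pi.1 hu (Sum.inl (j, k))) fun L hL => ?_
    have e : Dl (L.map (dir eCR)) (fun q' : ℝ × CE ι => K q'.1 q'.2 j k) q
        = Dl (L.map (dir eCR)) (uCR K τ) q (Sum.inl (j, k)) :=
      (Dl_apply hu (L.map (dir eCR)) (Sum.inl (j, k))).symm
    rw [e]
    exact (norm_le_pi_norm _ _).trans (hb L hL.le)
  have th : ∀ q ∈ O, Scal (K q.1) q.2 ≤ CS →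
      TH eCR (crSys ι) (KCR ι Λ (Bτ 0)) (uCR K τ) B₁ Bθ (3 * n + 3) q := by
    intro q hq hs
    refine ⟨uCR_mem h hq, HG O K τ q h hq hs, ?_⟩
    rintro (⟨j, k⟩ | ⟨j, k, l⟩) hβ L hL
    · exact absurd rfl hβ
    · exact (uCR_passive h hq L j k l).trans (hBθm _ hL)
  have hsub₁ : ∀ a, cyl a t₁ z₀ ((ρ + ρ') / 2) ⊆ cyl a t₁ z₀ ρ := fun a =>
    Set.prod_mono le_rfl (Metric.closedBall_subset_closedBall hρ₂.le)
  have HC' := HC t₀ t₁ z₀ O K τ ht h hsub
  constructor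
  · intro hi q hq j k
    have hq' : q ∈ O := hsub ⟨hq.1, Metric.closedBall_subset_closedBall hρ.le hq.2⟩
    have hsc := HC'.1 (fun z hz => HS0 (K t₀) z (h.pin (hsub ⟨⟨le_rfl, ht⟩, hz⟩)) fun j k => by
      have := hi z hz 1 (by omega) j k
      rwa [norm_iteratedFDeriv_one] at this)
    have HQ' := HQ t₀ t₁ z₀ O (uCR K τ) ht h.isOpen ((hsub₁ t₀).trans hsub) hsm (uCR_mapsTo h hΛ)
      (crSys_sol h hΛ) (fun q hq => th q (hsub (hsub₁ t₀ hq)) (hsc q.1 hq.1 q.2 hq.2))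
    refine conv q hq' (HQ'.1 (fun x hx L hL => ?_) q hq) j k
    have hx₂ : x ∈ Metric.closedBall z₀ ρ := Metric.closedBall_subset_closedBall hρ₂.le hx
    have hx' : (t₀, x) ∈ O := hsub ⟨⟨le_rfl, ht⟩, hx₂⟩
    refine (uCR_initial h hx' L B₀ h0 fun j k => hi x hx₂ L.length hL j k).trans ?_
    exact max_le_max le_rfl (hBθm _ (by omega))
  · intro q hq j k
    have ht' : t₀ + δ / 2 ≤ t₁ := by
      have h1 := hq.1.1
      have h2 := hq.1.2
      linarith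
    have hq' : q ∈ O := hsub ⟨⟨by linarith [hq.1.1], hq.1.2⟩,
      Metric.closedBall_subset_closedBall hρ.le hq.2⟩
    have hsub₂ : cyl (t₀ + δ / 2) t₁ z₀ ρ ⊆ cyl t₀ t₁ z₀ ρ :=
      Set.prod_mono (Set.Icc_subset_Icc (by linarith) le_rfl) le_rfl
    have HQ' := HQ (t₀ + δ / 2) t₁ z₀ O (uCR K τ) ht' h.isOpen
      (((hsub₁ _).trans hsub₂).trans hsub) hsm (uCR_mapsTo h hΛ)
      (crSys_sol h hΛ) (fun q hq => th q (hsub (hsub₂ (hsub₁ _ hq))) (HC'.2 q.1 hq.1 q.2 hq.2))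
    refine conv q hq' (HQ'.2 q ?_) j k
    refine ⟨⟨?_, hq.1.2⟩, hq.2⟩
    have := hq.1.1
    linarith

end Claimed.Agent.R316.B9
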