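import Claimed.Agent.R316.Pack006

/-!
# Row 316, package B9: the Bochner formula on `𝔼 = T^* ⊗ End T`  (leaf B9-CAL-BOCH)

`K : CE ι → Matrix ι ι ℂ` smooth, positive definite near `z`; `G = K⁻¹`, `A_p = Acn K p = G ∂_p K`.
Tools: `CW/MatFun.lean` (`dzM_mul`, `dzbM_mul`, `dzM_inv`, `dzbM_inv`, `dz_matTrace`, `dzM_conjTranspose`,
`conjTranspose_dzM_of_isHermitian`, `dzM_dzbM_comm`, `dzM_smul`), `CW/Basic.lean` (`dz_mul`, `dz_sum`), `Matrix.trace_mul_cycle`.

Basic facts: `∂_p K = K A_p`, `∂_p G = - A_p G`, `∂̄_q K = A_qᴴ K`, `∂̄_q G = - G A_qᴴ`,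
`∂_p (Cᴴ) = (∂̄_p C)ᴴ`, `∂̄_q (Cᴴ) = (∂_q C)ᴴ`.

* `pairE_dz` (D1).  `∂_p [G_{lm} tr(G C_mᴴ K B_l)]`: the two terms from `∂_p G`, `∂_p K` inside the trace give
  `tr(G C_mᴴ K (A_p B_l - B_l A_p))` (cyclicity); `∂_p G_{lm} = - ∑_r (A_p)_{lr} G_{rm}` gives, after renaming,
  the term `- ∑_l (A_p)_{lr} B_l` in the slot `r`.
* `pairE_dzb` (D2).  Same with `(A_q C_m - C_m A_q)ᴴ = C_mᴴ A_qᴴ - A_qᴴ C_mᴴ`.
* `barE_nabE` (D4).  Product rule and `dzM_dzbM_comm`.
* `bochnerE`.  `∂̄_q ∂_p ⟨B,B⟩ = ∂_p ∂̄_q ⟨B,B⟩ = ⟨∇_p ∂̄_q B, B⟩ + ⟨∂̄_q B, ∂̄_p B⟩ + ⟨∇_p B, ∇_q B⟩ + ⟨B, ∂̄_p ∇_q B⟩`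
  (D2 in a neighbourhood, then D1), `∂̄_p ∇_q B = ∇_q ∂̄_p B + actE F_{pq} B` (D4); contract with `G p q`; the fourth term is
  the complex conjugate of `⟨lapE B + actE (Rse) B, B⟩` because `conj (G p q) = G q p` and `pairE_conj`.
-/

set_option autoImplicit false
open scoped ContDiff ComplexOrder Topology Matrix

namespace Claimed.Agent.R316.B9

variable {ι : Type} [Fintype ι] [DecidableEq ι]
variable {K : CE ι → Matrix ι ι ℂ} {B C : ι → CE ι → Matrix ι ι ℂ} {z : CE ι}

/-! ### algebra of `pairE`, `actE` -/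

theorem pairE_conj (Km : Matrix ι ι ℂ) (hK : Km.IsHermitian) (B C : ι → Matrix ι ι ℂ) :
    star (pairE Km B C) = pairE Km C B := by
  have hG : (Km⁻¹).IsHermitian := hK.inv
  unfold pairE
  simp only [star_sum, star_mul']
  rw [Finset.sum_comm]
  refine Finset.sum_congr rfl fun m _ => Finset.sum_congr rfl fun l _ => ?_
  rw [hG.apply m l, ← Matrix.trace_conjTranspose]
  congr 1
  simp only [Matrix.conjTranspose_mul, Matrix.conjTranspose_conjTranspose, hK.eq, hG.eq]
  rw [Matrix.trace_mul_comm, Matrix.mul_assoc, Matrix.mul_assoc, Matrix.trace_mul_comm]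
  simp only [Matrix.mul_assoc]
  rw [Matrix.trace_mul_comm (C m)]
  simp only [Matrix.mul_assoc]

theorem pairE_add_left (Km : Matrix ι ι ℂ) (B B' C : ι → Matrix ι ι ℂ) :
    pairE Km (fun l => B l + B' l) C = pairE Km B C + pairE Km B' C := by
  unfold pairE
  simp only [Matrix.mul_add, Matrix.trace_add, mul_add, Finset.sum_add_distrib]

theorem pairE_add_right (Km : Matrix ι ι ℂ) (B C C' : ι → Matrix ι ι ℂ) :
    pairE Km B (fun l => C l + C' l) = pairE Km B C + pairE Km B C' := by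
  unfold pairE
  simp only [Matrix.conjTranspose_add, Matrix.mul_add, Matrix.add_mul, Matrix.trace_add, mul_add,
    Finset.sum_add_distrib]

theorem pairE_sub_left (Km : Matrix ι ι ℂ) (B B' C : ι → Matrix ι ι ℂ) :
    pairE Km (fun l => B l - B' l) C = pairE Km B C - pairE Km B' C := by
  unfold pairE
  simp only [Matrix.mul_sub, Matrix.trace_sub, mul_sub, Finset.sum_sub_distrib]

theorem pairE_smul_left (Km : Matrix ι ι ℂ) (c : ℂ) (B C : ι → Matrix ι ι ℂ) :
    pairE Km (fun l => c • B l) C = c * pairE Km B C := by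
  unfold pairE
  simp only [Matrix.mul_smul, Matrix.trace_smul, smul_eq_mul, Finset.mul_sum]
  refine Finset.sum_congr rfl fun l _ => Finset.sum_congr rfl fun m _ => ?_
  ring

theorem pairE_smul_right (Km : Matrix ι ι ℂ) (c : ℂ) (B C : ι → Matrix ι ι ℂ) :
    pairE Km B (fun l => c • C l) = star c * pairE Km B C := by
  unfold pairE
  simp only [Matrix.conjTranspose_smul, Matrix.mul_smul, Matrix.smul_mul, Matrix.trace_smul,
    smul_eq_mul, Finset.mul_sum]
  refine Finset.sum_congr rfl fun l _ => Finset.sum_congr rfl fun m _ => ?_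
  ring

theorem pairE_sum_left {α : Type} (s : Finset α) (Km : Matrix ι ι ℂ) (B : α → ι → Matrix ι ι ℂ)
    (C : ι → Matrix ι ι ℂ) :
    pairE Km (fun l => ∑ a ∈ s, B a l) C = ∑ a ∈ s, pairE Km (B a) C := by
  unfold pairE
  simp only [Matrix.mul_sum, Matrix.trace_sum, Finset.mul_sum]
  rw [Finset.sum_comm' (s := s) (t := fun _ => Finset.univ) (t' := Finset.univ) (s' := fun _ => s)
    (by simp)]
  refine Finset.sum_congr rfl fun l _ => ?_
  rw [Finset.sum_comm' (s := s) (t := fun _ => Finset.univ) (t' := Finset.univ) (s' := fun _ => s)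
    (by simp)]

theorem actE_sub (X X' : Matrix ι ι ℂ) (B : ι → Matrix ι ι ℂ) (l : ι) :
    actE (X - X') B l = actE X B l - actE X' B l := by
  unfold actE
  simp only [Matrix.sub_mul, Matrix.mul_sub, Matrix.sub_apply, sub_smul, Finset.sum_sub_distrib]
  abel

theorem actE_sum_smul {α : Type} (s : Finset α) (c : α → ℂ) (X : α → Matrix ι ι ℂ)
    (B : ι → Matrix ι ι ℂ) (l : ι) :
    actE (∑ a ∈ s, c a • X a) B l = ∑ a ∈ s, c a • actE (X a) B l := by
  unfold actE
  simp only [Finset.sum_mul, Finset.mul_sum, Matrix.smul_mul, Matrix.mul_smul, Matrix.sum_apply,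
    Matrix.smul_apply, smul_eq_mul, Finset.sum_smul, smul_sub, Finset.sum_sub_distrib,
    Finset.smul_sum, mul_smul]
  congr 1
  exact Finset.sum_comm

/-! ### first order facts -/

theorem dzM_eq_mul_Acn (hK : ∀ j k, DifferentiableAt ℝ (fun w => K w j k) z) (hP : (K z).PosDef)
    (p : ι) : dzM p K z = K z * Acn K p z := by
  unfold Acn
  rw [← Matrix.mul_assoc, mul_inv_cancel_of_posDef hP, Matrix.one_mul]

theorem dzM_inv_eq (hK : ∀ j k, DifferentiableAt ℝ (fun w => K w j k) z) (hP : (K z).PosDef)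
    (p : ι) : dzM p (fun w => (K w)⁻¹) z = - (Acn K p z * (K z)⁻¹) := by
  rw [dzM_inv hK (det_ne_zero_of_posDef hP)]
  rfl

theorem dzbM_eq_Acn_mul (hK : ∀ j k, DifferentiableAt ℝ (fun w => K w j k) z)
    (hP : ∀ᶠ w in 𝓝 z, (K w).PosDef) (q : ι) : dzbM q K z = (Acn K q z)ᴴ * K z := by
  have hP0 : (K z).PosDef := hP.self_of_nhds
  have hh : ∀ᶠ w in 𝓝 z, (K w).IsHermitian := hP.mono fun w hw => hw.isHermitian
  unfold Acn
  rw [Matrix.conjTranspose_mul, conjTranspose_dzM_of_isHermitian hh, hP0.isHermitian.inv.eq,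
    Matrix.mul_assoc, inv_mul_cancel_of_posDef hP0, Matrix.mul_one]

theorem dzbM_inv_eq (hK : ∀ j k, DifferentiableAt ℝ (fun w => K w j k) z)
    (hP : ∀ᶠ w in 𝓝 z, (K w).PosDef) (q : ι) :
    dzbM q (fun w => (K w)⁻¹) z = - ((K z)⁻¹ * (Acn K q z)ᴴ) := by
  have hP0 : (K z).PosDef := hP.self_of_nhds
  rw [dzbM_inv hK (det_ne_zero_of_posDef hP0), dzbM_eq_Acn_mul hK hP]
  rw [Matrix.mul_assoc, Matrix.mul_assoc, mul_inv_cancel_of_posDef hP0, Matrix.mul_one]

theorem contDiffAt_Acn (hK : ∀ j k, ContDiffAt ℝ ∞ (fun w => K w j k) z) (hP : (K z).PosDef)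
    (l j k : ι) : ContDiffAt ℝ ∞ (fun w => Acn K l w j k) z := by
  exact contDiffAt_matMul (contDiffAt_matInv hK (det_ne_zero_of_posDef hP))
    (contDiffAt_dzM hK (by simp)) j k

theorem contDiffAt_nabE (hK : ∀ j k, ContDiffAt ℝ ∞ (fun w => K w j k) z) (hP : (K z).PosDef)
    (hB : ∀ l j k, ContDiffAt ℝ ∞ (fun w => B l w j k) z) (p l j k : ι) :
    ContDiffAt ℝ ∞ (fun w => nabE K p B l w j k) z := by
  unfold nabE actE
  have hA := contDiffAt_Acn hK hP p
  simp only [Matrix.add_apply, Matrix.sub_apply, Matrix.sum_apply, Matrix.smul_apply, smul_eq_mul]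
  exact (contDiffAt_dzM (hB l) (by simp) j k).add
    (((contDiffAt_matMul hA (hB l) j k).sub (contDiffAt_matMul (hB l) hA j k)).sub
      (ContDiffAt.sum fun m _ => (hA m l).mul (hB m j k)))

theorem contDiffAt_barE (hB : ∀ l j k, ContDiffAt ℝ ∞ (fun w => B l w j k) z) (q l j k : ι) :
    ContDiffAt ℝ ∞ (fun w => barE q B l w j k) z := by
  exact contDiffAt_dzbM (hB l) (by simp) j k

theorem contDiffAt_pairE (hK : ∀ j k, ContDiffAt ℝ ∞ (fun w => K w j k) z) (hP : (K z).PosDef)
    (hB : ∀ l j k, ContDiffAt ℝ ∞ (fun w => B l w j k) z)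
    (hC : ∀ l j k, ContDiffAt ℝ ∞ (fun w => C l w j k) z) :
    ContDiffAt ℝ ∞ (fun w => pairE (K w) (fun l => B l w) (fun l => C l w)) z := by
  unfold pairE
  have hG := contDiffAt_matInv hK (det_ne_zero_of_posDef hP)
  exact ContDiffAt.sum fun l _ => ContDiffAt.sum fun m _ => (hG l m).mul
    (contDiffAt_matTrace (contDiffAt_matMul (contDiffAt_matMul (contDiffAt_matMul hG
      (contDiffAt_conjTranspose (hC m))) hK) (hB l)))

/-! ### the derivation rules -/

/-- the raw sum behind `pairE`, with independent slots. -/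
def pairR (G Km : Matrix ι ι ℂ) (B D : ι → Matrix ι ι ℂ) : ℂ :=
  ∑ l, ∑ m, G l m * (G * D m * Km * B l).trace

theorem pairE_eq_pairR (Km : Matrix ι ι ℂ) (B C : ι → Matrix ι ι ℂ) :
    pairE Km B C = pairR Km⁻¹ Km B (fun m => (C m)ᴴ) := rfl

/-- the formal Leibniz expansion of `pairR`. -/
def pairL (G Km G' Km' : Matrix ι ι ℂ) (B D B' D' : ι → Matrix ι ι ℂ) : ℂ :=
  ∑ l, ∑ m, (G' l m * (G * D m * Km * B l).trace
    + G l m * (G' * D m * Km * B l + G * D' m * Km * B l + G * D m * Km' * B l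
        + G * D m * Km * B' l).trace)

/-- algebra of (D1), (D3): `G' = - X G`, `K' = K X`. -/
theorem pairL_alg1 (G Km X : Matrix ι ι ℂ) (B D B' D' : ι → Matrix ι ι ℂ) :
    pairL G Km (- (X * G)) (Km * X) B D B' D'
      = pairR G Km B' D + pairR G Km B D' + pairR G Km (actE X B) D := by
  have h1 : ∀ l m, (G * D m * Km * actE X B l).trace
      = (G * D m * (Km * X) * B l).trace + (- (X * G) * D m * Km * B l).trace
        - ∑ r, X r l * (G * D m * Km * B r).trace := by
    intro l m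
    unfold actE
    rw [Matrix.mul_sub, Matrix.mul_sub, Matrix.trace_sub, Matrix.trace_sub, Matrix.mul_sum,
      Matrix.trace_sum]
    simp only [Matrix.mul_smul, Matrix.trace_smul, smul_eq_mul]
    have e1 : G * D m * Km * (X * B l) = G * D m * (Km * X) * B l := by
      simp only [Matrix.mul_assoc]
    have e2 : (G * D m * Km * (B l * X)).trace = (X * G * D m * Km * B l).trace := by
      rw [← Matrix.mul_assoc, Matrix.trace_mul_comm]
      simp only [Matrix.mul_assoc]
    rw [e1, e2]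
    simp only [Matrix.neg_mul, Matrix.trace_neg]
    ring
  have h2 : ∑ l, ∑ m, (- (X * G)) l m * (G * D m * Km * B l).trace
      = - ∑ l, ∑ m, G l m * ∑ r, X r l * (G * D m * Km * B r).trace := by
    simp only [Matrix.neg_apply, Matrix.mul_apply, Finset.sum_mul, Finset.mul_sum, neg_mul,
      Finset.sum_neg_distrib]
    congr 1
    calc ∑ l, ∑ m, ∑ r, X l r * G r m * (G * D m * Km * B l).trace
        = ∑ l, ∑ r, ∑ m, X l r * G r m * (G * D m * Km * B l).trace :=
          Finset.sum_congr rfl fun l _ => Finset.sum_comm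
      _ = ∑ r, ∑ l, ∑ m, X l r * G r m * (G * D m * Km * B l).trace := Finset.sum_comm
      _ = ∑ r, ∑ m, ∑ l, X l r * G r m * (G * D m * Km * B l).trace :=
          Finset.sum_congr rfl fun l _ => Finset.sum_comm
      _ = _ := by
          refine Finset.sum_congr rfl fun r _ => Finset.sum_congr rfl fun m _ =>
            Finset.sum_congr rfl fun l _ => ?_
          ring
  unfold pairL pairR
  simp only [h1, Matrix.trace_add, mul_add, mul_sub, Finset.sum_add_distrib,
    Finset.sum_sub_distrib]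
  rw [h2]
  ring

/-- algebra of (D2): `G' = - G Yᴴ`, `K' = Yᴴ K`. -/
theorem pairL_alg2 (G Km Y : Matrix ι ι ℂ) (B C B' D' : ι → Matrix ι ι ℂ) :
    pairL G Km (- (G * Yᴴ)) (Yᴴ * Km) B (fun m => (C m)ᴴ) B' D'
      = pairR G Km B' (fun m => (C m)ᴴ) + pairR G Km B D'
        + pairR G Km B (fun m => (actE Y C m)ᴴ) := by
  have h1 : ∀ l m, (G * (actE Y C m)ᴴ * Km * B l).trace
      = (G * (C m)ᴴ * (Yᴴ * Km) * B l).trace + (- (G * Yᴴ) * (C m)ᴴ * Km * B l).trace
        - ∑ r, star (Y r m) * (G * (C r)ᴴ * Km * B l).trace := by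
    intro l m
    unfold actE
    simp only [Matrix.conjTranspose_sub, Matrix.conjTranspose_mul, Matrix.conjTranspose_sum,
      Matrix.conjTranspose_smul, Matrix.mul_sub, Matrix.sub_mul, Matrix.trace_sub, Matrix.mul_sum,
      Matrix.sum_mul, Matrix.trace_sum, Matrix.mul_smul, Matrix.smul_mul, Matrix.trace_smul,
      smul_eq_mul, Matrix.neg_mul, Matrix.trace_neg, Matrix.mul_assoc]
    ring
  have h2 : ∑ l, ∑ m, (- (G * Yᴴ)) l m * (G * (C m)ᴴ * Km * B l).trace
      = - ∑ l, ∑ m, G l m * ∑ r, star (Y r m) * (G * (C r)ᴴ * Km * B l).trace := by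
    simp only [Matrix.neg_apply, Matrix.mul_apply, Matrix.conjTranspose_apply, Finset.sum_mul,
      Finset.mul_sum, neg_mul, Finset.sum_neg_distrib]
    congr 1
    refine Finset.sum_congr rfl fun l _ => ?_
    rw [Finset.sum_comm]
    refine Finset.sum_congr rfl fun r _ => Finset.sum_congr rfl fun m _ => ?_
    ring
  unfold pairL pairR
  simp only [h1, Matrix.trace_add, mul_add, mul_sub, Finset.sum_add_distrib,
    Finset.sum_sub_distrib]
  rw [h2]
  ring

/-- Leibniz rule for `dz`. -/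
theorem dz_pairR {Gf Kf : CE ι → Matrix ι ι ℂ} {Bf Df : ι → CE ι → Matrix ι ι ℂ}
    (hG : ∀ j k, DifferentiableAt ℝ (fun w => Gf w j k) z)
    (hK : ∀ j k, DifferentiableAt ℝ (fun w => Kf w j k) z)
    (hB : ∀ l j k, DifferentiableAt ℝ (fun w => Bf l w j k) z)
    (hD : ∀ l j k, DifferentiableAt ℝ (fun w => Df l w j k) z) (p : ι) :
    dz p (fun w => pairR (Gf w) (Kf w) (fun l => Bf l w) (fun l => Df l w)) z
      = pairL (Gf z) (Kf z) (dzM p Gf z) (dzM p Kf z) (fun l => Bf l z) (fun l => Df l z)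
          (fun l => dzM p (Bf l) z) (fun l => dzM p (Df l) z) := by
  have m1 : ∀ m j k, DifferentiableAt ℝ (fun w => (Gf w * Df m w) j k) z := fun m =>
    differentiableAt_matMul hG (hD m)
  have m2 : ∀ m j k, DifferentiableAt ℝ (fun w => (Gf w * Df m w * Kf w) j k) z := fun m =>
    differentiableAt_matMul (m1 m) hK
  have m3 : ∀ l m j k, DifferentiableAt ℝ (fun w => (Gf w * Df m w * Kf w * Bf l w) j k) z :=
    fun l m => differentiableAt_matMul (m2 m) (hB l)
  have t3 : ∀ l m, DifferentiableAt ℝ (fun w => (Gf w * Df m w * Kf w * Bf l w).trace) z :=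
    fun l m => differentiableAt_matTrace (m3 l m)
  have s0 : ∀ l m, DifferentiableAt ℝ
      (fun w => Gf w l m * (Gf w * Df m w * Kf w * Bf l w).trace) z := fun l m =>
    (hG l m).mul (t3 l m)
  have s1 : ∀ l, DifferentiableAt ℝ
      (fun w => ∑ m, Gf w l m * (Gf w * Df m w * Kf w * Bf l w).trace) z := fun l =>
    DifferentiableAt.fun_sum fun m _ => s0 l m
  unfold pairR pairL
  rw [dz_sum Finset.univ _ fun l _ => s1 l]
  refine Finset.sum_congr rfl fun l _ => ?_
  rw [dz_sum Finset.univ _ fun m _ => s0 l m]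
  refine Finset.sum_congr rfl fun m _ => ?_
  rw [dz_mul (hG l m) (t3 l m), dz_matTrace (m3 l m), dzM_mul (m2 m) (hB l),
    dzM_mul (m1 m) hK, dzM_mul hG (hD m)]
  simp only [Matrix.add_mul]
  rfl

/-- Leibniz rule for `dzb`. -/
theorem dzb_pairR {Gf Kf : CE ι → Matrix ι ι ℂ} {Bf Df : ι → CE ι → Matrix ι ι ℂ}
    (hG : ∀ j k, DifferentiableAt ℝ (fun w => Gf w j k) z)
    (hK : ∀ j k, DifferentiableAt ℝ (fun w => Kf w j k) z)
    (hB : ∀ l j k, DifferentiableAt ℝ (fun w => Bf l w j k) z)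
    (hD : ∀ l j k, DifferentiableAt ℝ (fun w => Df l w j k) z) (p : ι) :
    dzb p (fun w => pairR (Gf w) (Kf w) (fun l => Bf l w) (fun l => Df l w)) z
      = pairL (Gf z) (Kf z) (dzbM p Gf z) (dzbM p Kf z) (fun l => Bf l z) (fun l => Df l z)
          (fun l => dzbM p (Bf l) z) (fun l => dzbM p (Df l) z) := by
  have m1 : ∀ m j k, DifferentiableAt ℝ (fun w => (Gf w * Df m w) j k) z := fun m =>
    differentiableAt_matMul hG (hD m)
  have m2 : ∀ m j k, DifferentiableAt ℝ (fun w => (Gf w * Df m w * Kf w) j k) z := fun m =>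
    differentiableAt_matMul (m1 m) hK
  have m3 : ∀ l m j k, DifferentiableAt ℝ (fun w => (Gf w * Df m w * Kf w * Bf l w) j k) z :=
    fun l m => differentiableAt_matMul (m2 m) (hB l)
  have t3 : ∀ l m, DifferentiableAt ℝ (fun w => (Gf w * Df m w * Kf w * Bf l w).trace) z :=
    fun l m => differentiableAt_matTrace (m3 l m)
  have s0 : ∀ l m, DifferentiableAt ℝ
      (fun w => Gf w l m * (Gf w * Df m w * Kf w * Bf l w).trace) z := fun l m =>
    (hG l m).mul (t3 l m)
  have s1 : ∀ l, DifferentiableAt ℝ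
      (fun w => ∑ m, Gf w l m * (Gf w * Df m w * Kf w * Bf l w).trace) z := fun l =>
    DifferentiableAt.fun_sum fun m _ => s0 l m
  unfold pairR pairL
  rw [dzb_sum Finset.univ _ fun l _ => s1 l]
  refine Finset.sum_congr rfl fun l _ => ?_
  rw [dzb_sum Finset.univ _ fun m _ => s0 l m]
  refine Finset.sum_congr rfl fun m _ => ?_
  rw [dzb_mul (hG l m) (t3 l m), dzb_matTrace (m3 l m), dzbM_mul (m2 m) (hB l),
    dzbM_mul (m1 m) hK, dzbM_mul hG (hD m)]
  simp only [Matrix.add_mul]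
  rfl

/-- (D1) -/
theorem pairE_dz (hK : ∀ j k, DifferentiableAt ℝ (fun w => K w j k) z) (hP : (K z).PosDef)
    (hB : ∀ l j k, DifferentiableAt ℝ (fun w => B l w j k) z)
    (hC : ∀ l j k, DifferentiableAt ℝ (fun w => C l w j k) z) (p : ι) :
    dz p (fun w => pairE (K w) (fun l => B l w) (fun l => C l w)) z
      = pairE (K z) (fun l => nabE K p B l z) (fun l => C l z)
        + pairE (K z) (fun l => B l z) (fun l => barE p C l z) := by
  have hG := differentiableAt_matInv hK (det_ne_zero_of_posDef hP)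
  have hD : ∀ l j k, DifferentiableAt ℝ (fun w => ((C l w)ᴴ) j k) z := fun l j k =>
    (hC l k j).star
  simp only [pairE_eq_pairR]
  rw [dz_pairR hG hK hB hD p, dzM_inv_eq hK hP, dzM_eq_mul_Acn hK hP, pairL_alg1]
  have e1 : (fun l => nabE K p B l z)
      = fun l => dzM p (B l) z + actE (Acn K p z) (fun l' => B l' z) l := rfl
  have e2 : pairR (K z)⁻¹ (K z) (fun l => dzM p (B l) z + actE (Acn K p z) (fun l' => B l' z) l)
        (fun m => (C m z)ᴴ)
      = pairR (K z)⁻¹ (K z) (fun l => dzM p (B l) z) (fun m => (C m z)ᴴ)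
        + pairR (K z)⁻¹ (K z) (actE (Acn K p z) (fun l' => B l' z)) (fun m => (C m z)ᴴ) :=
    pairE_add_left (K z) _ _ (fun m => C m z)
  rw [e1, e2]
  simp only [barE, dzM_conjTranspose]
  ring

/-- (D2) -/
theorem pairE_dzb (hK : ∀ j k, DifferentiableAt ℝ (fun w => K w j k) z)
    (hP : ∀ᶠ w in 𝓝 z, (K w).PosDef)
    (hB : ∀ l j k, DifferentiableAt ℝ (fun w => B l w j k) z)
    (hC : ∀ l j k, DifferentiableAt ℝ (fun w => C l w j k) z) (q : ι) :
    dzb q (fun w => pairE (K w) (fun l => B l w) (fun l => C l w)) z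
      = pairE (K z) (fun l => barE q B l z) (fun l => C l z)
        + pairE (K z) (fun l => B l z) (fun l => nabE K q C l z) := by
  have hP0 : (K z).PosDef := hP.self_of_nhds
  have hG := differentiableAt_matInv hK (det_ne_zero_of_posDef hP0)
  have hD : ∀ l j k, DifferentiableAt ℝ (fun w => ((C l w)ᴴ) j k) z := fun l j k =>
    (hC l k j).star
  simp only [pairE_eq_pairR]
  rw [dzb_pairR hG hK hB hD q, dzbM_inv_eq hK hP, dzbM_eq_Acn_mul hK hP, pairL_alg2]
  have e1 : (fun m => (nabE K q C m z)ᴴ)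
      = fun m => (dzM q (C m) z + actE (Acn K q z) (fun l' => C l' z) m)ᴴ := rfl
  have e2 := pairE_add_right (K z) (fun l => B l z) (fun l => dzM q (C l) z)
    (actE (Acn K q z) (fun l' => C l' z))
  simp only [pairE_eq_pairR] at e2
  rw [e1, e2]
  simp only [barE, dzbM_conjTranspose]
  ring

theorem hasDerivAt_matTrace' {H : ℝ → Matrix ι ι ℂ} {H' : Matrix ι ι ℂ} {t : ℝ}
    (h : ∀ j k, HasDerivAt (fun r => H r j k) (H' j k) t) :
    HasDerivAt (fun r => (H r).trace) H'.trace t :=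
  hasDerivWithinAt_univ.1 (hasDerivWithinAt_matTrace fun j k => (h j k).hasDerivWithinAt)

/-- Leibniz rule in the time variable. -/
theorem hasDerivAt_pairR {Gf Kf : ℝ → Matrix ι ι ℂ} {Bf Df : ι → ℝ → Matrix ι ι ℂ}
    {G' Km' : Matrix ι ι ℂ} {B' D' : ι → Matrix ι ι ℂ} {t : ℝ}
    (hG : ∀ j k, HasDerivAt (fun r => Gf r j k) (G' j k) t)
    (hK : ∀ j k, HasDerivAt (fun r => Kf r j k) (Km' j k) t)
    (hB : ∀ l j k, HasDerivAt (fun r => Bf l r j k) (B' l j k) t)
    (hD : ∀ l j k, HasDerivAt (fun r => Df l r j k) (D' l j k) t) :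
    HasDerivAt (fun r => pairR (Gf r) (Kf r) (fun l => Bf l r) (fun l => Df l r))
      (pairL (Gf t) (Kf t) G' Km' (fun l => Bf l t) (fun l => Df l t) B' D') t := by
  have m3 := fun l m => hasDerivAt_matTrace' (hasDerivAt_matMul (hasDerivAt_matMul
    (hasDerivAt_matMul hG (hD m)) hK) (hB l))
  unfold pairR pairL
  refine HasDerivAt.fun_sum fun l _ => HasDerivAt.fun_sum fun m _ => ?_
  refine ((hG l m).mul (m3 l m)).congr_deriv ?_
  simp only [Matrix.add_mul]

/-- (D3), functions of the time variable only. -/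
theorem pairE_hasDerivAt {Km : ℝ → Matrix ι ι ℂ} {Km' : Matrix ι ι ℂ}
    {Bt Ct : ι → ℝ → Matrix ι ι ℂ} {B' C' : ι → Matrix ι ι ℂ} {t : ℝ}
    (hK : ∀ j k, HasDerivAt (fun r => Km r j k) (Km' j k) t) (hP : (Km t).PosDef)
    (hB : ∀ l j k, HasDerivAt (fun r => Bt l r j k) (B' l j k) t)
    (hC : ∀ l j k, HasDerivAt (fun r => Ct l r j k) (C' l j k) t) :
    HasDerivAt (fun r => pairE (Km r) (fun l => Bt l r) (fun l => Ct l r))
      (pairE (Km t) B' (fun l => Ct l t) + pairE (Km t) (fun l => Bt l t) C'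
        + pairE (Km t) (actE ((Km t)⁻¹ * Km') (fun l => Bt l t)) (fun l => Ct l t)) t := by
  have h0 := det_ne_zero_of_posDef hP
  have hG := hasDerivAt_matInv hK h0
  have hD : ∀ l j k, HasDerivAt (fun r => ((Ct l r)ᴴ) j k) (((C' l)ᴴ) j k) t := fun l j k =>
    (hC l k j).star
  have h := hasDerivAt_pairR hG hK hB hD
  have e1 : - ((Km t)⁻¹ * Km' * (Km t)⁻¹) = - (((Km t)⁻¹ * Km') * (Km t)⁻¹) := rfl
  have e2 : Km' = Km t * ((Km t)⁻¹ * Km') := by
    rw [← Matrix.mul_assoc, mul_inv_cancel_of_posDef hP, Matrix.one_mul]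
  rw [e1] at h
  have h' := pairL_alg1 (Km t)⁻¹ (Km t) ((Km t)⁻¹ * Km') (fun l => Bt l t) (fun l => (Ct l t)ᴴ) B'
    (fun l => (C' l)ᴴ)
  rw [← e2] at h'
  rw [h'] at h
  exact h

theorem dzbM_fsum {α : Type} (s : Finset α) (F : α → CE ι → Matrix ι ι ℂ) {l : ι}
    (h : ∀ a ∈ s, ∀ j k, DifferentiableAt ℝ (fun w => F a w j k) z) :
    dzbM l (fun w => ∑ a ∈ s, F a w) z = ∑ a ∈ s, dzbM l (F a) z := by
  ext j k
  simp only [dzbM_apply, Matrix.sum_apply]
  exact dzb_sum s _ fun a ha => h a ha j k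

theorem dzM_fsum {α : Type} (s : Finset α) (F : α → CE ι → Matrix ι ι ℂ) {l : ι}
    (h : ∀ a ∈ s, ∀ j k, DifferentiableAt ℝ (fun w => F a w j k) z) :
    dzM l (fun w => ∑ a ∈ s, F a w) z = ∑ a ∈ s, dzM l (F a) z := by
  ext j k
  simp only [dzM_apply, Matrix.sum_apply]
  exact dz_sum s _ fun a ha => h a ha j k

/-- (D4) -/
theorem barE_nabE (hK : ∀ j k, ContDiffAt ℝ ∞ (fun w => K w j k) z) (hP : (K z).PosDef)
    (hB : ∀ l j k, ContDiffAt ℝ ∞ (fun w => B l w j k) z) (p q l : ι) :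
    dzbM q (fun w => nabE K p B l w) z
      = nabE K p (fun l' w => barE q B l' w) l z + actE (Fcv K q p z) (fun l' => B l' z) l := by
  have hK1 : ∀ j k, DifferentiableAt ℝ (fun w => K w j k) z := fun j k =>
    (hK j k).differentiableAt (by simp)
  have hA : ∀ j k, DifferentiableAt ℝ (fun w => Acn K p w j k) z := fun j k =>
    (contDiffAt_Acn hK hP p j k).differentiableAt (by simp)
  have hB1 : ∀ l j k, DifferentiableAt ℝ (fun w => B l w j k) z := fun l j k =>
    (hB l j k).differentiableAt (by simp)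
  have hdB : ∀ j k, DifferentiableAt ℝ (fun w => dzM p (B l) w j k) z := fun j k =>
    (contDiffAt_dzM (N := ∞) (hB l) (by simp) j k).differentiableAt (by simp)
  have h1 : ∀ j k, DifferentiableAt ℝ (fun w => (Acn K p w * B l w) j k) z :=
    differentiableAt_matMul hA (hB1 l)
  have h2 : ∀ j k, DifferentiableAt ℝ (fun w => (B l w * Acn K p w) j k) z :=
    differentiableAt_matMul (hB1 l) hA
  have h3 : ∀ m j k, DifferentiableAt ℝ (fun w => (Acn K p w m l • B m w) j k) z := fun m j k =>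
    (hA m l).mul (hB1 m j k)
  have h4 : ∀ j k, DifferentiableAt ℝ (fun w => (∑ m, Acn K p w m l • B m w) j k) z := by
    intro j k
    simp only [Matrix.sum_apply]
    exact DifferentiableAt.fun_sum fun m _ => h3 m j k
  have h12 : ∀ j k, DifferentiableAt ℝ
      (fun w => (Acn K p w * B l w - B l w * Acn K p w) j k) z := fun j k => (h1 j k).sub (h2 j k)
  have h124 : ∀ j k, DifferentiableAt ℝ
      (fun w => (Acn K p w * B l w - B l w * Acn K p w - ∑ m, Acn K p w m l • B m w) j k) z :=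
    fun j k => (h12 j k).sub (h4 j k)
  unfold nabE actE
  rw [dzbM_add hdB h124, dzbM_sub h12 h4, dzbM_sub h1 h2, dzbM_mul hA (hB1 l),
    dzbM_mul (hB1 l) hA, dzbM_fsum Finset.univ _ fun m _ => h3 m]
  have e : ∀ m, dzbM q (fun w => Acn K p w m l • B m w) z
      = Fcv K q p z m l • B m z + Acn K p z m l • dzbM q (B m) z := fun m =>
    dzbM_smul (hA m l) (hB1 m)
  simp only [e, Finset.sum_add_distrib]
  rw [← dzM_dzbM_comm fun j k => (hB l j k).of_le lv_two_le_infty]
  simp only [barE, Fcv]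
  abel

theorem re_sum_conj {G : Matrix ι ι ℂ} (hG : G.IsHermitian) (a b : ι → ι → ℂ)
    (h : ∀ p q, star (a p q) = b q p) :
    (∑ p, ∑ q, G p q * a p q).re = (∑ p, ∑ q, G p q * b p q).re := by
  rw [← Complex.conj_re]
  have : (starRingEnd ℂ) (∑ p, ∑ q, G p q * a p q) = ∑ p, ∑ q, G p q * b p q := by
    simp only [map_sum, map_mul]
    rw [Finset.sum_comm]
    refine Finset.sum_congr rfl fun q _ => Finset.sum_congr rfl fun p _ => ?_
    have h1 : (starRingEnd ℂ) (G p q) = G q p := hG.apply q p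
    have h2 : (starRingEnd ℂ) (a p q) = b q p := h p q
    rw [h1, h2]
  rw [this]

/-- **Bochner formula** on `𝔼`. -/
theorem bochnerE (hK : ∀ j k, ContDiffAt ℝ ∞ (fun w => K w j k) z)
    (hP : ∀ᶠ w in 𝓝 z, (K w).PosDef)
    (hB : ∀ l j k, ContDiffAt ℝ ∞ (fun w => B l w j k) z) :
    Lcx (K z)⁻¹ z (fun w => (pairE (K w) (fun l => B l w) (fun l => B l w)).re)
      = 2 * (pairE (K z) (fun l => lapE K B l z) (fun l => B l z)).re
        + (pairE (K z) (actE (Rse K z) (fun l => B l z)) (fun l => B l z)).re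
        + enE K B z := by
  have hP0 : (K z).PosDef := hP.self_of_nhds
  have hGh : ((K z)⁻¹).IsHermitian := hP0.isHermitian.inv
  have evK : ∀ᶠ w in 𝓝 z, ∀ j k, DifferentiableAt ℝ (fun y => K y j k) w :=
    Filter.eventually_all.2 fun j => Filter.eventually_all.2 fun k =>
      lv_eventually_differentiableAt ((hK j k).of_le lv_two_le_infty)
  have evB : ∀ᶠ w in 𝓝 z, ∀ l j k, DifferentiableAt ℝ (fun y => B l y j k) w :=
    Filter.eventually_all.2 fun l => Filter.eventually_all.2 fun j => Filter.eventually_all.2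
      fun k => lv_eventually_differentiableAt ((hB l j k).of_le lv_two_le_infty)
  have hK1 : ∀ j k, DifferentiableAt ℝ (fun w => K w j k) z := evK.self_of_nhds
  have hB1 : ∀ l j k, DifferentiableAt ℝ (fun w => B l w j k) z := evB.self_of_nhds
  have hreal : (fun w => (((pairE (K w) (fun l => B l w) (fun l => B l w)).re : ℝ) : ℂ))
      =ᶠ[𝓝 z] fun w => pairE (K w) (fun l => B l w) (fun l => B l w) := by
    filter_upwards [hP] with w hw
    exact Complex.conj_eq_iff_re.1 (pairE_conj (K w) hw.isHermitian _ _)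
  have hdz : ∀ p, dz p (fun w => (((pairE (K w) (fun l => B l w) (fun l => B l w)).re : ℝ) : ℂ))
      =ᶠ[𝓝 z] fun w => pairE (K w) (fun l => nabE K p B l w) (fun l => B l w)
        + pairE (K w) (fun l => B l w) (fun l => barE p B l w) := by
    intro p
    filter_upwards [hreal.eventually_nhds, evK, evB, hP] with w h1 h2 h3 h4
    rw [dz_congr h1]
    exact pairE_dz h2 h4 h3 h3 p
  have hN : ∀ p l j k, DifferentiableAt ℝ (fun w => nabE K p B l w j k) z := fun p l j k =>
    (contDiffAt_nabE hK hP0 hB p l j k).differentiableAt (by simp)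
  have hbar : ∀ p l j k, DifferentiableAt ℝ (fun w => barE p B l w j k) z := fun p l j k =>
    (contDiffAt_barE hB p l j k).differentiableAt (by simp)
  have c1 : ∀ p, DifferentiableAt ℝ
      (fun w => pairE (K w) (fun l => nabE K p B l w) (fun l => B l w)) z := fun p =>
    (contDiffAt_pairE hK hP0 (contDiffAt_nabE hK hP0 hB p) hB).differentiableAt (by simp)
  have c2 : ∀ p, DifferentiableAt ℝ
      (fun w => pairE (K w) (fun l => B l w) (fun l => barE p B l w)) z := fun p =>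
    (contDiffAt_pairE hK hP0 hB (contDiffAt_barE hB p)).differentiableAt (by simp)
  have hlevi : ∀ q p, levi (fun w => (pairE (K w) (fun l => B l w) (fun l => B l w)).re) z q p
      = pairE (K z) (fun l => nabE K p (fun l' w => barE q B l' w) l z) (fun l => B l z)
        + pairE (K z) (actE (Fcv K q p z) (fun l' => B l' z)) (fun l => B l z)
        + pairE (K z) (fun l => nabE K p B l z) (fun l => nabE K q B l z)
        + pairE (K z) (fun l => barE q B l z) (fun l => barE p B l z)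
        + pairE (K z) (fun l => B l z) (fun l => nabE K q (fun l' w => barE p B l' w) l z) := by
    intro q p
    rw [levi_apply, dzb_congr (hdz p), dzb_add (c1 p) (c2 p),
      pairE_dzb (B := fun l w => nabE K p B l w) hK1 hP (hN p) hB1 q,
      pairE_dzb (C := fun l w => barE p B l w) hK1 hP hB1 (hbar p) q]
    have e : (fun l => barE q (fun l w => nabE K p B l w) l z)
        = fun l => nabE K p (fun l' w => barE q B l' w) l z
          + actE (Fcv K q p z) (fun l' => B l' z) l := by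
      funext l
      exact barE_nabE hK hP0 hB p q l
    rw [e, pairE_add_left]
    ring
  have hlap : pairE (K z) (fun l => lapE K B l z) (fun l => B l z)
      = ∑ p, ∑ q, (K z)⁻¹ p q *
        pairE (K z) (fun l => nabE K p (fun l' w => barE q B l' w) l z) (fun l => B l z) := by
    unfold lapE
    rw [pairE_sum_left]
    refine Finset.sum_congr rfl fun p _ => ?_
    rw [pairE_sum_left]
    exact Finset.sum_congr rfl fun q _ => pairE_smul_left _ _ _ _
  have hrse : pairE (K z) (actE (Rse K z) (fun l => B l z)) (fun l => B l z)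
      = ∑ p, ∑ q, (K z)⁻¹ p q *
        pairE (K z) (actE (Fcv K q p z) (fun l' => B l' z)) (fun l => B l z) := by
    have e : Rse K z = ∑ x : ι × ι, (K z)⁻¹ x.1 x.2 • Fcv K x.2 x.1 z := by
      rw [Fintype.sum_prod_type]; rfl
    have e2 : actE (Rse K z) (fun l => B l z)
        = fun l => ∑ x : ι × ι, (K z)⁻¹ x.1 x.2 • actE (Fcv K x.2 x.1 z) (fun l => B l z) l := by
      funext l
      rw [e, actE_sum_smul]
    rw [e2, pairE_sum_left, Fintype.sum_prod_type]
    exact Finset.sum_congr rfl fun p _ => Finset.sum_congr rfl fun q _ => pairE_smul_left _ _ _ _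
  have hconj : (∑ p, ∑ q, (K z)⁻¹ p q * pairE (K z) (fun l => B l z)
        (fun l => nabE K q (fun l' w => barE p B l' w) l z)).re
      = (pairE (K z) (fun l => lapE K B l z) (fun l => B l z)).re := by
    rw [hlap]
    exact re_sum_conj hGh _ _ fun p q => pairE_conj (K z) hP0.isHermitian _ _
  unfold Lcx enE
  have htr : ((K z)⁻¹ * levi (fun w => (pairE (K w) (fun l => B l w) (fun l => B l w)).re) z).trace
      = ∑ p, ∑ q, (K z)⁻¹ p q *
          levi (fun w => (pairE (K w) (fun l => B l w) (fun l => B l w)).re) z q p := by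
    simp only [Matrix.trace, Matrix.diag, Matrix.mul_apply]
  rw [htr]
  simp only [hlevi, mul_add, Finset.sum_add_distrib, Complex.add_re]
  rw [hconj, ← hlap, ← hrse]
  ring

end Claimed.Agent.R316.B9
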