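import Claimed.Agent.R316.B9.CalBoch
import Claimed.Agent.R316.Pack006

/-!
# Row 316, package B9: structure equations of `A_l = K⁻¹ ∂_l K` and the two exact evolution identities

Static part (`K : CE ι → Matrix ι ι ℂ` smooth, positive definite near `z`; `G = K⁻¹`, `A_l = Acn K l`, `F_{ql} = Fcv K q l = ∂̄_q A_l`).
* (S1) `acn_flat`:     `∂_l A_p - ∂_p A_l + [A_l, A_p] = 0`         (`∂_l A_p = - A_l A_p + G ∂_l ∂_p K`, `dz`'s commute).
* (S2) `fcv_bianchi`:  `∂_l F_{qp} + [A_l, F_{qp}] = ∂_p F_{ql} + [A_p, F_{ql}]`   (apply `∂̄_q` to (S1), valid near `z`).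
* `lapE_acn`:  `∑ G_pq (∇_p ∂̄_q A)_l = ∂_l R + [A_l, R] - ∑ G_pq T_{pl}^m F_{qm}`, `R = Rse K = ∑ G_pq F_{qp}`:
  `(∇_p ∂̄_q A)_l = ∂_p F_{ql} + [A_p, F_{ql}] - ∑_m (A_p)_{ml} F_{qm}`, use (S2), and
  `∑ G_pq ∂_l F_{qp} = ∂_l R + ∑ (A_l)_{pm} G_{mq} F_{qp}` because `∂_l G = - A_l G`; rename `p ↔ m`.
* `lap_K`:  `∑ G_pq ∂̄_q ∂_p K = ∑ G_pq A_qᴴ K A_p + K R`   (`∂_p K = K A_p`, `∂̄_q K = A_qᴴ K`).

Time dependent part (`SPD O K`, `(t, z) ∈ O`): slices are smooth, `∂_t` commutes with `∂_l`;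
* (S3) `acn_hasDerivAt`:  `∂_t A_l = ∂_l E + [A_l, E]`, `E = Een K = G ∂_t K`   (`∂_t K = K E`).
* `calabi_identity`:  `(∂_t - Δ_K) S = 2 Re⟪𝒩, A⟫ + Re⟪actE 𝒯 A, A⟫ - Ycal`:  (D3) `pairE_hasDerivAt` gives
  `∂_t S = 2 Re⟪∂_t A, A⟫ + Re⟪actE E A, A⟫`; `bochnerE` gives `Δ S = 2 Re⟪lapE A, A⟫ + Re⟪actE R A, A⟫ + Ycal`; (S3) - `lapE_acn` `= Ncal`.
* `trace_identity`:   `(∂_t - Δ_K) tr K = Re tr (K 𝒯) - Str`  from `lap_K`.
Both identities hold for ANY smooth positive definite `K(t,z)` (no flow equation) and were checked numerically.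

Leaves: **B9-CAL-STR1** (`acn_flat`, `fcv_bianchi`, `lapE_acn`, `lap_K`), **B9-CAL-STR2** (the `SPD.*` slice lemmas, `acn_hasDerivAt`),
**B9-CAL-ID** (`calabi_identity`, `trace_identity`).
-/

set_option autoImplicit false
set_option maxSynthPendingDepth 3
open scoped ContDiff ComplexOrder Topology Matrix

namespace Claimed.Agent.R316.B9

variable {ι : Type} [Fintype ι] [DecidableEq ι]

section Static

variable {K : CE ι → Matrix ι ι ℂ} {z : CE ι}

/-! ### B9-CAL-STR1 -/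

theorem contDiffAt_Acn_one (hK : ∀ j k, ContDiffAt ℝ 2 (fun w => K w j k) z) (hP : (K z).PosDef)
    (l j k : ι) : ContDiffAt ℝ 1 (fun w => Acn K l w j k) z :=
  contDiffAt_matMul (contDiffAt_matInv (fun j k => (hK j k).of_le (by norm_num))
    (det_ne_zero_of_posDef hP)) (contDiffAt_dzM hK (by norm_num)) j k

/-- `∂_l A_p = - A_l A_p + G ∂_l ∂_p K`. -/
theorem dzM_Acn (hK : ∀ j k, ContDiffAt ℝ 2 (fun w => K w j k) z) (hP : (K z).PosDef) (l p : ι) :
    dzM l (Acn K p) z = - (Acn K l z * Acn K p z) + (K z)⁻¹ * dzM l (dzM p K) z := by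
  have hK1 : ∀ j k, DifferentiableAt ℝ (fun w => K w j k) z := fun j k =>
    (hK j k).differentiableAt (by norm_num)
  have hG := differentiableAt_matInv hK1 (det_ne_zero_of_posDef hP)
  have hd : ∀ j k, DifferentiableAt ℝ (fun w => dzM p K w j k) z := fun j k =>
    (contDiffAt_dzM (N := 1) hK (by norm_num) j k).differentiableAt (by norm_num)
  have : Acn K p = fun w => (K w)⁻¹ * dzM p K w := rfl
  rw [this, dzM_mul hG hd, dzM_inv_eq hK1 hP]
  simp only [Acn, Matrix.neg_mul, Matrix.mul_assoc]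

theorem acn_flat_two (hK : ∀ j k, ContDiffAt ℝ 2 (fun w => K w j k) z) (hP : (K z).PosDef)
    (l p : ι) :
    dzM l (Acn K p) z - dzM p (Acn K l) z + (Acn K l z * Acn K p z - Acn K p z * Acn K l z) = 0 := by
  have hc : dzM l (dzM p K) z = dzM p (dzM l K) z := by
    ext j k
    exact dz_dz_comm (hK j k)
  rw [dzM_Acn hK hP, dzM_Acn hK hP, hc]
  abel

/-- (S1) -/
theorem acn_flat (hK : ∀ j k, ContDiffAt ℝ ∞ (fun w => K w j k) z) (hP : (K z).PosDef) (l p : ι) :
    dzM l (Acn K p) z - dzM p (Acn K l) z + (Acn K l z * Acn K p z - Acn K p z * Acn K l z) = 0 := by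
  exact acn_flat_two (fun j k => (hK j k).of_le lv_two_le_infty) hP l p

/-- (S2) -/
theorem fcv_bianchi (hK : ∀ j k, ContDiffAt ℝ ∞ (fun w => K w j k) z)
    (hP : ∀ᶠ w in 𝓝 z, (K w).PosDef) (q l p : ι) :
    dzM l (Fcv K q p) z + (Acn K l z * Fcv K q p z - Fcv K q p z * Acn K l z)
      = dzM p (Fcv K q l) z + (Acn K p z * Fcv K q l z - Fcv K q l z * Acn K p z) := by
  have hP0 : (K z).PosDef := hP.self_of_nhds
  have ev2 : ∀ᶠ w in 𝓝 z, ∀ j k, ContDiffAt ℝ 2 (fun y => K y j k) w :=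
    Filter.eventually_all.2 fun j => Filter.eventually_all.2 fun k =>
      lv_eventually_contDiffAt ((hK j k).of_le lv_two_le_infty)
  have hA : ∀ l j k, ContDiffAt ℝ ∞ (fun w => Acn K l w j k) z := contDiffAt_Acn hK hP0
  have hA1 : ∀ l j k, DifferentiableAt ℝ (fun w => Acn K l w j k) z := fun l j k =>
    (hA l j k).differentiableAt (by simp)
  have hdA : ∀ l p j k, DifferentiableAt ℝ (fun w => dzM l (Acn K p) w j k) z := fun l p j k =>
    (contDiffAt_dzM (N := ∞) (hA p) (by simp) j k).differentiableAt (by simp)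
  have hzero : ∀ᶠ w in 𝓝 z, dzM l (Acn K p) w - dzM p (Acn K l) w
      + (Acn K l w * Acn K p w - Acn K p w * Acn K l w) = (0 : Matrix ι ι ℂ) := by
    filter_upwards [ev2, hP] with w h1 h2
    exact acn_flat_two h1 h2 l p
  have h := dzbM_congr (l := q) hzero
  have m1 := differentiableAt_matMul (hA1 l) (hA1 p)
  have m2 := differentiableAt_matMul (hA1 p) (hA1 l)
  have m3 : ∀ j k, DifferentiableAt ℝ
      (fun w => (dzM l (Acn K p) w - dzM p (Acn K l) w) j k) z := fun j k =>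
    (hdA l p j k).sub (hdA p l j k)
  have m4 : ∀ j k, DifferentiableAt ℝ
      (fun w => (Acn K l w * Acn K p w - Acn K p w * Acn K l w) j k) z := fun j k =>
    (m1 j k).sub (m2 j k)
  rw [dzbM_const, dzbM_add m3 m4, dzbM_sub (hdA l p) (hdA p l), dzbM_sub m1 m2,
    dzbM_mul (hA1 l) (hA1 p), dzbM_mul (hA1 p) (hA1 l),
    ← dzM_dzbM_comm (fun j k => (hA p j k).of_le lv_two_le_infty),
    ← dzM_dzbM_comm (fun j k => (hA l j k).of_le lv_two_le_infty)] at h
  have e1 : dzM l (dzbM q (Acn K p)) z = dzM l (Fcv K q p) z := rfl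
  have e2 : dzM p (dzbM q (Acn K l)) z = dzM p (Fcv K q l) z := rfl
  have e3 : ∀ l, dzbM q (Acn K l) z = Fcv K q l z := fun _ => rfl
  rw [e1, e2, e3, e3] at h
  rw [← sub_eq_zero, ← h]
  abel

theorem contDiffAt_Fcv (hK : ∀ j k, ContDiffAt ℝ ∞ (fun w => K w j k) z) (hP : (K z).PosDef)
    (q l j k : ι) : ContDiffAt ℝ ∞ (fun w => Fcv K q l w j k) z := by
  exact contDiffAt_dzbM (contDiffAt_Acn hK hP l) (by simp) j k

theorem contDiffAt_Rse (hK : ∀ j k, ContDiffAt ℝ ∞ (fun w => K w j k) z) (hP : (K z).PosDef)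
    (j k : ι) : ContDiffAt ℝ ∞ (fun w => Rse K w j k) z := by
  unfold Rse
  simp only [Matrix.sum_apply, Matrix.smul_apply, smul_eq_mul]
  exact ContDiffAt.sum fun p _ => ContDiffAt.sum fun q _ =>
    (contDiffAt_matInv hK (det_ne_zero_of_posDef hP) p q).mul (contDiffAt_Fcv hK hP q p j k)

theorem lapE_acn (hK : ∀ j k, ContDiffAt ℝ ∞ (fun w => K w j k) z)
    (hP : ∀ᶠ w in 𝓝 z, (K w).PosDef) (l : ι) :
    lapE K (Acn K) l z
      = dzM l (Rse K) z + (Acn K l z * Rse K z - Rse K z * Acn K l z)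
        - ∑ p, ∑ q, ∑ m, ((K z)⁻¹ p q * Tor K p l m z) • Fcv K q m z := by
  have hP0 : (K z).PosDef := hP.self_of_nhds
  have hK1 : ∀ j k, DifferentiableAt ℝ (fun w => K w j k) z := fun j k =>
    (hK j k).differentiableAt (by simp)
  have hG := differentiableAt_matInv hK1 (det_ne_zero_of_posDef hP0)
  have hF : ∀ q p j k, DifferentiableAt ℝ (fun w => Fcv K q p w j k) z := fun q p j k =>
    (contDiffAt_Fcv hK hP0 q p j k).differentiableAt (by simp)
  -- derivative of `Rse`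
  have s0 : ∀ p q j k, DifferentiableAt ℝ (fun w => ((K w)⁻¹ p q • Fcv K q p w) j k) z :=
    fun p q j k => (hG p q).mul (hF q p j k)
  have s1 : ∀ p j k, DifferentiableAt ℝ (fun w => (∑ q, (K w)⁻¹ p q • Fcv K q p w) j k) z := by
    intro p j k
    simp only [Matrix.sum_apply]
    exact DifferentiableAt.fun_sum fun q _ => s0 p q j k
  have hR : dzM l (Rse K) z = ∑ p, ∑ q, ((- (Acn K l z * (K z)⁻¹)) p q • Fcv K q p z
      + (K z)⁻¹ p q • dzM l (Fcv K q p) z) := by
    have : Rse K = fun w => ∑ p, ∑ q, (K w)⁻¹ p q • Fcv K q p w := rfl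
    rw [this, dzM_fsum Finset.univ _ fun p _ => s1 p]
    refine Finset.sum_congr rfl fun p _ => ?_
    rw [dzM_fsum Finset.univ _ fun q _ => s0 p q]
    refine Finset.sum_congr rfl fun q _ => ?_
    rw [dzM_smul (hG p q) (hF q p), ← dzM_inv_eq hK1 hP0]
    rfl
  have hnab : ∀ p q, nabE K p (fun l' w => barE q (Acn K) l' w) l z
      = dzM l (Fcv K q p) z + (Acn K l z * Fcv K q p z - Fcv K q p z * Acn K l z)
        - ∑ m, Acn K p z m l • Fcv K q m z := by
    intro p q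
    have := fcv_bianchi hK hP q l p
    rw [this]
    simp only [nabE, actE, barE]
    have e3 : ∀ l, dzbM q (Acn K l) z = Fcv K q l z := fun _ => rfl
    have e2 : dzM p (fun w => dzbM q (Acn K l) w) z = dzM p (Fcv K q l) z := rfl
    simp only [e3, e2]
    abel
  have hren : ∑ p, ∑ q, (Acn K l z * (K z)⁻¹) p q • Fcv K q p z
      = ∑ p, ∑ q, ∑ m, ((K z)⁻¹ p q * Acn K l z m p) • Fcv K q m z := by
    simp only [Matrix.mul_apply, Finset.sum_smul]
    calc ∑ p, ∑ q, ∑ m, (Acn K l z p m * (K z)⁻¹ m q) • Fcv K q p z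
        = ∑ p, ∑ m, ∑ q, (Acn K l z p m * (K z)⁻¹ m q) • Fcv K q p z :=
          Finset.sum_congr rfl fun p _ => Finset.sum_comm
      _ = ∑ m, ∑ p, ∑ q, (Acn K l z p m * (K z)⁻¹ m q) • Fcv K q p z := Finset.sum_comm
      _ = ∑ m, ∑ q, ∑ p, (Acn K l z p m * (K z)⁻¹ m q) • Fcv K q p z :=
          Finset.sum_congr rfl fun p _ => Finset.sum_comm
      _ = _ := by
          refine Finset.sum_congr rfl fun m _ => Finset.sum_congr rfl fun q _ =>
            Finset.sum_congr rfl fun p _ => ?_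
          rw [mul_comm]
  unfold lapE
  simp only [hnab]
  rw [hR]
  simp only [Rse, Tor, Matrix.neg_apply, neg_smul, smul_sub, smul_add, Finset.sum_add_distrib,
    Finset.sum_sub_distrib, Finset.sum_neg_distrib, Finset.mul_sum, Finset.sum_mul,
    Matrix.mul_smul, Matrix.smul_mul, mul_sub, sub_smul, Finset.smul_sum, smul_smul]
  rw [hren]
  abel

theorem lap_K (hK : ∀ j k, ContDiffAt ℝ ∞ (fun w => K w j k) z)
    (hP : ∀ᶠ w in 𝓝 z, (K w).PosDef) :
    ∑ p, ∑ q, (K z)⁻¹ p q • dzbM q (dzM p K) z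
      = (∑ p, ∑ q, (K z)⁻¹ p q • ((Acn K q z)ᴴ * K z * Acn K p z)) + K z * Rse K z := by
  have hP0 : (K z).PosDef := hP.self_of_nhds
  have hK1 : ∀ j k, DifferentiableAt ℝ (fun w => K w j k) z := fun j k =>
    (hK j k).differentiableAt (by simp)
  have hA1 : ∀ l j k, DifferentiableAt ℝ (fun w => Acn K l w j k) z := fun l j k =>
    (contDiffAt_Acn hK hP0 l j k).differentiableAt (by simp)
  have h1 : ∀ p q, dzbM q (dzM p K) z
      = (Acn K q z)ᴴ * K z * Acn K p z + K z * Fcv K q p z := by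
    intro p q
    have ev : ∀ᶠ w in 𝓝 z, dzM p K w = K w * Acn K p w := by
      filter_upwards [hP] with w hw
      unfold Acn
      rw [← Matrix.mul_assoc, mul_inv_cancel_of_posDef hw, Matrix.one_mul]
    rw [dzbM_congr ev, dzbM_mul hK1 (hA1 p), dzbM_eq_Acn_mul hK1 hP]
    rfl
  simp only [h1, smul_add, Finset.sum_add_distrib, Rse, Finset.mul_sum, Matrix.mul_smul]

end Static

section Time

variable {O : Set (ℝ × CE ι)} {K : ℝ → CE ι → Matrix ι ι ℂ} {t : ℝ} {z : CE ι}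

/-! ### B9-CAL-STR2 -/

/-! generic slice calculus -/

theorem slice_contDiffAt {Y : Type} [NormedAddCommGroup Y] [NormedSpace ℝ Y] (hO : IsOpen O)
    {f : ℝ → CE ι → Y} (hf : ContDiffOn ℝ ∞ (fun q : ℝ × CE ι => f q.1 q.2) O)
    (hq : (t, z) ∈ O) : ContDiffAt ℝ ∞ (f t) z :=
  (hf.contDiffAt (hO.mem_nhds hq)).comp z (contDiffAt_const.prodMk contDiffAt_id)

theorem slice_eventually_mem (hO : IsOpen O) (hq : (t, z) ∈ O) : ∀ᶠ w in 𝓝 z, (t, w) ∈ O :=
  (Continuous.prodMk_right t).continuousAt.eventually (hO.mem_nhds hq)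

theorem time_eventually_mem (hO : IsOpen O) (hq : (t, z) ∈ O) : ∀ᶠ r in 𝓝 t, (r, z) ∈ O :=
  (Continuous.prodMk_left z).continuousAt.eventually (hO.mem_nhds hq)

theorem dz_slice_eq (hO : IsOpen O) {f : ℝ → CE ι → ℂ}
    (hf : ContDiffOn ℝ ∞ (fun q : ℝ × CE ι => f q.1 q.2) O) (hq : (t, z) ∈ O) (l : ι) :
    dz l (f t) z = (1 / 2 : ℂ) * (Dd ((0 : ℝ), eb l) (fun q : ℝ × CE ι => f q.1 q.2) (t, z)
      - Complex.I * Dd ((0 : ℝ), Complex.I • eb l) (fun q : ℝ × CE ι => f q.1 q.2) (t, z)) := by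
  have hd : DifferentiableAt ℝ (fun q : ℝ × CE ι => f q.1 q.2) (t, z) :=
    (hf.contDiffAt (hO.mem_nhds hq)).differentiableAt (by simp)
  rw [Dd_slice hd, Dd_slice hd]
  rfl

theorem dzb_slice_eq (hO : IsOpen O) {f : ℝ → CE ι → ℂ}
    (hf : ContDiffOn ℝ ∞ (fun q : ℝ × CE ι => f q.1 q.2) O) (hq : (t, z) ∈ O) (l : ι) :
    dzb l (f t) z = (1 / 2 : ℂ) * (Dd ((0 : ℝ), eb l) (fun q : ℝ × CE ι => f q.1 q.2) (t, z)
      + Complex.I * Dd ((0 : ℝ), Complex.I • eb l) (fun q : ℝ × CE ι => f q.1 q.2) (t, z)) := by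
  have hd : DifferentiableAt ℝ (fun q : ℝ × CE ι => f q.1 q.2) (t, z) :=
    (hf.contDiffAt (hO.mem_nhds hq)).differentiableAt (by simp)
  rw [Dd_slice hd, Dd_slice hd]
  rfl

theorem deriv_slice_eq (hO : IsOpen O) {f : ℝ → CE ι → ℂ}
    (hf : ContDiffOn ℝ ∞ (fun q : ℝ × CE ι => f q.1 q.2) O) (hq : (t, z) ∈ O) :
    deriv (fun r => f r z) t = Dd tm (fun q : ℝ × CE ι => f q.1 q.2) (t, z) := by
  have hd : DifferentiableAt ℝ (fun q : ℝ × CE ι => f q.1 q.2) (t, z) :=
    (hf.contDiffAt (hO.mem_nhds hq)).differentiableAt (by simp)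
  exact (Dd_tm_eq_deriv hd).symm

theorem time_hasDerivAt_Dd {Y : Type} [NormedAddCommGroup Y] [NormedSpace ℝ Y] (hO : IsOpen O)
    {F : ℝ × CE ι → Y} (hF : ContDiffOn ℝ ∞ F O) (hq : (t, z) ∈ O) :
    HasDerivAt (fun r => F (r, z)) (Dd tm F (t, z)) t := by
  have hd : DifferentiableAt ℝ F (t, z) :=
    (hF.contDiffAt (hO.mem_nhds hq)).differentiableAt (by simp)
  have h1 : HasDerivAt (fun r : ℝ => (r, z)) ((1 : ℝ), (0 : CE ι)) t :=
    (hasDerivAt_id t).prodMk (hasDerivAt_const t z)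
  exact hd.hasFDerivAt.comp_hasDerivAt t h1

/-- generic regularity of slice derivatives, for a scalar function on space-time. -/
theorem contDiffOn_dz_slice (hO : IsOpen O) {f : ℝ → CE ι → ℂ}
    (hf : ContDiffOn ℝ ∞ (fun q : ℝ × CE ι => f q.1 q.2) O) (l : ι) :
    ContDiffOn ℝ ∞ (fun q : ℝ × CE ι => dz l (f q.1) q.2) O ∧
    ContDiffOn ℝ ∞ (fun q : ℝ × CE ι => dzb l (f q.1) q.2) O ∧
    ContDiffOn ℝ ∞ (fun q : ℝ × CE ι => deriv (fun r => f r q.2) q.1) O := by
  have c : ∀ v, ContDiffOn ℝ ∞ (Dd v (fun q : ℝ × CE ι => f q.1 q.2)) O := fun v =>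
    contDiffOn_Dd hO hf v
  have c1 : ContDiffOn ℝ ∞ (fun q : ℝ × CE ι => (1 / 2 : ℂ) *
      (Dd ((0 : ℝ), eb l) (fun q : ℝ × CE ι => f q.1 q.2) q
        - Complex.I * Dd ((0 : ℝ), Complex.I • eb l) (fun q : ℝ × CE ι => f q.1 q.2) q)) O :=
    contDiffOn_const.mul ((c _).sub (contDiffOn_const.mul (c _)))
  have c2 : ContDiffOn ℝ ∞ (fun q : ℝ × CE ι => (1 / 2 : ℂ) *
      (Dd ((0 : ℝ), eb l) (fun q : ℝ × CE ι => f q.1 q.2) q
        + Complex.I * Dd ((0 : ℝ), Complex.I • eb l) (fun q : ℝ × CE ι => f q.1 q.2) q)) O :=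
    contDiffOn_const.mul ((c _).add (contDiffOn_const.mul (c _)))
  refine ⟨c1.congr fun q hq => ?_, c2.congr fun q hq => ?_, (c tm).congr fun q hq => ?_⟩
  · exact dz_slice_eq hO hf (t := q.1) (z := q.2) hq l
  · exact dzb_slice_eq hO hf (t := q.1) (z := q.2) hq l
  · exact deriv_slice_eq hO hf (t := q.1) (z := q.2) hq

/-- `∂_t ∂_l = ∂_l ∂_t`. -/
theorem hasDerivAt_dz_slice (hO : IsOpen O) {f : ℝ → CE ι → ℂ}
    (hf : ContDiffOn ℝ ∞ (fun q : ℝ × CE ι => f q.1 q.2) O) (hq : (t, z) ∈ O) (l : ι) :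
    HasDerivAt (fun r => dz l (f r) z) (dz l (fun w => deriv (fun r => f r w) t) z) t ∧
    HasDerivAt (fun r => dzb l (f r) z) (dzb l (fun w => deriv (fun r => f r w) t) z) t := by
  have hFq : ContDiffAt ℝ ∞ (fun q : ℝ × CE ι => f q.1 q.2) (t, z) :=
    hf.contDiffAt (hO.mem_nhds hq)
  have c : ∀ v, ContDiffOn ℝ ∞ (Dd v (fun q : ℝ × CE ι => f q.1 q.2)) O := fun v =>
    contDiffOn_Dd hO hf v
  have d : ∀ v, HasDerivAt (fun r => Dd v (fun q : ℝ × CE ι => f q.1 q.2) (r, z))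
      (Dd v (Dd tm (fun q : ℝ × CE ι => f q.1 q.2)) (t, z)) t := by
    intro v
    have := time_hasDerivAt_Dd hO (c v) hq
    rwa [Dd_comm hFq] at this
  have hder : (fun w => deriv (fun r => f r w) t)
      =ᶠ[𝓝 z] fun w => Dd tm (fun q : ℝ × CE ι => f q.1 q.2) (t, w) := by
    filter_upwards [slice_eventually_mem hO hq] with w hw
    exact deriv_slice_eq hO hf hw
  have e1 := dz_slice_eq hO (f := fun r w => Dd tm (fun q : ℝ × CE ι => f q.1 q.2) (r, w))
    (c tm) hq l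
  have e2 := dzb_slice_eq hO (f := fun r w => Dd tm (fun q : ℝ × CE ι => f q.1 q.2) (r, w))
    (c tm) hq l
  constructor
  · rw [dz_congr hder, e1]
    refine (((d _).sub ((d _).const_mul Complex.I)).const_mul (1 / 2 : ℂ)).congr_of_eventuallyEq ?_
    filter_upwards [time_eventually_mem hO hq] with r hr
    exact dz_slice_eq hO hf hr l
  · rw [dzb_congr hder, e2]
    refine (((d _).add ((d _).const_mul Complex.I)).const_mul (1 / 2 : ℂ)).congr_of_eventuallyEq ?_
    filter_upwards [time_eventually_mem hO hq] with r hr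
    exact dzb_slice_eq hO hf hr l

theorem SPD.slice_smooth (h : SPD O K) (hq : (t, z) ∈ O) (j k : ι) :
    ContDiffAt ℝ ∞ (fun w => K t w j k) z := by
  exact slice_contDiffAt h.isOpen (f := fun r w => K r w j k) (h.smooth j k) hq

theorem SPD.slice_posDef (h : SPD O K) (hq : (t, z) ∈ O) : ∀ᶠ w in 𝓝 z, (K t w).PosDef := by
  filter_upwards [slice_eventually_mem h.isOpen hq] with w hw
  exact h.posDef _ hw

theorem SPD.time_hasDerivAt (h : SPD O K) (hq : (t, z) ∈ O) (j k : ι) :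
    HasDerivAt (fun r => K r z j k) (dtM K t z j k) t := by
  have := time_hasDerivAt_Dd h.isOpen (h.smooth j k) hq
  have e : dtM K t z j k = Dd tm (fun q : ℝ × CE ι => K q.1 q.2 j k) (t, z) := this.deriv
  rw [e]; exact this

theorem SPD.dtM_contDiffOn (h : SPD O K) (j k : ι) :
    ContDiffOn ℝ ∞ (fun q : ℝ × CE ι => dtM K q.1 q.2 j k) O := by
  exact (contDiffOn_dz_slice h.isOpen (f := fun r w => K r w j k) (h.smooth j k) j).2.2

theorem SPD.dzM_contDiffOn (h : SPD O K) (l j k : ι) :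
    ContDiffOn ℝ ∞ (fun q : ℝ × CE ι => dzM l (K q.1) q.2 j k) O := by
  exact (contDiffOn_dz_slice h.isOpen (f := fun r w => K r w j k) (h.smooth j k) l).1

theorem SPD.dzbM_contDiffOn (h : SPD O K) (l j k : ι) :
    ContDiffOn ℝ ∞ (fun q : ℝ × CE ι => dzbM l (K q.1) q.2 j k) O := by
  exact (contDiffOn_dz_slice h.isOpen (f := fun r w => K r w j k) (h.smooth j k) l).2.1

theorem SPD.Acn_contDiffOn (h : SPD O K) (l j k : ι) :
    ContDiffOn ℝ ∞ (fun q : ℝ × CE ι => Acn (K q.1) l q.2 j k) O := by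
  exact contDiffOn_matMul (contDiffOn_matInv_of_posDef h.smooth h.posDef) (h.dzM_contDiffOn l) j k

theorem SPD.Scal_contDiffOn (h : SPD O K) :
    ContDiffOn ℝ ∞ (fun q : ℝ × CE ι => Scal (K q.1) q.2) O := by
  unfold Scal pairE
  have hG := contDiffOn_matInv_of_posDef h.smooth h.posDef
  have hA := h.Acn_contDiffOn
  refine Complex.reCLM.contDiff.comp_contDiffOn ?_
  exact ContDiffOn.sum fun l _ => ContDiffOn.sum fun m _ => (hG l m).mul
    (contDiffOn_matTrace (contDiffOn_matMul (contDiffOn_matMul (contDiffOn_matMul hG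
      (contDiffOn_conjTranspose (hA m))) h.smooth) (hA l)))

theorem SPD.trace_contDiffOn (h : SPD O K) :
    ContDiffOn ℝ ∞ (fun q : ℝ × CE ι => (K q.1 q.2).trace.re) O := by
  exact Complex.reCLM.contDiff.comp_contDiffOn (contDiffOn_matTrace h.smooth)

theorem SPD.Een_slice_smooth (h : SPD O K) (hq : (t, z) ∈ O) (j k : ι) :
    ContDiffAt ℝ ∞ (fun w => Een K t w j k) z := by
  have h1 : ContDiffOn ℝ ∞ (fun q : ℝ × CE ι => Een K q.1 q.2 j k) O :=
    contDiffOn_matMul (contDiffOn_matInv_of_posDef h.smooth h.posDef) h.dtM_contDiffOn j k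
  exact slice_contDiffAt h.isOpen (f := fun r w => Een K r w j k) h1 hq

theorem SPD.Tdf_slice_smooth (h : SPD O K) (hq : (t, z) ∈ O) (j k : ι) :
    ContDiffAt ℝ ∞ (fun w => Tdf K t w j k) z := by
  exact (h.Een_slice_smooth hq j k).sub
    (contDiffAt_Rse (h.slice_smooth hq) (h.posDef _ hq) j k)

/-- (S3) -/
theorem acn_hasDerivAt (h : SPD O K) (hq : (t, z) ∈ O) (l j k : ι) :
    HasDerivAt (fun r => Acn (K r) l z j k)
      ((dzM l (Een K t) z + (Acn (K t) l z * Een K t z - Een K t z * Acn (K t) l z)) j k) t := by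
  have hP0 : (K t z).PosDef := h.posDef _ hq
  have hG := hasDerivAt_matInv (h.time_hasDerivAt hq) (det_ne_zero_of_posDef hP0)
  have hd : ∀ j k, HasDerivAt (fun r => dzM l (K r) z j k) (dzM l (dtM K t) z j k) t := fun j k =>
    (hasDerivAt_dz_slice h.isOpen (f := fun r w => K r w j k) (h.smooth j k) hq l).1
  have hm := hasDerivAt_matMul hG hd j k
  have hK1 : ∀ j k, DifferentiableAt ℝ (fun w => K t w j k) z := fun j k =>
    (h.slice_smooth hq j k).differentiableAt (by simp)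
  have hE1 : ∀ j k, DifferentiableAt ℝ (fun w => Een K t w j k) z := fun j k =>
    (h.Een_slice_smooth hq j k).differentiableAt (by simp)
  have ev : ∀ᶠ w in 𝓝 z, dtM K t w = K t w * Een K t w := by
    filter_upwards [h.slice_posDef hq] with w hw
    unfold Een
    rw [← Matrix.mul_assoc, mul_inv_cancel_of_posDef hw, Matrix.one_mul]
  have e1 : dzM l (dtM K t) z = dzM l (K t) z * Een K t z + K t z * dzM l (Een K t) z := by
    rw [dzM_congr ev, dzM_mul hK1 hE1]
  have heq : -((K t z)⁻¹ * dtM K t z * (K t z)⁻¹) * dzM l (K t) z + (K t z)⁻¹ * dzM l (dtM K t) z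
      = dzM l (Een K t) z + (Acn (K t) l z * Een K t z - Een K t z * Acn (K t) l z) := by
    rw [e1]
    simp only [Acn, Een, Matrix.mul_add, Matrix.neg_mul]
    rw [← Matrix.mul_assoc (K t z)⁻¹ (K t z), inv_mul_cancel_of_posDef hP0, Matrix.one_mul]
    simp only [Matrix.mul_assoc]
    abel
  rw [heq] at hm
  exact hm

/-! ### B9-CAL-ID -/

/-- **Calabi's identity**, for any smooth positive definite `K(t,z)`. -/
theorem calabi_identity (h : SPD O K) (hq : (t, z) ∈ O) :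
    deriv (fun r => Scal (K r) z) t - Lcx (K t z)⁻¹ z (Scal (K t))
      = 2 * (pairE (K t z) (Ncal K t z) (fun l => Acn (K t) l z)).re
        + (pairE (K t z) (actE (Tdf K t z) (fun l => Acn (K t) l z)) (fun l => Acn (K t) l z)).re
        - Ycal (K t) z := by
  have hP0 : (K t z).PosDef := h.posDef _ hq
  have hKs := h.slice_smooth hq
  have hPs := h.slice_posDef hq
  have hD3 := pairE_hasDerivAt (Km := fun r => K r z) (Bt := fun l r => Acn (K r) l z)
    (Ct := fun l r => Acn (K r) l z) (h.time_hasDerivAt hq) hP0 (acn_hasDerivAt h hq)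
    (acn_hasDerivAt h hq)
  have hre := (Complex.reCLM.hasFDerivAt.comp_hasDerivAt t hD3).deriv
  have e0 : deriv (fun r => Scal (K r) z) t = deriv (Complex.reCLM ∘ fun r =>
      pairE (K r z) (fun l => Acn (K r) l z) (fun l => Acn (K r) l z)) t := rfl
  rw [e0, hre]
  have hb := bochnerE hKs hPs (contDiffAt_Acn hKs hP0)
  have e1 : Lcx (K t z)⁻¹ z (Scal (K t)) = Lcx (K t z)⁻¹ z
      (fun w => (pairE (K t w) (fun l => Acn (K t) l w) (fun l => Acn (K t) l w)).re) := rfl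
  rw [e1, hb]
  have hE1 : ∀ j k, DifferentiableAt ℝ (fun w => Een K t w j k) z := fun j k =>
    (h.Een_slice_smooth hq j k).differentiableAt (by simp)
  have hR1 : ∀ j k, DifferentiableAt ℝ (fun w => Rse (K t) w j k) z := fun j k =>
    (contDiffAt_Rse hKs hP0 j k).differentiableAt (by simp)
  have hN : Ncal K t z = fun l => (dzM l (Een K t) z
      + (Acn (K t) l z * Een K t z - Een K t z * Acn (K t) l z)) - lapE (K t) (Acn (K t)) l z := by
    funext l
    rw [lapE_acn hKs hPs l]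
    have : Tdf K t = fun w => Een K t w - Rse (K t) w := rfl
    unfold Ncal
    rw [this, dzM_sub hE1 hR1]
    simp only [Matrix.mul_sub, Matrix.sub_mul]
    abel
  have hT : actE (Tdf K t z) (fun l => Acn (K t) l z)
      = fun l => actE (Een K t z) (fun l => Acn (K t) l z) l
        - actE (Rse (K t) z) (fun l => Acn (K t) l z) l := by
    funext l
    exact actE_sub _ _ _ _
  rw [hN, hT, pairE_sub_left, pairE_sub_left]
  have hc := pairE_conj (K t z) hP0.isHermitian (fun l => Acn (K t) l z)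
    (fun l => dzM l (Een K t) z + (Acn (K t) l z * Een K t z - Een K t z * Acn (K t) l z))
  have hc' : (pairE (K t z) (fun l => Acn (K t) l z)
      (fun l => dzM l (Een K t) z + (Acn (K t) l z * Een K t z - Een K t z * Acn (K t) l z))).re
      = (pairE (K t z) (fun l => dzM l (Een K t) z
        + (Acn (K t) l z * Een K t z - Een K t z * Acn (K t) l z)) (fun l => Acn (K t) l z)).re := by
    rw [← hc]; exact (Complex.conj_re _).symm
  simp only [Complex.reCLM_apply, Complex.add_re, Complex.sub_re, Ycal]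
  rw [hc']
  have e5 : (K t z)⁻¹ * dtM K t z = Een K t z := rfl
  rw [e5]
  ring

/-- evolution of the trace. -/
theorem trace_identity (h : SPD O K) (hq : (t, z) ∈ O) :
    deriv (fun r => (K r z).trace.re) t - Lcx (K t z)⁻¹ z (fun w => (K t w).trace.re)
      = (K t z * Tdf K t z).trace.re - Str (K t) z := by
  have hP0 : (K t z).PosDef := h.posDef _ hq
  have hKs := h.slice_smooth hq
  have hPs := h.slice_posDef hq
  have hK2 : ∀ j k, ContDiffAt ℝ 2 (fun w => K t w j k) z := fun j k =>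
    (hKs j k).of_le lv_two_le_infty
  have evK : ∀ᶠ w in 𝓝 z, ∀ j k, DifferentiableAt ℝ (fun y => K t y j k) w :=
    Filter.eventually_all.2 fun j => Filter.eventually_all.2 fun k =>
      lv_eventually_differentiableAt (hK2 j k)
  -- time derivative
  have hdt := (Complex.reCLM.hasFDerivAt.comp_hasDerivAt t
    (hasDerivAt_matTrace' (h.time_hasDerivAt hq))).deriv
  have e0 : deriv (fun r => (K r z).trace.re) t
      = deriv (Complex.reCLM ∘ fun r => (K r z).trace) t := rfl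
  rw [e0, hdt]
  -- the Levi matrix of the trace
  have hreal : (fun w => (((K t w).trace.re : ℝ) : ℂ)) =ᶠ[𝓝 z] fun w => (K t w).trace := by
    filter_upwards [hPs] with w hw
    apply Complex.conj_eq_iff_re.1
    have : star (K t w).trace = (K t w).trace := by
      rw [← Matrix.trace_conjTranspose, hw.isHermitian.eq]
    exact this
  have hdz : ∀ p, dz p (fun w => (((K t w).trace.re : ℝ) : ℂ))
      =ᶠ[𝓝 z] fun w => (dzM p (K t) w).trace := by
    intro p
    filter_upwards [hreal.eventually_nhds, evK] with w h1 h2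
    rw [dz_congr h1]
    exact dz_matTrace h2
  have hlevi : ∀ q p, levi (fun w => (K t w).trace.re) z q p
      = (dzbM q (dzM p (K t)) z).trace := by
    intro q p
    rw [levi_apply, dzb_congr (hdz p)]
    exact dzb_matTrace fun j k =>
      (contDiffAt_dzM (N := 1) hK2 (by norm_num) j k).differentiableAt (by norm_num)
  have htr : ((K t z)⁻¹ * levi (fun w => (K t w).trace.re) z).trace
      = (∑ p, ∑ q, (K t z)⁻¹ p q • dzbM q (dzM p (K t)) z).trace := by
    simp only [Matrix.trace_sum, Matrix.trace_smul, smul_eq_mul, ← hlevi]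
    simp only [Matrix.trace, Matrix.diag, Matrix.mul_apply]
  unfold Lcx
  rw [htr, lap_K hKs hPs]
  have e5 : dtM K t z = K t z * Een K t z := by
    unfold Een
    rw [← Matrix.mul_assoc, mul_inv_cancel_of_posDef hP0, Matrix.one_mul]
  rw [e5]
  simp only [Tdf, Str, Matrix.mul_sub, Matrix.trace_sub, Matrix.trace_add, Matrix.trace_sum,
    Matrix.trace_smul, smul_eq_mul, Complex.reCLM_apply, Complex.add_re, Complex.sub_re]
  ring

end Time

end Claimed.Agent.R316.B9
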