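import Claimed.Agent.R316.B9.CalStr
import Claimed.Agent.R316.B9.CalNorm

/-!
# Row 316, package B9: the torsion terms of the Chern-Ricci flow in a chart

Setting: `h : CRC O K τ Λ Bτ`, `0 < Λ`, `(t, z) ∈ O`;  `G = (K t z)⁻¹`, `A_l = Acn (K t) l`, `S = Scal (K t) z`, `Y = Ycal (K t) z`.
`τ j k l = ∂_l K_{jk} - ∂_k K_{jl}`.

## Identities (checked numerically)
* `tor_eq`:  `Tor p l m = ∑_a G m a τ_{a l p}`.
* `tdf_eq`:  `𝒯 = Tdf K t z = G * Ytor`,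
  `Ytor j k = ∑_{m,b} G m b (∂_m \bar τ_{k b j} - ∑_c \bar τ_{c b j} (A_m)_{c k}) + ∂̄_j w_k`, `w_k = ∑_{m,i} G m i τ_{i m k}`.
  PROOF.  `K E = ∂_t K`, `(∂_t K)_{jk} = ∂̄_j ∂_k log det K = ∂̄_j tr A_k` (`dz_logDet`), `tr A_k = ∑ G m i ∂_k K_{i m} = ∑_m (A_m)_{m k} + w_k`, so
  `(∂_t K)_{jk} = ∑_m (F_{j m})_{m k} + ∂̄_j w_k = ∑ G m b R_{j m; b k} + ∂̄_j w_k` with `R_{q p; j k} := (K F_{q p})_{j k} = ∂̄_q ∂_p K_{jk} - (A_qᴴ K A_p)_{jk}`, while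
  `(K Rse)_{jk} = ∑ G m b R_{b m; j k}`.  Finally `∂̄_j K_{b c} - ∂̄_b K_{j c} = conj (∂_j K_{c b} - ∂_b K_{c j}) = \bar τ_{c b j}` gives
  `R_{j m; b k} - R_{b m; j k} = ∂_m \bar τ_{k b j} - ∑_c \bar τ_{c b j} (A_m)_{c k}` (`A_jᴴ K = ∂̄_j K`).

## Order calculus
`Od0 σ g z C`: `|g z| ≤ C`, `|∂_l g z| ≤ C (1 + σ)`;   `Od1 σ υ g z C`: `|g z| ≤ C (1 + σ)`, `|∂_l g z| ≤ C (1 + σ² + υ)`   (`σ = √S`, `υ = √Y`).
`Od0 * Od0 = Od0`, `Od0 * Od1 = Od1`, finite sums.  Entries of `G`, `τ`, `\bar τ` are `Od0`; entries of `A_m`, `∂̄_j G`, `∂ \bar τ`, `∂̄ τ` are `Od1`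
(`∂_l G = - A_l G`, `∂_l ∂̄_j G = A_l G A_jᴴ - G F_{l j}ᴴ`, `|∂_l A_m| ≤ |∇_l A_m| + 3 n |A|²`).  Hence the entries of `𝒯` are `Od1` (`tdf_od1`).

Leaves: **B9-CAL-T1** (`norm_dz_le`, …, `CRC.*` basics, `tor_eq`, `tor_entry_le`), **B9-CAL-T2** (`tdf_eq`), **B9-CAL-T3** (`Od0`/`Od1` calculus),
**B9-CAL-T4** (`acn_entry_le`, `fcv_entry_le`, `nab_entry_le`, `dz_acn_entry_le`, `ycal_nonneg`), **B9-CAL-T5** (`od0_G`, `od0_tau`, `od1_acn`, `od1_dtau`, `od1_dzbG`),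
**B9-CAL-T6** (`tdf_od1`, `ncal_entry_le`).
-/

set_option autoImplicit false
open scoped ContDiff ComplexOrder Topology Matrix

namespace Claimed.Agent.R316.B9

variable {ι : Type} [Fintype ι] [DecidableEq ι]

/-- `w_k = ∑ G m i τ_{i m k}`. -/
noncomputable def wT (K : CE ι → Matrix ι ι ℂ) (τ : CE ι → ι → ι → ι → ℂ) (k : ι) (z : CE ι) : ℂ :=
  ∑ m, ∑ i, (K z)⁻¹ m i * τ z i m k

/-- `K 𝒯`. -/
noncomputable def Ytor (K : CE ι → Matrix ι ι ℂ) (τ : CE ι → ι → ι → ι → ℂ) (z : CE ι) :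
    Matrix ι ι ℂ := fun j k =>
  (∑ m, ∑ b, (K z)⁻¹ m b *
    (dz m (fun y => star (τ y k b j)) z - ∑ c, star (τ z c b j) * Acn K m z c k))
  + dzb j (wT K τ k) z

/-! ### B9-CAL-T1 -/

section Wirt

variable {f : CE ι → ℂ} {z : CE ι}

theorem b9_norm_eb (j : ι) : ‖(eb j : CE ι)‖ = 1 := by
  simp [eb]

theorem norm_half_sub {x y : ℂ} {M : ℝ} (hx : ‖x‖ ≤ M) (hy : ‖y‖ ≤ M) :
    ‖(1 / 2 : ℂ) * (x - Complex.I * y)‖ ≤ M := by
  have h3 : ‖x - Complex.I * y‖ ≤ ‖x‖ + ‖y‖ := by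
    refine (norm_sub_le _ _).trans ?_
    rw [norm_mul, Complex.norm_I, one_mul]
  have h4 : ‖(1 / 2 : ℂ)‖ = 1 / 2 := by norm_num
  rw [norm_mul, h4]
  linarith

theorem norm_half_add {x y : ℂ} {M : ℝ} (hx : ‖x‖ ≤ M) (hy : ‖y‖ ≤ M) :
    ‖(1 / 2 : ℂ) * (x + Complex.I * y)‖ ≤ M := by
  have h3 : ‖x + Complex.I * y‖ ≤ ‖x‖ + ‖y‖ := by
    refine (norm_add_le _ _).trans ?_
    rw [norm_mul, Complex.norm_I, one_mul]
  have h4 : ‖(1 / 2 : ℂ)‖ = 1 / 2 := by norm_num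
  rw [norm_mul, h4]
  linarith

theorem norm_fd_eb {Y : Type} [NormedAddCommGroup Y] [NormedSpace ℝ Y] (T : CE ι →L[ℝ] Y) (l : ι) :
    ‖T (eb l)‖ ≤ ‖T‖ ∧ ‖T (Complex.I • eb l)‖ ≤ ‖T‖ := by
  constructor
  · have := T.le_opNorm (eb l)
    rwa [b9_norm_eb, mul_one] at this
  · have := T.le_opNorm (Complex.I • eb l)
    rwa [norm_smul, b9_norm_eb, Complex.norm_I, mul_one, mul_one] at this

theorem norm_dz_le (l : ι) : ‖dz l f z‖ ≤ ‖iteratedFDeriv ℝ 1 f z‖ := by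
  rw [norm_iteratedFDeriv_one, dz_def]
  exact norm_half_sub (norm_fd_eb _ l).1 (norm_fd_eb _ l).2

theorem norm_dzb_le (l : ι) : ‖dzb l f z‖ ≤ ‖iteratedFDeriv ℝ 1 f z‖ := by
  rw [norm_iteratedFDeriv_one, dzb_def]
  exact norm_half_add (norm_fd_eb _ l).1 (norm_fd_eb _ l).2

theorem norm_dz_dz_le (hf : ContDiffAt ℝ ∞ f z) (a b : ι) :
    ‖dz a (fun w => dz b f w) z‖ ≤ ‖iteratedFDeriv ℝ 2 f z‖ ∧
    ‖dz a (fun w => dzb b f w) z‖ ≤ ‖iteratedFDeriv ℝ 2 f z‖ ∧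
    ‖dzb a (fun w => dz b f w) z‖ ≤ ‖iteratedFDeriv ℝ 2 f z‖ ∧
    ‖dzb a (fun w => dzb b f w) z‖ ≤ ‖iteratedFDeriv ℝ 2 f z‖ := by
  have h2 : ContDiffAt ℝ 2 f z := hf.of_le lv_two_le_infty
  have e : ‖iteratedFDeriv ℝ 2 f z‖ = ‖fderiv ℝ (fderiv ℝ f) z‖ := by
    rw [show (2 : ℕ) = 1 + 1 from rfl, ← norm_iteratedFDeriv_fderiv, norm_iteratedFDeriv_one]
  rw [e]
  have bb : ∀ u ∈ ({eb a, Complex.I • eb a} : Set (CE ι)), ∀ v ∈ ({eb b, Complex.I • eb b} : Set (CE ι)),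
      ‖fderiv ℝ (fderiv ℝ f) z u v‖ ≤ ‖fderiv ℝ (fderiv ℝ f) z‖ := by
    intro u hu v hv
    have hu1 : ‖fderiv ℝ (fderiv ℝ f) z u‖ ≤ ‖fderiv ℝ (fderiv ℝ f) z‖ := by
      rcases hu with rfl | rfl
      · exact (norm_fd_eb _ a).1
      · exact (norm_fd_eb _ a).2
    refine le_trans ?_ hu1
    rcases hv with rfl | rfl
    · exact (norm_fd_eb _ b).1
    · exact (norm_fd_eb _ b).2
  have b1 := bb (eb a) (by simp) (eb b) (by simp)
  have b2 := bb (eb a) (by simp) (Complex.I • eb b) (by simp)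
  have b3 := bb (Complex.I • eb a) (by simp) (eb b) (by simp)
  have b4 := bb (Complex.I • eb a) (by simp) (Complex.I • eb b) (by simp)
  refine ⟨?_, ?_, ?_, ?_⟩
  · rw [dz_def a, show (fun w => dz b f w) = dz b f from rfl, fderiv_dz_apply h2, fderiv_dz_apply h2]
    exact norm_half_sub (norm_half_sub b1 b2) (norm_half_sub b3 b4)
  · rw [dz_def a, show (fun w => dzb b f w) = dzb b f from rfl, fderiv_dzb_apply h2,
      fderiv_dzb_apply h2]
    exact norm_half_sub (norm_half_add b1 b2) (norm_half_add b3 b4)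
  · rw [dzb_def a, show (fun w => dz b f w) = dz b f from rfl, fderiv_dz_apply h2,
      fderiv_dz_apply h2]
    exact norm_half_add (norm_half_sub b1 b2) (norm_half_sub b3 b4)
  · rw [dzb_def a, show (fun w => dzb b f w) = dzb b f from rfl, fderiv_dzb_apply h2,
      fderiv_dzb_apply h2]
    exact norm_half_add (norm_half_add b1 b2) (norm_half_add b3 b4)

end Wirt

variable {O : Set (ℝ × CE ι)} {K : ℝ → CE ι → Matrix ι ι ℂ} {τ : CE ι → ι → ι → ι → ℂ}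
  {Λ : ℝ} {Bτ : ℕ → ℝ} {t : ℝ} {z : CE ι}

theorem CRC.pin (h : CRC O K τ Λ Bτ) (hq : (t, z) ∈ O) : Pin (K t z) Λ :=
  ⟨h.herm _ hq, h.lower _ hq, h.upper _ hq⟩

theorem CRC.toSPD (h : CRC O K τ Λ Bτ) (hΛ : 0 < Λ) : SPD O K :=
  ⟨h.isOpen, h.smooth, fun q hq => (Pin.posDef hΛ ⟨h.herm q hq, h.lower q hq, h.upper q hq⟩)⟩

theorem CRC.tau_smooth (h : CRC O K τ Λ Bτ) (hq : (t, z) ∈ O) (j k l : ι) :
    ContDiffAt ℝ ∞ (fun y => τ y j k l) z := by
  have hs : ∀ a b, ContDiffAt ℝ ∞ (fun y => K t y a b) z := fun a b =>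
    slice_contDiffAt h.isOpen (f := fun r y => K r y a b) (h.smooth a b) hq
  have h1 : ContDiffAt ℝ ∞ (fun y => dz l (fun y => K t y j k) y - dz k (fun y => K t y j l) y) z :=
    (contDiffAt_dz (hs j k) (by simp)).sub (contDiffAt_dz (hs j l) (by simp))
  refine h1.congr_of_eventuallyEq ?_
  filter_upwards [slice_eventually_mem h.isOpen hq] with w hw
  exact (h.tors _ hw j k l).symm

theorem CRC.eventually_mem (h : CRC O K τ Λ Bτ) (hq : (t, z) ∈ O) : ∀ᶠ w in 𝓝 z, (t, w) ∈ O := by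
  exact slice_eventually_mem h.isOpen hq

theorem tor_eq (h : CRC O K τ Λ Bτ) (hΛ : 0 < Λ) (hq : (t, z) ∈ O) (p l m : ι) :
    Tor (K t) p l m z = ∑ a, (K t z)⁻¹ m a * τ z a l p := by
  unfold Tor Acn
  simp only [Matrix.mul_apply, dzM_apply, ← Finset.sum_sub_distrib, ← mul_sub]
  refine Finset.sum_congr rfl fun a _ => ?_
  rw [← h.tors _ hq a l p]

theorem tor_entry_le (h : CRC O K τ Λ Bτ) (hΛ : 0 < Λ) (hq : (t, z) ∈ O) (p l m : ι) :
    ‖Tor (K t) p l m z‖ ≤ Fintype.card ι * (Λ * Bτ 0) := by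
  rw [tor_eq h hΛ hq]
  have hG := (h.pin hq).inv hΛ
  calc ‖∑ a, (K t z)⁻¹ m a * τ z a l p‖ ≤ ∑ _a : ι, Λ * Bτ 0 := by
        refine (norm_sum_le _ _).trans (Finset.sum_le_sum fun a _ => ?_)
        rw [norm_mul]
        have h0 := h.tbd _ hq 0 a l p
        rw [norm_iteratedFDeriv_zero] at h0
        exact mul_le_mul (hG.entry_le hΛ _ _) h0 (norm_nonneg _) hΛ.le
    _ = _ := by simp only [Finset.sum_const, Finset.card_univ, nsmul_eq_mul]

/-! ### B9-CAL-T2 -/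

section StaticTor

variable {Ks : CE ι → Matrix ι ι ℂ} {τ : CE ι → ι → ι → ι → ℂ} {z : CE ι}

/-- `F_{qp} = - G ∂̄_q K G ∂_p K + G ∂̄_q ∂_p K`. -/
theorem fcv_eq (hK : ∀ j k, ContDiffAt ℝ 2 (fun w => Ks w j k) z) (hP : (Ks z).PosDef) (q p : ι) :
    Fcv Ks q p z = - ((Ks z)⁻¹ * dzbM q Ks z * (Ks z)⁻¹ * dzM p Ks z)
      + (Ks z)⁻¹ * dzbM q (dzM p Ks) z := by
  have hK1 : ∀ j k, DifferentiableAt ℝ (fun w => Ks w j k) z := fun j k =>
    (hK j k).differentiableAt (by norm_num)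
  have hG := differentiableAt_matInv hK1 (det_ne_zero_of_posDef hP)
  have hd : ∀ j k, DifferentiableAt ℝ (fun w => dzM p Ks w j k) z := fun j k =>
    (contDiffAt_dzM (N := 1) hK (by norm_num) j k).differentiableAt (by norm_num)
  have : Fcv Ks q p z = dzbM q (fun w => (Ks w)⁻¹ * dzM p Ks w) z := rfl
  rw [this, dzbM_mul hG hd, dzbM_inv hK1 (det_ne_zero_of_posDef hP)]
  simp only [Matrix.neg_mul]

theorem K_mul_Rse (hK : ∀ j k, ContDiffAt ℝ 2 (fun w => Ks w j k) z) (hP : (Ks z).PosDef) :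
    Ks z * Rse Ks z = ∑ p, ∑ q, (Ks z)⁻¹ p q •
      (- (dzbM q Ks z * (Ks z)⁻¹ * dzM p Ks z) + dzbM q (dzM p Ks) z) := by
  have hu : IsUnit (Ks z).det := (det_ne_zero_of_posDef hP).isUnit
  unfold Rse
  simp only [Matrix.mul_sum, Matrix.mul_smul]
  refine Finset.sum_congr rfl fun p _ => Finset.sum_congr rfl fun q _ => ?_
  rw [fcv_eq hK hP, Matrix.mul_add, Matrix.mul_neg]
  simp only [← Matrix.mul_assoc, Matrix.mul_nonsing_inv _ hu, Matrix.one_mul]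

theorem star_tau_eq (hH : ∀ᶠ w in 𝓝 z, (Ks w).IsHermitian)
    (hτ : ∀ j k l, τ z j k l = dzM l Ks z j k - dzM k Ks z j l) (c b j : ι) :
    star (τ z c b j) = dzbM j Ks z b c - dzbM b Ks z j c := by
  rw [hτ, star_sub, ← conjTranspose_dzM_of_isHermitian hH, ← conjTranspose_dzM_of_isHermitian hH]
  rfl

theorem dz_star_tau (hK : ∀ j k, ContDiffAt ℝ ∞ (fun w => Ks w j k) z)
    (hH : ∀ᶠ w in 𝓝 z, (Ks w).IsHermitian)
    (hτ : ∀ᶠ w in 𝓝 z, ∀ j k l, τ w j k l = dzM l Ks w j k - dzM k Ks w j l) (m k b j : ι) :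
    dz m (fun y => star (τ y k b j)) z = dzbM j (dzM m Ks) z b k - dzbM b (dzM m Ks) z j k := by
  have hK2 : ∀ j k, ContDiffAt ℝ 2 (fun w => Ks w j k) z := fun j k =>
    (hK j k).of_le lv_two_le_infty
  have he : (fun y => star (τ y k b j)) =ᶠ[𝓝 z] fun y => dzbM j Ks y b k - dzbM b Ks y j k := by
    filter_upwards [hH.eventually_nhds, hτ] with w h1 h2
    exact star_tau_eq h1 h2 k b j
  have hd : ∀ l j k, DifferentiableAt ℝ (fun w => dzbM l Ks w j k) z := fun l j k =>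
    (contDiffAt_dzbM (N := 1) hK2 (by norm_num) j k).differentiableAt (by norm_num)
  rw [dz_congr he, dz_sub (hd j b k) (hd b j k), ← dzM_dzbM_comm hK2, ← dzM_dzbM_comm hK2]
  rfl

theorem dzb_tau (hK : ∀ j k, ContDiffAt ℝ ∞ (fun w => Ks w j k) z)
    (hτ : ∀ᶠ w in 𝓝 z, ∀ j k l, τ w j k l = dzM l Ks w j k - dzM k Ks w j l) (j i m k : ι) :
    dzb j (fun y => τ y i m k) z = dzbM j (dzM k Ks) z i m - dzbM j (dzM m Ks) z i k := by
  have hK2 : ∀ j k, ContDiffAt ℝ 2 (fun w => Ks w j k) z := fun j k =>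
    (hK j k).of_le lv_two_le_infty
  have he : (fun y => τ y i m k) =ᶠ[𝓝 z] fun y => dzM k Ks y i m - dzM m Ks y i k := by
    filter_upwards [hτ] with w h2
    exact h2 i m k
  have hd : ∀ l j k, DifferentiableAt ℝ (fun w => dzM l Ks w j k) z := fun l j k =>
    (contDiffAt_dzM (N := 1) hK2 (by norm_num) j k).differentiableAt (by norm_num)
  rw [dzb_congr he, dzb_sub (hd k i m) (hd m i k)]
  rfl

theorem tau_diff (hK : ∀ j k, ContDiffAt ℝ ∞ (fun w => Ks w j k) z)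
    (hτ : ∀ᶠ w in 𝓝 z, ∀ j k l, τ w j k l = dzM l Ks w j k - dzM k Ks w j l) (i m k : ι) :
    DifferentiableAt ℝ (fun y => τ y i m k) z := by
  have hK2 : ∀ j k, ContDiffAt ℝ 2 (fun w => Ks w j k) z := fun j k =>
    (hK j k).of_le lv_two_le_infty
  have he : (fun y => τ y i m k) =ᶠ[𝓝 z] fun y => dzM k Ks y i m - dzM m Ks y i k := by
    filter_upwards [hτ] with w h2
    exact h2 i m k
  have hd : ∀ l j k, DifferentiableAt ℝ (fun w => dzM l Ks w j k) z := fun l j k =>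
    (contDiffAt_dzM (N := 1) hK2 (by norm_num) j k).differentiableAt (by norm_num)
  exact ((hd k i m).sub (hd m i k)).congr_of_eventuallyEq he

/-- Leibniz rule for `∂̄_j w_k`. -/
theorem dzb_wT (hK : ∀ j k, DifferentiableAt ℝ (fun w => Ks w j k) z) (hP : (Ks z).PosDef)
    (hτ : ∀ i m k, DifferentiableAt ℝ (fun y => τ y i m k) z) (j k : ι) :
    dzb j (wT Ks τ k) z = ∑ m, ∑ i, (dzb j (fun w => (Ks w)⁻¹ m i) z * τ z i m k
      + (Ks z)⁻¹ m i * dzb j (fun y => τ y i m k) z) := by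
  have hG := differentiableAt_matInv hK (det_ne_zero_of_posDef hP)
  have : wT Ks τ k = fun w => ∑ m, ∑ i, (Ks w)⁻¹ m i * τ w i m k := rfl
  have d1 : ∀ m i, DifferentiableAt ℝ (fun w => (Ks w)⁻¹ m i * τ w i m k) z := fun m i =>
    (hG m i).mul (hτ i m k)
  have d2 : ∀ m, DifferentiableAt ℝ (fun w => ∑ i, (Ks w)⁻¹ m i * τ w i m k) z := fun m =>
    DifferentiableAt.fun_sum fun i _ => d1 m i
  rw [this, dzb_sum Finset.univ (fun m w => ∑ i, (Ks w)⁻¹ m i * τ w i m k) fun m _ => d2 m]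
  refine Finset.sum_congr rfl fun m _ => ?_
  rw [dzb_sum Finset.univ (fun i w => (Ks w)⁻¹ m i * τ w i m k) fun i _ => d1 m i]
  refine Finset.sum_congr rfl fun i _ => ?_
  rw [dzb_mul (hG m i) (hτ i m k)]

theorem ytor_alg (G : Matrix ι ι ℂ) (P Q : ι → Matrix ι ι ℂ) (M : ι → ι → Matrix ι ι ℂ) (j k : ι) :
    (∑ m, ∑ b, G m b * ((M j m b k - M b m j k) - ∑ c, (Q j b c - Q b j c) * (G * P m) c k))
      + ∑ m, ∑ i, ((-(G * Q j * G)) m i * (P k i m - P m i k) + G m i * (M j k i m - M j m i k))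
    = ((G * M j k).trace - (G * Q j * G * P k).trace)
      - (∑ p, ∑ q, G p q • (-(Q q * G * P p) + M q p)) j k := by
  have e1 : ∀ m, ∑ b, G m b * ((M j m b k - M b m j k) - ∑ c, (Q j b c - Q b j c) * (G * P m) c k)
      = (G * M j m) m k - ∑ b, G m b * M b m j k - (G * Q j * G * P m) m k
        + ∑ b, G m b * (Q b * G * P m) j k := by
    intro m
    have a1 : (G * M j m) m k = ∑ b, G m b * M j m b k := Matrix.mul_apply
    have a3 : ∀ b i, (Q b * G * P m) i k = ∑ c, Q b i c * (G * P m) c k := by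
      intro b i
      rw [Matrix.mul_assoc, Matrix.mul_apply]
    have a2 : (G * Q j * G * P m) m k = ∑ b, G m b * (Q j * G * P m) b k := by
      rw [Matrix.mul_assoc, Matrix.mul_assoc, ← Matrix.mul_assoc (Q j), Matrix.mul_apply]
    rw [a1, a2]
    simp only [a3]
    rw [← Finset.sum_sub_distrib, ← Finset.sum_sub_distrib, ← Finset.sum_add_distrib]
    refine Finset.sum_congr rfl fun b _ => ?_
    simp only [sub_mul, Finset.sum_sub_distrib]
    ring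
  have e2 : ∀ m, ∑ i, ((-(G * Q j * G)) m i * (P k i m - P m i k)
        + G m i * (M j k i m - M j m i k))
      = - (G * Q j * G * P k) m m + (G * Q j * G * P m) m k + (G * M j k) m m
        - (G * M j m) m k := by
    intro m
    have a1 : ∀ X : Matrix ι ι ℂ, ∀ a b, (G * Q j * G * X) a b = ∑ i, (G * Q j * G) a i * X i b :=
      fun X a b => Matrix.mul_apply
    have a2 : ∀ X : Matrix ι ι ℂ, ∀ a b, (G * X) a b = ∑ i, G a i * X i b :=
      fun X a b => Matrix.mul_apply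
    rw [a1, a1, a2 (M j k), a2 (M j m), ← Finset.sum_neg_distrib, ← Finset.sum_add_distrib,
      ← Finset.sum_add_distrib, ← Finset.sum_sub_distrib]
    refine Finset.sum_congr rfl fun i _ => ?_
    rw [Matrix.neg_apply]
    ring
  simp only [e1, e2]
  simp only [Matrix.trace, Matrix.diag, Matrix.sum_apply, Matrix.smul_apply, Matrix.add_apply,
    Matrix.neg_apply, smul_eq_mul]
  rw [← Finset.sum_add_distrib, ← Finset.sum_sub_distrib, ← Finset.sum_sub_distrib]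
  refine Finset.sum_congr rfl fun m _ => ?_
  simp only [mul_add, mul_neg, Finset.sum_add_distrib, Finset.sum_neg_distrib]
  ring

theorem ytor_eq (hK : ∀ j k, ContDiffAt ℝ ∞ (fun w => Ks w j k) z) (hP : (Ks z).PosDef)
    (hH : ∀ᶠ w in 𝓝 z, (Ks w).IsHermitian)
    (hτ : ∀ᶠ w in 𝓝 z, ∀ j k l, τ w j k l = dzM l Ks w j k - dzM k Ks w j l) (j k : ι) :
    Ytor Ks τ z j k = (((Ks z)⁻¹ * dzbM j (dzM k Ks) z).trace
        - ((Ks z)⁻¹ * dzbM j Ks z * (Ks z)⁻¹ * dzM k Ks z).trace) - (Ks z * Rse Ks z) j k := by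
  have hK2 : ∀ j k, ContDiffAt ℝ 2 (fun w => Ks w j k) z := fun j k =>
    (hK j k).of_le lv_two_le_infty
  have hK1 : ∀ j k, DifferentiableAt ℝ (fun w => Ks w j k) z := fun j k =>
    (hK j k).differentiableAt (by simp)
  rw [K_mul_Rse hK2 hP]
  refine Eq.trans ?_ (ytor_alg (Ks z)⁻¹ (fun l => dzM l Ks z) (fun l => dzbM l Ks z)
    (fun q p => dzbM q (dzM p Ks) z) j k)
  unfold Ytor
  rw [dzb_wT hK1 hP (tau_diff hK hτ)]
  simp only [dz_star_tau hK hH hτ, star_tau_eq hH hτ.self_of_nhds, dzb_tau hK hτ,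
    dzb_inv_apply hK1 (det_ne_zero_of_posDef hP), Acn, Matrix.neg_apply]
  simp only [hτ.self_of_nhds]

end StaticTor

theorem tdf_eq (h : CRC O K τ Λ Bτ) (hΛ : 0 < Λ) (hq : (t, z) ∈ O) :
    Tdf K t z = (K t z)⁻¹ * Ytor (K t) τ z := by
  have hS := h.toSPD hΛ
  have hK : ∀ j k, ContDiffAt ℝ ∞ (fun w => K t w j k) z := hS.slice_smooth hq
  have hK2 : ∀ j k, ContDiffAt ℝ 2 (fun w => K t w j k) z := fun j k =>
    (hK j k).of_le lv_two_le_infty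
  have hP : (K t z).PosDef := hS.posDef _ hq
  have hH : ∀ᶠ w in 𝓝 z, (K t w).IsHermitian := by
    filter_upwards [h.eventually_mem hq] with w hw
    exact h.herm _ hw
  have hτ : ∀ᶠ w in 𝓝 z, ∀ j k l, τ w j k l = dzM l (K t) w j k - dzM k (K t) w j l := by
    filter_upwards [h.eventually_mem hq] with w hw j k l
    exact (h.tors _ hw j k l).symm
  have hu : IsUnit (K t z).det := (det_ne_zero_of_posDef hP).isUnit
  have e : Ytor (K t) τ z = dtM K t z - K t z * Rse (K t) z := by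
    ext j k
    rw [ytor_eq hK hP hH hτ j k, Matrix.sub_apply]
    congr 1
    unfold dtM
    rw [h.flow _ hq j k]
    exact (levi_logDet hK2 hH hP).symm
  rw [e, Matrix.mul_sub, ← Matrix.mul_assoc, Matrix.nonsing_inv_mul _ hu, Matrix.one_mul]
  rfl

/-! ### B9-CAL-T3 -/

/-- order zero germs. -/
structure Od0 (σ : ℝ) (g : CE ι → ℂ) (z : CE ι) (C : ℝ) : Prop where
  diff : DifferentiableAt ℝ g z
  val : ‖g z‖ ≤ C
  der : ∀ l, ‖dz l g z‖ ≤ C * (1 + σ)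

/-- order one germs. -/
structure Od1 (σ υ : ℝ) (g : CE ι → ℂ) (z : CE ι) (C : ℝ) : Prop where
  diff : DifferentiableAt ℝ g z
  val : ‖g z‖ ≤ C * (1 + σ)
  der : ∀ l, ‖dz l g z‖ ≤ C * (1 + σ ^ 2 + υ)

section Od

variable {σ υ C C' : ℝ} {g g' : CE ι → ℂ}

theorem Od0.mono (h : Od0 σ g z C) (hσ : 0 ≤ σ) (hC : C ≤ C') : Od0 σ g z C' := by
  exact ⟨h.diff, h.val.trans hC,
    fun l => (h.der l).trans (mul_le_mul_of_nonneg_right hC (by linarith))⟩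

theorem Od1.mono (h : Od1 σ υ g z C) (hσ : 0 ≤ σ) (hυ : 0 ≤ υ) (hC : C ≤ C') : Od1 σ υ g z C' := by
  exact ⟨h.diff, h.val.trans (mul_le_mul_of_nonneg_right hC (by linarith)),
    fun l => (h.der l).trans (mul_le_mul_of_nonneg_right hC (by positivity))⟩

theorem Od0.congr (h : Od0 σ g z C) (he : g' =ᶠ[𝓝 z] g) : Od0 σ g' z C := by
  exact ⟨h.diff.congr_of_eventuallyEq he, by rw [he.eq_of_nhds]; exact h.val,
    fun l => by rw [dz_congr he]; exact h.der l⟩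

theorem Od1.congr (h : Od1 σ υ g z C) (he : g' =ᶠ[𝓝 z] g) : Od1 σ υ g' z C := by
  exact ⟨h.diff.congr_of_eventuallyEq he, by rw [he.eq_of_nhds]; exact h.val,
    fun l => by rw [dz_congr he]; exact h.der l⟩

theorem Od0.mul (h : Od0 σ g z C) (h' : Od0 σ g' z C') (hσ : 0 ≤ σ) :
    Od0 σ (fun w => g w * g' w) z (2 * (C * C')) := by
  have hC : 0 ≤ C := (norm_nonneg _).trans h.val
  have hC' : 0 ≤ C' := (norm_nonneg _).trans h'.val
  have hCC : 0 ≤ C * C' := mul_nonneg hC hC'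
  refine ⟨h.diff.mul h'.diff, ?_, fun l => ?_⟩
  · rw [norm_mul]
    have := mul_le_mul h.val h'.val (norm_nonneg _) hC
    linarith
  · rw [dz_mul h.diff h'.diff]
    refine (norm_add_le _ _).trans ?_
    rw [norm_mul, norm_mul]
    have h1 := mul_le_mul (h.der l) h'.val (norm_nonneg _) (by positivity)
    have h2 := mul_le_mul h.val (h'.der l) (norm_nonneg _) hC
    calc _ ≤ C * (1 + σ) * C' + C * (C' * (1 + σ)) := add_le_add h1 h2
      _ = _ := by ring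

theorem Od0.mul_od1 (h : Od0 σ g z C) (h' : Od1 σ υ g' z C') (hσ : 0 ≤ σ) (hυ : 0 ≤ υ) :
    Od1 σ υ (fun w => g w * g' w) z (4 * (C * C')) := by
  have hC : 0 ≤ C := (norm_nonneg _).trans h.val
  have hC' : 0 ≤ C' := by
    have := (norm_nonneg _).trans h'.val
    by_contra hn
    push Not at hn
    nlinarith
  have hCC : 0 ≤ C * C' := mul_nonneg hC hC'
  refine ⟨h.diff.mul h'.diff, ?_, fun l => ?_⟩
  · rw [norm_mul]
    have := mul_le_mul h.val h'.val (norm_nonneg _) hC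
    have h3 : 0 ≤ C * C' * (1 + σ) := by positivity
    calc _ ≤ C * (C' * (1 + σ)) := this
      _ ≤ _ := by nlinarith
  · rw [dz_mul h.diff h'.diff]
    refine (norm_add_le _ _).trans ?_
    rw [norm_mul, norm_mul]
    have h1 := mul_le_mul (h.der l) h'.val (norm_nonneg _) (by positivity)
    have h2 := mul_le_mul h.val (h'.der l) (norm_nonneg _) hC
    calc _ ≤ C * (1 + σ) * (C' * (1 + σ)) + C * (C' * (1 + σ ^ 2 + υ)) := add_le_add h1 h2
      _ = C * C' * ((1 + σ) ^ 2 + (1 + σ ^ 2 + υ)) := by ring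
      _ ≤ C * C' * (4 * (1 + σ ^ 2 + υ)) := by
        refine mul_le_mul_of_nonneg_left ?_ hCC
        nlinarith [sq_nonneg (1 - σ)]
      _ = _ := by ring

theorem Od0.toOd1 (h : Od0 σ g z C) (hσ : 0 ≤ σ) (hυ : 0 ≤ υ) : Od1 σ υ g z (2 * C) := by
  have hC : 0 ≤ C := (norm_nonneg _).trans h.val
  refine ⟨h.diff, h.val.trans ?_, fun l => (h.der l).trans ?_⟩
  · nlinarith [mul_nonneg hC hσ]
  · have : 1 + σ ≤ 2 * (1 + σ ^ 2 + υ) := by nlinarith [sq_nonneg (1 - σ)]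
    calc C * (1 + σ) ≤ C * (2 * (1 + σ ^ 2 + υ)) := mul_le_mul_of_nonneg_left this hC
      _ = _ := by ring

theorem Od1.add (h : Od1 σ υ g z C) (h' : Od1 σ υ g' z C') :
    Od1 σ υ (fun w => g w + g' w) z (C + C') := by
  refine ⟨h.diff.add h'.diff, ?_, fun l => ?_⟩
  · refine (norm_add_le _ _).trans ?_
    have := add_le_add h.val h'.val
    linarith
  · rw [dz_add h.diff h'.diff]
    refine (norm_add_le _ _).trans ?_
    have := add_le_add (h.der l) (h'.der l)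
    linarith

theorem Od1.sub (h : Od1 σ υ g z C) (h' : Od1 σ υ g' z C') :
    Od1 σ υ (fun w => g w - g' w) z (C + C') := by
  refine ⟨h.diff.sub h'.diff, ?_, fun l => ?_⟩
  · refine (norm_sub_le _ _).trans ?_
    have := add_le_add h.val h'.val
    linarith
  · rw [dz_sub h.diff h'.diff]
    refine (norm_sub_le _ _).trans ?_
    have := add_le_add (h.der l) (h'.der l)
    linarith

theorem Od1.sum {α : Type} (s : Finset α) {G : α → CE ι → ℂ} (h : ∀ a ∈ s, Od1 σ υ (G a) z C) :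
    Od1 σ υ (fun w => ∑ a ∈ s, G a w) z (s.card * C) := by
  refine ⟨DifferentiableAt.fun_sum fun a ha => (h a ha).diff, ?_, fun l => ?_⟩
  · refine (norm_sum_le _ _).trans ?_
    refine (Finset.sum_le_card_nsmul _ _ _ fun a ha => (h a ha).val).trans (le_of_eq ?_)
    rw [nsmul_eq_mul]; ring
  · rw [dz_sum s G fun a ha => (h a ha).diff]
    refine (norm_sum_le _ _).trans ?_
    refine (Finset.sum_le_card_nsmul _ _ _ fun a ha => (h a ha).der l).trans (le_of_eq ?_)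
    rw [nsmul_eq_mul]; ring

theorem Od0.sum {α : Type} (s : Finset α) {G : α → CE ι → ℂ} (h : ∀ a ∈ s, Od0 σ (G a) z C) :
    Od0 σ (fun w => ∑ a ∈ s, G a w) z (s.card * C) := by
  refine ⟨DifferentiableAt.fun_sum fun a ha => (h a ha).diff, ?_, fun l => ?_⟩
  · refine (norm_sum_le _ _).trans ?_
    refine (Finset.sum_le_card_nsmul _ _ _ fun a ha => (h a ha).val).trans (le_of_eq ?_)
    rw [nsmul_eq_mul]
  · rw [dz_sum s G fun a ha => (h a ha).diff]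
    refine (norm_sum_le _ _).trans ?_
    refine (Finset.sum_le_card_nsmul _ _ _ fun a ha => (h a ha).der l).trans (le_of_eq ?_)
    rw [nsmul_eq_mul]; ring

end Od

/-! ### B9-CAL-T4: entries in terms of `S`, `Y` (only `Pin`, smoothness; no flow) -/

theorem scal_nonneg {Ks : CE ι → Matrix ι ι ℂ} (hP : (Ks z).PosDef) : 0 ≤ Scal Ks z := by
  exact pairE_self_nonneg hP _

theorem ycal_lower {Ks : CE ι → Matrix ι ι ℂ} (hΛ : 0 < Λ) (hP : Pin (Ks z) Λ) :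
    Λ⁻¹ * ∑ p, ((pairE (Ks z) (fun l => nabE Ks p (Acn Ks) l z)
        (fun l => nabE Ks p (Acn Ks) l z)).re
      + (pairE (Ks z) (fun l => barE p (Acn Ks) l z) (fun l => barE p (Acn Ks) l z)).re)
      ≤ Ycal Ks z := by
  have h1 := gram_lower hΛ hP (fun p l => nabE Ks p (Acn Ks) l z)
  have h2 := gram_lower' hΛ hP (fun p l => barE p (Acn Ks) l z)
  unfold Ycal enE
  simp only [mul_add, Finset.sum_add_distrib, Complex.add_re]
  linarith

theorem ycal_lower_p {Ks : CE ι → Matrix ι ι ℂ} (hΛ : 0 < Λ) (hP : Pin (Ks z) Λ) (p : ι) :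
    (pairE (Ks z) (fun l => nabE Ks p (Acn Ks) l z) (fun l => nabE Ks p (Acn Ks) l z)).re
      ≤ Λ * Ycal Ks z ∧
    (pairE (Ks z) (fun l => barE p (Acn Ks) l z) (fun l => barE p (Acn Ks) l z)).re
      ≤ Λ * Ycal Ks z := by
  have h0 := ycal_lower hΛ hP
  have hn : ∀ p, 0 ≤ (pairE (Ks z) (fun l => nabE Ks p (Acn Ks) l z)
      (fun l => nabE Ks p (Acn Ks) l z)).re := fun p => pairE_self_nonneg (hP.posDef hΛ) _
  have hb : ∀ p, 0 ≤ (pairE (Ks z) (fun l => barE p (Acn Ks) l z)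
      (fun l => barE p (Acn Ks) l z)).re := fun p => pairE_self_nonneg (hP.posDef hΛ) _
  have h1 := Finset.single_le_sum (f := fun p =>
    (pairE (Ks z) (fun l => nabE Ks p (Acn Ks) l z) (fun l => nabE Ks p (Acn Ks) l z)).re
      + (pairE (Ks z) (fun l => barE p (Acn Ks) l z) (fun l => barE p (Acn Ks) l z)).re)
    (fun p _ => add_nonneg (hn p) (hb p)) (Finset.mem_univ p)
  have h2 : ∑ p, ((pairE (Ks z) (fun l => nabE Ks p (Acn Ks) l z)
        (fun l => nabE Ks p (Acn Ks) l z)).re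
      + (pairE (Ks z) (fun l => barE p (Acn Ks) l z) (fun l => barE p (Acn Ks) l z)).re)
      ≤ Λ * Ycal Ks z := by
    have := mul_le_mul_of_nonneg_left h0 hΛ.le
    rwa [← mul_assoc, mul_inv_cancel₀ hΛ.ne', one_mul] at this
  have := hn p
  have := hb p
  constructor <;> linarith

theorem ycal_nonneg {Ks : CE ι → Matrix ι ι ℂ} (hΛ : 0 < Λ) (hP : Pin (Ks z) Λ) :
    0 ≤ Ycal Ks z := by
  refine le_trans ?_ (ycal_lower hΛ hP)
  refine mul_nonneg (inv_pos.2 hΛ).le (Finset.sum_nonneg fun p _ => add_nonneg ?_ ?_)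
  · exact pairE_self_nonneg (hP.posDef hΛ) _
  · exact pairE_self_nonneg (hP.posDef hΛ) _

theorem cal_entries (ι : Type) [Fintype ι] [DecidableEq ι] (Λ : ℝ) (hΛ : 0 < Λ) :
    ∃ C : ℝ, 0 ≤ C ∧ ∀ (Ks : CE ι → Matrix ι ι ℂ) (z : CE ι), Pin (Ks z) Λ →
      (∀ l j k, ‖Acn Ks l z j k‖ ≤ C * Real.sqrt (Scal Ks z)) ∧
      (∀ q l j k, ‖Fcv Ks q l z j k‖ ≤ C * Real.sqrt (Ycal Ks z)) ∧
      (∀ p l j k, ‖nabE Ks p (Acn Ks) l z j k‖ ≤ C * Real.sqrt (Ycal Ks z)) ∧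
      (∀ p l j k, ‖dzM p (Acn Ks l) z j k‖ ≤ C * (Scal Ks z + Real.sqrt (Ycal Ks z))) := by
  obtain ⟨C₀, hC₀, hfl⟩ := pairE_flat ι Λ hΛ
  refine ⟨Real.sqrt C₀ + Real.sqrt (C₀ * Λ) + 3 * Fintype.card ι * C₀, by positivity, ?_⟩
  intro Ks z hP
  have hS := scal_nonneg (hP.posDef hΛ)
  have hY := ycal_nonneg hΛ hP
  have n0 : (0 : ℝ) ≤ 3 * Fintype.card ι * C₀ := by positivity
  have key : ∀ (B : ι → Matrix ι ι ℂ) (x : ℝ), (pairE (Ks z) B B).re ≤ x → ∀ l j k,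
      ‖B l j k‖ ≤ Real.sqrt (C₀ * x) := by
    intro B x hx l j k
    refine (norm_entry_le_sqrt_fl B l j k).trans (Real.sqrt_le_sqrt ?_)
    exact ((hfl _ B hP).2).trans (mul_le_mul_of_nonneg_left hx hC₀.le)
  have hA : ∀ l j k, ‖Acn Ks l z j k‖ ≤ Real.sqrt C₀ * Real.sqrt (Scal Ks z) := by
    intro l j k
    have := key (fun l => Acn Ks l z) (Scal Ks z) le_rfl l j k
    rwa [Real.sqrt_mul hC₀.le] at this
  have hF : ∀ q l j k, ‖Fcv Ks q l z j k‖ ≤ Real.sqrt (C₀ * Λ) * Real.sqrt (Ycal Ks z) := by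
    intro q l j k
    have := key (fun l => barE q (Acn Ks) l z) _ (ycal_lower_p hΛ hP q).2 l j k
    rwa [← mul_assoc, Real.sqrt_mul (by positivity)] at this
  have hN : ∀ p l j k, ‖nabE Ks p (Acn Ks) l z j k‖
      ≤ Real.sqrt (C₀ * Λ) * Real.sqrt (Ycal Ks z) := by
    intro q l j k
    have := key (fun l => nabE Ks q (Acn Ks) l z) _ (ycal_lower_p hΛ hP q).1 l j k
    rwa [← mul_assoc, Real.sqrt_mul (by positivity)] at this
  have s1 := Real.sqrt_nonneg C₀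
  have s2 := Real.sqrt_nonneg (C₀ * Λ)
  have s3 := Real.sqrt_nonneg (Scal Ks z)
  have s4 := Real.sqrt_nonneg (Ycal Ks z)
  refine ⟨fun l j k => (hA l j k).trans ?_, fun q l j k => (hF q l j k).trans ?_,
    fun p l j k => (hN p l j k).trans ?_, fun p l j k => ?_⟩
  · exact mul_le_mul_of_nonneg_right (by linarith) s3
  · exact mul_le_mul_of_nonneg_right (by linarith) s4
  · exact mul_le_mul_of_nonneg_right (by linarith) s4
  · have e : dzM p (Acn Ks l) z = nabE Ks p (Acn Ks) l z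
        - actE (Acn Ks p z) (fun l' => Acn Ks l' z) l := by
      unfold nabE
      abel
    rw [e, Matrix.sub_apply]
    refine (norm_sub_le _ _).trans ?_
    have h1 := entry_actE_le (Acn Ks p z) (fun l' => Acn Ks l' z) _ _ (hA p) hA l j k
    have h2 := hN p l j k
    have e2 : Real.sqrt C₀ * Real.sqrt (Scal Ks z) * (Real.sqrt C₀ * Real.sqrt (Scal Ks z))
        = C₀ * Scal Ks z := by
      rw [mul_mul_mul_comm, Real.mul_self_sqrt hC₀.le, Real.mul_self_sqrt hS]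
    rw [e2] at h1
    have t1 : 0 ≤ (Real.sqrt C₀ + Real.sqrt (C₀ * Λ)) * Scal Ks z := by positivity
    have t2 : 0 ≤ (Real.sqrt C₀ + 3 * Fintype.card ι * C₀) * Real.sqrt (Ycal Ks z) := by positivity
    nlinarith

/-! ### B9-CAL-T5 -/

theorem od0_G (ι : Type) [Fintype ι] [DecidableEq ι] (Λ : ℝ) (hΛ : 0 < Λ) (Bτ : ℕ → ℝ) :
    ∃ C : ℝ, 0 ≤ C ∧ ∀ (O : Set (ℝ × CE ι)) (K : ℝ → CE ι → Matrix ι ι ℂ)
      (τ : CE ι → ι → ι → ι → ℂ) (t : ℝ) (z : CE ι), CRC O K τ Λ Bτ → (t, z) ∈ O → ∀ a b,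
      Od0 (Real.sqrt (Scal (K t) z)) (fun w => (K t w)⁻¹ a b) z C := by
  obtain ⟨C₁, hC₁, hent⟩ := cal_entries ι Λ hΛ
  refine ⟨Λ + Fintype.card ι * (C₁ * Λ), by positivity, ?_⟩
  intro O K τ t z h hq a b
  have hS := h.toSPD hΛ
  have hK1 : ∀ j k, DifferentiableAt ℝ (fun w => K t w j k) z := fun j k =>
    (hS.slice_smooth hq j k).differentiableAt (by simp)
  have hP : (K t z).PosDef := hS.posDef _ hq
  have hG := (h.pin hq).inv hΛ
  have s3 := Real.sqrt_nonneg (Scal (K t) z)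
  have n0 : (0 : ℝ) ≤ Fintype.card ι * (C₁ * Λ) := by positivity
  refine ⟨differentiableAt_matInv hK1 (det_ne_zero_of_posDef hP) a b,
    (hG.entry_le hΛ a b).trans (by linarith), fun l => ?_⟩
  have e : dz l (fun w => (K t w)⁻¹ a b) z = (dzM l (fun w => (K t w)⁻¹) z) a b := rfl
  rw [e, dzM_inv_eq hK1 hP, Matrix.neg_apply, norm_neg, Matrix.mul_apply]
  calc ‖∑ c, Acn (K t) l z a c * (K t z)⁻¹ c b‖
      ≤ ∑ _c : ι, C₁ * Real.sqrt (Scal (K t) z) * Λ := by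
        refine (norm_sum_le _ _).trans (Finset.sum_le_sum fun c _ => ?_)
        rw [norm_mul]
        exact mul_le_mul ((hent _ _ (h.pin hq)).1 l a c) (hG.entry_le hΛ _ _) (norm_nonneg _)
          (by positivity)
    _ = Fintype.card ι * (C₁ * Λ) * Real.sqrt (Scal (K t) z) := by
        simp only [Finset.sum_const, Finset.card_univ, nsmul_eq_mul]; ring
    _ ≤ _ := by nlinarith

theorem od0_tau (h : CRC O K τ Λ Bτ) (hq : (t, z) ∈ O) (σ : ℝ) (hσ : 0 ≤ σ) (j k l : ι) :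
    Od0 σ (fun w => τ w j k l) z (max (Bτ 0) (Bτ 1)) ∧
    Od0 σ (fun w => star (τ w j k l)) z (max (Bτ 0) (Bτ 1)) := by
  have hs := h.tau_smooth hq j k l
  have hd : DifferentiableAt ℝ (fun w => τ w j k l) z := hs.differentiableAt (by simp)
  have h0 := h.tbd _ hq 0 j k l
  rw [norm_iteratedFDeriv_zero] at h0
  have h1 := h.tbd _ hq 1 j k l
  have hm : 0 ≤ max (Bτ 0) (Bτ 1) := (norm_nonneg _).trans (h0.trans (le_max_left _ _))
  have hle : Bτ 1 ≤ max (Bτ 0) (Bτ 1) * (1 + σ) := by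
    have := le_max_right (Bτ 0) (Bτ 1)
    nlinarith
  refine ⟨⟨hd, h0.trans (le_max_left _ _), fun a => ((norm_dz_le a).trans h1).trans hle⟩,
    ⟨lv_differentiableAt_conj hd, ?_, fun a => ?_⟩⟩
  · rw [norm_star]
    exact h0.trans (le_max_left _ _)
  · have e : dz a (fun w => star (τ w j k l)) z = star (dzb a (fun w => τ w j k l) z) := dz_conj
    rw [e, norm_star]
    exact ((norm_dzb_le a).trans h1).trans hle

theorem od1_acn_aux {C₁ : ℝ} (hΛ : 0 < Λ) (hC₁ : 0 ≤ C₁)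
    (hent : (∀ l j k, ‖Acn (K t) l z j k‖ ≤ C₁ * Real.sqrt (Scal (K t) z)) ∧
      (∀ q l j k, ‖Fcv (K t) q l z j k‖ ≤ C₁ * Real.sqrt (Ycal (K t) z)) ∧
      (∀ p l j k, ‖nabE (K t) p (Acn (K t)) l z j k‖ ≤ C₁ * Real.sqrt (Ycal (K t) z)) ∧
      (∀ p l j k, ‖dzM p (Acn (K t) l) z j k‖
        ≤ C₁ * (Scal (K t) z + Real.sqrt (Ycal (K t) z))))
    (h : CRC O K τ Λ Bτ) (hq : (t, z) ∈ O) (m a b : ι) :
    Od1 (Real.sqrt (Scal (K t) z)) (Real.sqrt (Ycal (K t) z))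
        (fun w => Acn (K t) m w a b) z C₁ ∧
    Od1 (Real.sqrt (Scal (K t) z)) (Real.sqrt (Ycal (K t) z))
        (fun w => star (Acn (K t) m w a b)) z C₁ := by
  have hS := h.toSPD hΛ
  have hP : (K t z).PosDef := hS.posDef _ hq
  have hd : DifferentiableAt ℝ (fun w => Acn (K t) m w a b) z :=
    (contDiffAt_Acn (hS.slice_smooth hq) hP m a b).differentiableAt (by simp)
  have s3 := Real.sqrt_nonneg (Scal (K t) z)
  have s4 := Real.sqrt_nonneg (Ycal (K t) z)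
  have sq : Real.sqrt (Scal (K t) z) ^ 2 = Scal (K t) z := Real.sq_sqrt (scal_nonneg hP)
  have v : ‖Acn (K t) m z a b‖ ≤ C₁ * (1 + Real.sqrt (Scal (K t) z)) :=
    (hent.1 m a b).trans (mul_le_mul_of_nonneg_left (by linarith) hC₁)
  refine ⟨⟨hd, v, fun l => ?_⟩, ⟨lv_differentiableAt_conj hd, ?_, fun l => ?_⟩⟩
  · have e : dz l (fun w => Acn (K t) m w a b) z = dzM l (Acn (K t) m) z a b := rfl
    rw [e, sq]
    exact (hent.2.2.2 l m a b).trans (mul_le_mul_of_nonneg_left (by linarith) hC₁)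
  · rw [norm_star]
    exact v
  · have e : dz l (fun w => star (Acn (K t) m w a b)) z
        = star (Fcv (K t) l m z a b) := dz_conj
    rw [e, norm_star, sq]
    exact (hent.2.1 l m a b).trans (mul_le_mul_of_nonneg_left
      (by linarith [scal_nonneg hP]) hC₁)

theorem od1_acn (ι : Type) [Fintype ι] [DecidableEq ι] (Λ : ℝ) (hΛ : 0 < Λ) (Bτ : ℕ → ℝ) :
    ∃ C : ℝ, 0 ≤ C ∧ ∀ (O : Set (ℝ × CE ι)) (K : ℝ → CE ι → Matrix ι ι ℂ)
      (τ : CE ι → ι → ι → ι → ℂ) (t : ℝ) (z : CE ι), CRC O K τ Λ Bτ → (t, z) ∈ O → ∀ m a b,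
      Od1 (Real.sqrt (Scal (K t) z)) (Real.sqrt (Ycal (K t) z))
        (fun w => Acn (K t) m w a b) z C := by
  obtain ⟨C₁, hC₁, hent⟩ := cal_entries ι Λ hΛ
  refine ⟨C₁, hC₁, ?_⟩
  intro O K τ t z h hq m a b
  exact (od1_acn_aux hΛ hC₁ (hent _ _ (h.pin hq)) h hq m a b).1

theorem od1_dtau (h : CRC O K τ Λ Bτ) (hq : (t, z) ∈ O) (σ υ : ℝ) (hσ : 0 ≤ σ) (hυ : 0 ≤ υ)
    (m j k l : ι) :
    Od1 σ υ (fun w => dz m (fun y => star (τ y j k l)) w) z (max (Bτ 1) (Bτ 2)) ∧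
    Od1 σ υ (fun w => dzb m (fun y => τ y j k l) w) z (max (Bτ 1) (Bτ 2)) := by
  have hs := h.tau_smooth hq j k l
  have hs2 : ContDiffAt ℝ 2 (fun w => τ w j k l) z := hs.of_le lv_two_le_infty
  have h1 := h.tbd _ hq 1 j k l
  have h2 := h.tbd _ hq 2 j k l
  have hm : 0 ≤ max (Bτ 1) (Bτ 2) := (norm_nonneg _).trans (h1.trans (le_max_left _ _))
  have hle1 : Bτ 1 ≤ max (Bτ 1) (Bτ 2) * (1 + σ) := by
    have := le_max_left (Bτ 1) (Bτ 2)
    nlinarith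
  have hle2 : Bτ 2 ≤ max (Bτ 1) (Bτ 2) * (1 + σ ^ 2 + υ) := by
    have := le_max_right (Bτ 1) (Bτ 2)
    have : 0 ≤ max (Bτ 1) (Bτ 2) * (σ ^ 2 + υ) := by positivity
    nlinarith
  have hb := norm_dz_dz_le hs
  have hdb : DifferentiableAt ℝ (fun w => dzb m (fun y => τ y j k l) w) z :=
    lv_differentiableAt_dzb hs2
  have ef : (fun w => dz m (fun y => star (τ y j k l)) w)
      = fun w => star (dzb m (fun y => τ y j k l) w) := by
    funext w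
    exact dz_conj
  refine ⟨?_, ⟨hdb, ((norm_dzb_le m).trans h1).trans hle1,
    fun a => ((hb a m).2.1.trans h2).trans hle2⟩⟩
  rw [ef]
  refine ⟨lv_differentiableAt_conj hdb, ?_, fun a => ?_⟩
  · rw [norm_star]
    exact ((norm_dzb_le m).trans h1).trans hle1
  · have e : dz a (fun w => star (dzb m (fun y => τ y j k l) w)) z
        = star (dzb a (fun w => dzb m (fun y => τ y j k l) w) z) := dz_conj
    rw [e, norm_star]
    exact ((hb a m).2.2.2.trans h2).trans hle2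

theorem Od1.neg {σ υ C : ℝ} {g : CE ι → ℂ} (h : Od1 σ υ g z C) : Od1 σ υ (fun w => - g w) z C :=
  ⟨h.diff.neg, by rw [norm_neg]; exact h.val, fun l => by rw [dz_neg, norm_neg]; exact h.der l⟩

theorem od1_dzbG (ι : Type) [Fintype ι] [DecidableEq ι] (Λ : ℝ) (hΛ : 0 < Λ) (Bτ : ℕ → ℝ) :
    ∃ C : ℝ, 0 ≤ C ∧ ∀ (O : Set (ℝ × CE ι)) (K : ℝ → CE ι → Matrix ι ι ℂ)
      (τ : CE ι → ι → ι → ι → ℂ) (t : ℝ) (z : CE ι), CRC O K τ Λ Bτ → (t, z) ∈ O → ∀ j a b,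
      Od1 (Real.sqrt (Scal (K t) z)) (Real.sqrt (Ycal (K t) z))
        (fun w => dzb j (fun y => (K t y)⁻¹ a b) w) z C := by
  obtain ⟨C₁, hC₁, hent⟩ := cal_entries ι Λ hΛ
  obtain ⟨CG, hCG, hG⟩ := od0_G ι Λ hΛ Bτ
  refine ⟨Fintype.card ι * (4 * (CG * C₁)), by positivity, ?_⟩
  intro O K τ t z h hq j a b
  have hS := h.toSPD hΛ
  have he : (fun w => dzb j (fun y => (K t y)⁻¹ a b) w)
      =ᶠ[𝓝 z] fun w => - ∑ c, (K t w)⁻¹ a c * star (Acn (K t) j w b c) := by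
    filter_upwards [h.eventually_mem hq] with w hw
    have hK1 : ∀ j k, DifferentiableAt ℝ (fun y => K t y j k) w := fun j k =>
      (hS.slice_smooth hw j k).differentiableAt (by simp)
    have e : dzb j (fun y => (K t y)⁻¹ a b) w = (dzbM j (fun y => (K t y)⁻¹) w) a b := rfl
    rw [e, dzbM_inv_eq hK1 (hS.slice_posDef hw), Matrix.neg_apply, Matrix.mul_apply]
    rfl
  refine Od1.congr (Od1.neg ?_) he
  have := Od1.sum (σ := Real.sqrt (Scal (K t) z)) (υ := Real.sqrt (Ycal (K t) z)) (z := z)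
    Finset.univ (G := fun c w => (K t w)⁻¹ a c * star (Acn (K t) j w b c)) (C := 4 * (CG * C₁))
    fun c _ => (hG O K τ t z h hq a c).mul_od1
      (od1_acn_aux hΛ hC₁ (hent _ _ (h.pin hq)) h hq j b c).2 (Real.sqrt_nonneg _)
      (Real.sqrt_nonneg _)
  rwa [Finset.card_univ] at this

/-! ### B9-CAL-T6 -/

theorem Od1.usum {α : Type} [Fintype α] {σ υ C : ℝ} {G : α → CE ι → ℂ}
    (h : ∀ a, Od1 σ υ (G a) z C) :
    Od1 σ υ (fun w => ∑ a, G a w) z ((Fintype.card α : ℝ) * C) := by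
  have := Od1.sum Finset.univ fun a _ => h a
  rwa [Finset.card_univ] at this

theorem norm_usum_le {α : Type} [Fintype α] (f : α → ℂ) (B : ℝ) (h : ∀ a, ‖f a‖ ≤ B) :
    ‖∑ a, f a‖ ≤ (Fintype.card α : ℝ) * B := by
  calc ‖∑ a, f a‖ ≤ ∑ _a : α, B := (norm_sum_le _ _).trans (Finset.sum_le_sum fun a _ => h a)
    _ = _ := by simp only [Finset.sum_const, Finset.card_univ, nsmul_eq_mul]

theorem tdf_od1 (ι : Type) [Fintype ι] [DecidableEq ι] (Λ : ℝ) (hΛ : 0 < Λ) (Bτ : ℕ → ℝ) :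
    ∃ C : ℝ, 0 ≤ C ∧ ∀ (O : Set (ℝ × CE ι)) (K : ℝ → CE ι → Matrix ι ι ℂ)
      (τ : CE ι → ι → ι → ι → ℂ) (t : ℝ) (z : CE ι), CRC O K τ Λ Bτ → (t, z) ∈ O → ∀ a b,
      Od1 (Real.sqrt (Scal (K t) z)) (Real.sqrt (Ycal (K t) z)) (fun w => Tdf K t w a b) z C := by
  obtain ⟨CG, hCG, hG⟩ := od0_G ι Λ hΛ Bτ
  obtain ⟨CA, hCA, hA⟩ := od1_acn ι Λ hΛ Bτ
  obtain ⟨CD, hCD, hD⟩ := od1_dzbG ι Λ hΛ Bτ
  refine ⟨|(Fintype.card ι : ℝ) * (4 * (CG * ((Fintype.card ι : ℝ) * ((Fintype.card ι : ℝ) *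
    (4 * (CG * (max (Bτ 1) (Bτ 2) + (Fintype.card ι : ℝ) * (4 * (max (Bτ 0) (Bτ 1) * CA))))))
    + (Fintype.card ι : ℝ) * ((Fintype.card ι : ℝ) * (4 * (max (Bτ 0) (Bτ 1) * CD)
      + 4 * (CG * max (Bτ 1) (Bτ 2)))))))|, abs_nonneg _, ?_⟩
  intro O K τ t z h hq a b
  have hS := h.toSPD hΛ
  obtain ⟨σ, hσd⟩ : ∃ σ, σ = Real.sqrt (Scal (K t) z) := ⟨_, rfl⟩
  obtain ⟨υ, hυd⟩ : ∃ υ, υ = Real.sqrt (Ycal (K t) z) := ⟨_, rfl⟩
  rw [← hσd, ← hυd]
  have hσ : 0 ≤ σ := hσd ▸ Real.sqrt_nonneg _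
  have hυ : 0 ≤ υ := hυd ▸ Real.sqrt_nonneg _
  have gG : ∀ a b, Od0 σ (fun w => (K t w)⁻¹ a b) z CG := fun a b => hσd ▸ hG O K τ t z h hq a b
  have gA : ∀ m a b, Od1 σ υ (fun w => Acn (K t) m w a b) z CA := fun m a b => by
    rw [hσd, hυd]; exact hA O K τ t z h hq m a b
  have gD : ∀ j a b, Od1 σ υ (fun w => dzb j (fun y => (K t y)⁻¹ a b) w) z CD := fun j a b => by
    rw [hσd, hυd]; exact hD O K τ t z h hq j a b
  have p1 := fun m b' j k => (od1_dtau h hq σ υ hσ hυ m k b' j).1.sub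
    (Od1.usum (G := fun c w => star (τ w c b' j) * Acn (K t) m w c k)
      fun c => ((od0_tau h hq σ hσ c b' j).2).mul_od1 (gA m c k) hσ hυ)
  have p2 := fun j k => Od1.usum (G := fun m w => ∑ b', (K t w)⁻¹ m b' *
      (dz m (fun y => star (τ y k b' j)) w - ∑ c, star (τ w c b' j) * Acn (K t) m w c k))
    fun m => Od1.usum (G := fun b' w => (K t w)⁻¹ m b' *
      (dz m (fun y => star (τ y k b' j)) w - ∑ c, star (τ w c b' j) * Acn (K t) m w c k))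
    fun b' => (gG m b').mul_od1 (p1 m b' j k) hσ hυ
  have p3 := fun j k => Od1.usum (G := fun m w => ∑ i,
      (τ w i m k * dzb j (fun y => (K t y)⁻¹ m i) w
        + (K t w)⁻¹ m i * dzb j (fun y => τ y i m k) w))
    fun m => Od1.usum (G := fun i w => (τ w i m k * dzb j (fun y => (K t y)⁻¹ m i) w
        + (K t w)⁻¹ m i * dzb j (fun y => τ y i m k) w))
    fun i => (((od0_tau h hq σ hσ i m k).1).mul_od1 (gD j m i) hσ hυ).add
      ((gG m i).mul_od1 (od1_dtau h hq σ υ hσ hυ j i m k).2 hσ hυ)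
  have p4 := fun j k => Od1.congr ((p2 j k).add (p3 j k))
    (g' := fun w => Ytor (K t) τ w j k) (by
      filter_upwards [h.eventually_mem hq] with w hw
      have hK1 : ∀ j k, DifferentiableAt ℝ (fun y => K t y j k) w := fun j k =>
        (hS.slice_smooth hw j k).differentiableAt (by simp)
      have hτ1 : ∀ i m k, DifferentiableAt ℝ (fun y => τ y i m k) w := fun i m k =>
        (h.tau_smooth hw i m k).differentiableAt (by simp)
      unfold Ytor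
      rw [dzb_wT hK1 (hS.posDef _ hw) hτ1]
      simp only [mul_comm (τ w _ _ _)])
  have p5 := Od1.usum (G := fun c w => (K t w)⁻¹ a c * Ytor (K t) τ w c b)
    fun c => (gG a c).mul_od1 (p4 c b) hσ hυ
  refine Od1.mono (Od1.congr p5 ?_) hσ hυ (le_abs_self _)
  filter_upwards [h.eventually_mem hq] with w hw
  rw [tdf_eq h hΛ hw, Matrix.mul_apply]

theorem ncal_entry_le (ι : Type) [Fintype ι] [DecidableEq ι] (Λ : ℝ) (hΛ : 0 < Λ) (Bτ : ℕ → ℝ) :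
    ∃ C : ℝ, 0 ≤ C ∧ ∀ (O : Set (ℝ × CE ι)) (K : ℝ → CE ι → Matrix ι ι ℂ)
      (τ : CE ι → ι → ι → ι → ℂ) (t : ℝ) (z : CE ι), CRC O K τ Λ Bτ → (t, z) ∈ O → ∀ l a b,
      ‖Ncal K t z l a b‖ ≤ C * (1 + Scal (K t) z + Real.sqrt (Ycal (K t) z)) := by
  obtain ⟨C₁, hC₁, hent⟩ := cal_entries ι Λ hΛ
  obtain ⟨CT, hCT, hT⟩ := tdf_od1 ι Λ hΛ Bτ
  refine ⟨CT + 2 * ((Fintype.card ι : ℝ) * (2 * (C₁ * CT)))
    + (Fintype.card ι : ℝ) * ((Fintype.card ι : ℝ) * ((Fintype.card ι : ℝ) *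
      (Λ * ((Fintype.card ι : ℝ) * (Λ * |Bτ 0|)) * C₁))), by positivity, ?_⟩
  intro O K τ t z h hq l a b
  have hS := h.toSPD hΛ
  have hP : (K t z).PosDef := hS.posDef _ hq
  have hGp := (h.pin hq).inv hΛ
  have sq : Real.sqrt (Scal (K t) z) ^ 2 = Scal (K t) z := Real.sq_sqrt (scal_nonneg hP)
  obtain ⟨σ, hσd⟩ : ∃ σ, σ = Real.sqrt (Scal (K t) z) := ⟨_, rfl⟩
  obtain ⟨υ, hυd⟩ : ∃ υ, υ = Real.sqrt (Ycal (K t) z) := ⟨_, rfl⟩
  have hσ : 0 ≤ σ := hσd ▸ Real.sqrt_nonneg _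
  have hυ : 0 ≤ υ := hυd ▸ Real.sqrt_nonneg _
  have gT : ∀ a b, Od1 σ υ (fun w => Tdf K t w a b) z CT := fun a b => by
    rw [hσd, hυd]; exact hT O K τ t z h hq a b
  have gA : ∀ l j k, ‖Acn (K t) l z j k‖ ≤ C₁ * σ := fun l j k => by
    rw [hσd]; exact (hent _ _ (h.pin hq)).1 l j k
  have gF : ∀ q l j k, ‖Fcv (K t) q l z j k‖ ≤ C₁ * υ := fun q l j k => by
    rw [hυd]; exact (hent _ _ (h.pin hq)).2.1 q l j k
  rw [← sq, ← hσd, ← hυd]
  have hX : 0 ≤ 1 + σ ^ 2 + υ := by positivity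
  have b1 : ‖dzM l (Tdf K t) z a b‖ ≤ CT * (1 + σ ^ 2 + υ) := (gT a b).der l
  have hprod : C₁ * σ * (CT * (1 + σ)) ≤ 2 * (C₁ * CT) * (1 + σ ^ 2 + υ) := by
    have h1 : σ * (1 + σ) ≤ 2 * (1 + σ ^ 2 + υ) := by nlinarith [sq_nonneg (1 - σ)]
    calc C₁ * σ * (CT * (1 + σ)) = C₁ * CT * (σ * (1 + σ)) := by ring
      _ ≤ C₁ * CT * (2 * (1 + σ ^ 2 + υ)) := mul_le_mul_of_nonneg_left h1 (by positivity)
      _ = _ := by ring
  have b2 : ‖(Acn (K t) l z * Tdf K t z) a b‖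
      ≤ (Fintype.card ι : ℝ) * (2 * (C₁ * CT) * (1 + σ ^ 2 + υ)) := by
    rw [Matrix.mul_apply]
    refine norm_usum_le _ _ fun c => ?_
    rw [norm_mul]
    exact (mul_le_mul (gA l a c) (gT c b).val (norm_nonneg _) (by positivity)).trans hprod
  have b3 : ‖(Tdf K t z * Acn (K t) l z) a b‖
      ≤ (Fintype.card ι : ℝ) * (2 * (C₁ * CT) * (1 + σ ^ 2 + υ)) := by
    rw [Matrix.mul_apply]
    refine norm_usum_le _ _ fun c => ?_
    rw [norm_mul, mul_comm]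
    exact (mul_le_mul (gA l c b) (gT a c).val (norm_nonneg _) (by positivity)).trans hprod
  have b4 : ‖(∑ p, ∑ q, ∑ m, ((K t z)⁻¹ p q * Tor (K t) p l m z) • Fcv (K t) q m z) a b‖
      ≤ (Fintype.card ι : ℝ) * ((Fintype.card ι : ℝ) * ((Fintype.card ι : ℝ) *
        (Λ * ((Fintype.card ι : ℝ) * (Λ * |Bτ 0|)) * (C₁ * υ)))) := by
    simp only [Matrix.sum_apply, Matrix.smul_apply, smul_eq_mul]
    refine norm_usum_le _ _ fun p => norm_usum_le _ _ fun q => norm_usum_le _ _ fun m => ?_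
    rw [norm_mul, norm_mul]
    have t1 : ‖Tor (K t) p l m z‖ ≤ (Fintype.card ι : ℝ) * (Λ * |Bτ 0|) :=
      (tor_entry_le h hΛ hq p l m).trans (mul_le_mul_of_nonneg_left
        (mul_le_mul_of_nonneg_left (le_abs_self _) hΛ.le) (by positivity))
    exact mul_le_mul (mul_le_mul (hGp.entry_le hΛ p q) t1 (norm_nonneg _) hΛ.le) (gF q m a b)
      (norm_nonneg _) (by positivity)
  unfold Ncal
  rw [Matrix.add_apply, Matrix.add_apply, Matrix.sub_apply]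
  have n1 := norm_add_le (dzM l (Tdf K t) z a b
    + ((Acn (K t) l z * Tdf K t z) a b - (Tdf K t z * Acn (K t) l z) a b))
    ((∑ p, ∑ q, ∑ m, ((K t z)⁻¹ p q * Tor (K t) p l m z) • Fcv (K t) q m z) a b)
  have n2 := norm_add_le (dzM l (Tdf K t) z a b)
    ((Acn (K t) l z * Tdf K t z) a b - (Tdf K t z * Acn (K t) l z) a b)
  have n3 := norm_sub_le ((Acn (K t) l z * Tdf K t z) a b) ((Tdf K t z * Acn (K t) l z) a b)
  have hlast : (Fintype.card ι : ℝ) * ((Fintype.card ι : ℝ) * ((Fintype.card ι : ℝ) *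
        (Λ * ((Fintype.card ι : ℝ) * (Λ * |Bτ 0|)) * (C₁ * υ))))
      ≤ (Fintype.card ι : ℝ) * ((Fintype.card ι : ℝ) * ((Fintype.card ι : ℝ) *
        (Λ * ((Fintype.card ι : ℝ) * (Λ * |Bτ 0|)) * C₁))) * (1 + σ ^ 2 + υ) := by
    have : υ ≤ 1 + σ ^ 2 + υ := by nlinarith [sq_nonneg σ]
    calc _ = (Fintype.card ι : ℝ) * ((Fintype.card ι : ℝ) * ((Fintype.card ι : ℝ) *
        (Λ * ((Fintype.card ι : ℝ) * (Λ * |Bτ 0|)) * C₁))) * υ := by ring
      _ ≤ _ := mul_le_mul_of_nonneg_left this (by positivity)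
  calc _ ≤ CT * (1 + σ ^ 2 + υ) + ((Fintype.card ι : ℝ) * (2 * (C₁ * CT) * (1 + σ ^ 2 + υ))
        + (Fintype.card ι : ℝ) * (2 * (C₁ * CT) * (1 + σ ^ 2 + υ)))
        + (Fintype.card ι : ℝ) * ((Fintype.card ι : ℝ) * ((Fintype.card ι : ℝ) *
        (Λ * ((Fintype.card ι : ℝ) * (Λ * |Bτ 0|)) * C₁))) * (1 + σ ^ 2 + υ) := by linarith
    _ = _ := by ring

end Claimed.Agent.R316.B9
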