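import Claimed.Agent.R316.B9.CalTor

/-!
# Row 316, package B9: the local Calabi estimate for the Chern-Ricci flow in a chart

`h : CRC O K τ Λ Bτ`.  `p = tr K`, `s = S = Scal`, `y = Ycal / 2`, `𝓛 = Lcx K⁻¹`, `Γ = Gcx K⁻¹`.

* `cal_ineq_p`:  `(∂_t - 𝓛) tr K = Re tr (K 𝒯) - Str ≤ - c S + C₁`   (`trace_identity`, `str_lower`, `|𝒯| ≤ C (1 + √S)` from `tdf_od1`,
  `C (1 + √S) ≤ (c/2) S + C₁`).
* `cal_ineq_s`:  `(∂_t - 𝓛) S ≤ - Y/2 + C₂ (1 + S √S)`   (`calabi_identity`; `|⟪𝒩, A⟫| ≤ √⟪𝒩,𝒩⟫ √S` (`pairE_cs'`), `⟪𝒩,𝒩⟫ ≤ C fl 𝒩` (`pairE_flat`),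
  `fl_le_of_entry`, `ncal_entry_le`; `entry_actE_le`; with `r = √S`, `w = √Y`: `C (1 + r² + w) r + C (1 + r) r² - w² ≤ - w²/2 + C' (1 + r³)`).
* `cal_gamma_p`: `Γ(tr K, tr K) ≤ Λ ∑_p |∂_p tr K|²`, `∂_p tr K = tr (K A_p)`.
* `cal_gamma_s`: `∂_p S = ⟪∇_p A, A⟫ + ⟪A, ∂̄_p A⟫` (`pairE_dz`; `S` is the real part of a function with vanishing imaginary part), so
  `∑_p |∂_p S|² ≤ 2 S ∑_p (|∇_p A|² + |∂̄_p A|²) ≤ 2 Λ S Y` (`gram_lower`, `gram_lower'`), `Γ(S,S) ≤ 2 Λ² S Y = 4 Λ² S (Y/2)`.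
* `calabi_local`: `shi_local_cplx`.
* `scal_le_of_deriv`, `deriv_le_of_scal`: `S` versus the first derivatives of the entries of `K`
  (`D_{e_l} = ∂_l + ∂̄_l`, `D_{i e_l} = i (∂_l - ∂̄_l)`, `∂_l K = K A_l`, `∂̄_l K = A_lᴴ K`).

Leaves: **B9-CAL-I1** (`cal_ineq_p`, `cal_gamma_p`), **B9-CAL-I2** (`cal_ineq_s`), **B9-CAL-I3** (`cal_gamma_s`),
**B9-CAL-LOC** (`calabi_local`, `scal_le_of_deriv`, `deriv_le_of_scal`).
-/

set_option autoImplicit false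
open scoped ContDiff ComplexOrder Topology Matrix

namespace Claimed.Agent.R316.B9

/-! ### B9-CAL-I1 -/

theorem cal_ineq_p (ι : Type) [Fintype ι] [DecidableEq ι] (Λ : ℝ) (hΛ : 0 < Λ) (Bτ : ℕ → ℝ) :
    ∃ c C₁ : ℝ, 0 < c ∧ 0 ≤ C₁ ∧ ∀ (O : Set (ℝ × CE ι)) (K : ℝ → CE ι → Matrix ι ι ℂ)
      (τ : CE ι → ι → ι → ι → ℂ) (t : ℝ) (z : CE ι), CRC O K τ Λ Bτ → (t, z) ∈ O →
      deriv (fun r => (K r z).trace.re) t - Lcx (K t z)⁻¹ z (fun w => (K t w).trace.re)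
        ≤ - c * Scal (K t) z + C₁ := by
  obtain ⟨c₀, hc₀, hstr⟩ := str_lower ι Λ hΛ
  obtain ⟨CT, hCT, hT⟩ := tdf_od1 ι Λ hΛ Bτ
  obtain ⟨D, hD⟩ : ∃ D, D = (Fintype.card ι : ℝ) * ((Fintype.card ι : ℝ) * (Λ * CT)) := ⟨_, rfl⟩
  have hD0 : 0 ≤ D := by rw [hD]; positivity
  refine ⟨c₀ / 2, D + D ^ 2 / (2 * c₀), by positivity, by positivity, ?_⟩
  intro O K τ t z h hq
  have hS := h.toSPD hΛ
  have hP : (K t z).PosDef := hS.posDef _ hq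
  rw [trace_identity hS hq]
  have sq : Real.sqrt (Scal (K t) z) ^ 2 = Scal (K t) z := Real.sq_sqrt (scal_nonneg hP)
  obtain ⟨σ, hσd⟩ : ∃ σ, σ = Real.sqrt (Scal (K t) z) := ⟨_, rfl⟩
  have hσ : 0 ≤ σ := hσd ▸ Real.sqrt_nonneg _
  have h1 : c₀ * Scal (K t) z ≤ Str (K t) z := hstr _ _ (h.pin hq)
  have h2 : (K t z * Tdf K t z).trace.re ≤ D * (1 + σ) := by
    refine (Complex.re_le_norm _).trans ?_
    simp only [Matrix.trace, Matrix.diag, Matrix.mul_apply]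
    rw [hD]
    have : (Fintype.card ι : ℝ) * ((Fintype.card ι : ℝ) * (Λ * CT)) * (1 + σ)
        = (Fintype.card ι : ℝ) * ((Fintype.card ι : ℝ) * (Λ * (CT * (1 + σ)))) := by ring
    rw [this]
    refine norm_usum_le _ _ fun j => norm_usum_le _ _ fun k => ?_
    rw [norm_mul]
    refine mul_le_mul ((h.pin hq).entry_le hΛ j k) ?_ (norm_nonneg _) hΛ.le
    rw [hσd]
    exact (hT O K τ t z h hq k j).val
  rw [← sq, ← hσd] at h1 ⊢
  have h3 : D * σ ≤ c₀ / 2 * σ ^ 2 + D ^ 2 / (2 * c₀) := by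
    have e : c₀ / 2 * σ ^ 2 + D ^ 2 / (2 * c₀) - D * σ = (c₀ * σ - D) ^ 2 / (2 * c₀) := by
      field_simp
      ring
    have : 0 ≤ (c₀ * σ - D) ^ 2 / (2 * c₀) := by positivity
    linarith
  nlinarith

theorem cal_gamma_p (ι : Type) [Fintype ι] [DecidableEq ι] (Λ : ℝ) (hΛ : 0 < Λ) (Bτ : ℕ → ℝ) :
    ∃ C₄ : ℝ, 0 ≤ C₄ ∧ ∀ (O : Set (ℝ × CE ι)) (K : ℝ → CE ι → Matrix ι ι ℂ)
      (τ : CE ι → ι → ι → ι → ℂ) (t : ℝ) (z : CE ι), CRC O K τ Λ Bτ → (t, z) ∈ O →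
      Gcx (K t z)⁻¹ z (fun w => (K t w).trace.re) (fun w => (K t w).trace.re)
        ≤ C₄ * Scal (K t) z := by
  obtain ⟨C₁, hC₁, hent⟩ := cal_entries ι Λ hΛ
  refine ⟨Λ * ((Fintype.card ι : ℝ) * ((Fintype.card ι : ℝ) * ((Fintype.card ι : ℝ) * (Λ * C₁))) ^ 2),
    by positivity, ?_⟩
  intro O K τ t z h hq
  have hS := h.toSPD hΛ
  have hP : (K t z).PosDef := hS.posDef _ hq
  have hK1 : ∀ j k, DifferentiableAt ℝ (fun w => K t w j k) z := fun j k =>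
    (hS.slice_smooth hq j k).differentiableAt (by simp)
  have sq : Real.sqrt (Scal (K t) z) ^ 2 = Scal (K t) z := Real.sq_sqrt (scal_nonneg hP)
  have hx : ∀ p, ‖grad10 (fun w => (K t w).trace.re) z p‖
      ≤ (Fintype.card ι : ℝ) * ((Fintype.card ι : ℝ) * (Λ * C₁)) * Real.sqrt (Scal (K t) z) := by
    intro p
    have he : (fun w => (((K t w).trace.re : ℝ) : ℂ)) =ᶠ[𝓝 z] fun w => (K t w).trace := by
      filter_upwards [h.eventually_mem hq] with w hw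
      apply Complex.conj_eq_iff_re.1
      have : star (K t w).trace = (K t w).trace := by
        rw [← Matrix.trace_conjTranspose, (h.herm _ hw).eq]
      exact this
    rw [grad10_apply, dz_congr he, dz_matTrace hK1, dzM_eq_mul_Acn hK1 hP]
    simp only [Matrix.trace, Matrix.diag, Matrix.mul_apply]
    have : (Fintype.card ι : ℝ) * ((Fintype.card ι : ℝ) * (Λ * C₁)) * Real.sqrt (Scal (K t) z)
        = (Fintype.card ι : ℝ) * ((Fintype.card ι : ℝ) * (Λ * (C₁ * Real.sqrt (Scal (K t) z)))) := by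
      ring
    rw [this]
    refine norm_usum_le _ _ fun j => norm_usum_le _ _ fun k => ?_
    rw [norm_mul]
    exact mul_le_mul ((h.pin hq).entry_le hΛ j k) ((hent _ _ (h.pin hq)).1 p k j) (norm_nonneg _)
      hΛ.le
  refine ((gcx_form_le hΛ ((h.pin hq).inv hΛ) _).2).trans ?_
  have : ∑ p, ‖grad10 (fun w => (K t w).trace.re) z p‖ ^ 2
      ≤ (Fintype.card ι : ℝ) * (((Fintype.card ι : ℝ) * ((Fintype.card ι : ℝ) * (Λ * C₁))
        * Real.sqrt (Scal (K t) z)) ^ 2) := by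
    calc _ ≤ ∑ _p : ι, ((Fintype.card ι : ℝ) * ((Fintype.card ι : ℝ) * (Λ * C₁))
        * Real.sqrt (Scal (K t) z)) ^ 2 :=
          Finset.sum_le_sum fun p _ => pow_le_pow_left₀ (norm_nonneg _) (hx p) 2
      _ = _ := by simp only [Finset.sum_const, Finset.card_univ, nsmul_eq_mul]
  refine (mul_le_mul_of_nonneg_left this hΛ.le).trans (le_of_eq ?_)
  rw [mul_pow, sq]
  ring

/-! ### B9-CAL-I2 -/

theorem cal_ineq_s (ι : Type) [Fintype ι] [DecidableEq ι] (Λ : ℝ) (hΛ : 0 < Λ) (Bτ : ℕ → ℝ) :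
    ∃ C₂ : ℝ, 0 ≤ C₂ ∧ ∀ (O : Set (ℝ × CE ι)) (K : ℝ → CE ι → Matrix ι ι ℂ)
      (τ : CE ι → ι → ι → ι → ℂ) (t : ℝ) (z : CE ι), CRC O K τ Λ Bτ → (t, z) ∈ O →
      deriv (fun r => Scal (K r) z) t - Lcx (K t z)⁻¹ z (Scal (K t))
        ≤ - (Ycal (K t) z / 2)
          + C₂ * (1 + Scal (K t) z * Real.sqrt (Scal (K t) z)) := by
  obtain ⟨C₀, hC₀, hfl⟩ := pairE_flat ι Λ hΛ
  obtain ⟨C₁, hC₁, hent⟩ := cal_entries ι Λ hΛ
  obtain ⟨CT, hCT, hT⟩ := tdf_od1 ι Λ hΛ Bτ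
  obtain ⟨CN, hCN, hN⟩ := ncal_entry_le ι Λ hΛ Bτ
  obtain ⟨R, hR⟩ : ∃ R, R = Real.sqrt (C₀ * (Fintype.card ι : ℝ) ^ 3) := ⟨_, rfl⟩
  have hR0 : 0 ≤ R := hR ▸ Real.sqrt_nonneg _
  obtain ⟨D₁, hD₁⟩ : ∃ D, D = R * CN := ⟨_, rfl⟩
  obtain ⟨D₂, hD₂⟩ : ∃ D, D = R * (3 * (Fintype.card ι : ℝ) * (CT * C₁)) := ⟨_, rfl⟩
  have hD₁0 : 0 ≤ D₁ := by rw [hD₁]; positivity
  have hD₂0 : 0 ≤ D₂ := by rw [hD₂]; positivity
  refine ⟨4 * D₁ + 2 * D₁ ^ 2 + 2 * D₂, by positivity, ?_⟩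
  intro O K τ t z h hq
  have hS := h.toSPD hΛ
  have hP : (K t z).PosDef := hS.posDef _ hq
  rw [calabi_identity hS hq]
  have sq : Real.sqrt (Scal (K t) z) ^ 2 = Scal (K t) z := Real.sq_sqrt (scal_nonneg hP)
  have sqY : Real.sqrt (Ycal (K t) z) ^ 2 = Ycal (K t) z :=
    Real.sq_sqrt (ycal_nonneg hΛ (h.pin hq))
  obtain ⟨σ, hσd⟩ : ∃ σ, σ = Real.sqrt (Scal (K t) z) := ⟨_, rfl⟩
  obtain ⟨υ, hυd⟩ : ∃ υ, υ = Real.sqrt (Ycal (K t) z) := ⟨_, rfl⟩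
  have hσ : 0 ≤ σ := hσd ▸ Real.sqrt_nonneg _
  have hυ : 0 ≤ υ := hυd ▸ Real.sqrt_nonneg _
  have key : ∀ (B : ι → Matrix ι ι ℂ) (b : ℝ), 0 ≤ b → (∀ l j k, ‖B l j k‖ ≤ b) →
      (pairE (K t z) B (fun l => Acn (K t) l z)).re ≤ R * b * σ := by
    intro B b hb hB
    refine (Complex.re_le_norm _).trans ((pairE_cs' hP _ _).trans ?_)
    have e : Real.sqrt (pairE (K t z) (fun l => Acn (K t) l z) (fun l => Acn (K t) l z)).re = σ :=
      hσd.symm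
    rw [e]
    refine mul_le_mul_of_nonneg_right ?_ hσ
    have h1 : (pairE (K t z) B B).re ≤ (R * b) ^ 2 := by
      refine ((hfl _ B (h.pin hq)).1).trans ?_
      refine (mul_le_mul_of_nonneg_left (fl_le_of_entry B b hb hB) hC₀.le).trans (le_of_eq ?_)
      rw [mul_pow, hR, Real.sq_sqrt (by positivity)]
      ring
    exact (Real.sqrt_le_sqrt h1).trans (le_of_eq (Real.sqrt_sq (by positivity)))
  have h1 := key (Ncal K t z) (CN * (1 + σ ^ 2 + υ)) (by positivity) (fun l j k => by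
    rw [hσd, hυd, sq]; exact hN O K τ t z h hq l j k)
  have h2 := key (actE (Tdf K t z) (fun l => Acn (K t) l z))
    (3 * (Fintype.card ι : ℝ) * (CT * (1 + σ) * (C₁ * σ))) (by positivity) (fun l j k =>
      entry_actE_le _ _ _ _ (fun j k => by rw [hσd]; exact (hT O K τ t z h hq j k).val)
        (fun l j k => by rw [hσd]; exact (hent _ _ (h.pin hq)).1 l j k) l j k)
  have sq' : Scal (K t) z = σ ^ 2 := by rw [hσd, sq]
  have sqY' : Ycal (K t) z = υ ^ 2 := by rw [hυd, sqY]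
  rw [← hσd, sq', sqY']
  have e1 : R * (CN * (1 + σ ^ 2 + υ)) * σ = D₁ * (σ + σ ^ 3) + D₁ * σ * υ := by rw [hD₁]; ring
  have e2 : R * (3 * (Fintype.card ι : ℝ) * (CT * (1 + σ) * (C₁ * σ))) * σ
      = D₂ * (σ ^ 2 + σ ^ 3) := by rw [hD₂]; ring
  rw [e1] at h1
  rw [e2] at h2
  have a : 2 * (D₁ * σ * υ) ≤ υ ^ 2 / 2 + 2 * D₁ ^ 2 * σ ^ 2 := by
    nlinarith [sq_nonneg (υ - 2 * D₁ * σ)]
  have b : σ + σ ^ 2 ≤ 1 + σ ^ 3 := by nlinarith [mul_nonneg (sq_nonneg (σ - 1)) (by linarith : 0 ≤ σ + 1)]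
  have s2 : 0 ≤ σ ^ 2 := sq_nonneg σ
  have s3 : 0 ≤ σ ^ 3 := by positivity
  have c1 : D₁ * (σ + σ ^ 3) ≤ D₁ * (2 * (1 + σ ^ 3)) :=
    mul_le_mul_of_nonneg_left (by linarith) hD₁0
  have c2 : D₁ ^ 2 * σ ^ 2 ≤ D₁ ^ 2 * (1 + σ ^ 3) :=
    mul_le_mul_of_nonneg_left (by linarith) (sq_nonneg _)
  have c3 : D₂ * (σ ^ 2 + σ ^ 3) ≤ D₂ * (2 * (1 + σ ^ 3)) :=
    mul_le_mul_of_nonneg_left (by linarith) hD₂0
  have e3 : σ ^ 2 * σ = σ ^ 3 := by ring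
  rw [e3]
  nlinarith

/-! ### B9-CAL-I3 -/

theorem cal_gamma_s {ι : Type} [Fintype ι] [DecidableEq ι] {O : Set (ℝ × CE ι)}
    {K : ℝ → CE ι → Matrix ι ι ℂ} {τ : CE ι → ι → ι → ι → ℂ} {Λ : ℝ} {Bτ : ℕ → ℝ} {t : ℝ}
    {z : CE ι} (h : CRC O K τ Λ Bτ) (hΛ : 0 < Λ) (hq : (t, z) ∈ O) :
    Gcx (K t z)⁻¹ z (Scal (K t)) (Scal (K t))
      ≤ 4 * Λ ^ 2 * Scal (K t) z * (Ycal (K t) z / 2) := by
  have hS := h.toSPD hΛ
  have hP : (K t z).PosDef := hS.posDef _ hq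
  have hPs := hS.slice_posDef hq
  have hK1 : ∀ j k, DifferentiableAt ℝ (fun w => K t w j k) z := fun j k =>
    (hS.slice_smooth hq j k).differentiableAt (by simp)
  have hA1 : ∀ l j k, DifferentiableAt ℝ (fun w => Acn (K t) l w j k) z := fun l j k =>
    (contDiffAt_Acn (hS.slice_smooth hq) hP l j k).differentiableAt (by simp)
  have hS0 := scal_nonneg hP
  have hx : ∀ p, grad10 (Scal (K t)) z p
      = pairE (K t z) (fun l => nabE (K t) p (Acn (K t)) l z) (fun l => Acn (K t) l z)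
        + pairE (K t z) (fun l => Acn (K t) l z) (fun l => barE p (Acn (K t)) l z) := by
    intro p
    have he : (fun w => ((Scal (K t) w : ℝ) : ℂ)) =ᶠ[𝓝 z]
        fun w => pairE (K t w) (fun l => Acn (K t) l w) (fun l => Acn (K t) l w) := by
      filter_upwards [hPs] with w hw
      apply Complex.ext
      · simp [Scal]
      · simp [pairE_self_im hw]
    rw [grad10_apply, dz_congr he, pairE_dz hK1 hP hA1 hA1]
  have hn : ∀ p, ‖grad10 (Scal (K t)) z p‖ ^ 2 ≤ 2 * Scal (K t) z *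
      ((pairE (K t z) (fun l => nabE (K t) p (Acn (K t)) l z)
          (fun l => nabE (K t) p (Acn (K t)) l z)).re
        + (pairE (K t z) (fun l => barE p (Acn (K t)) l z)
          (fun l => barE p (Acn (K t)) l z)).re) := by
    intro p
    have n1 := pairE_cs' hP (fun l => nabE (K t) p (Acn (K t)) l z) (fun l => Acn (K t) l z)
    have n2 := pairE_cs' hP (fun l => Acn (K t) l z) (fun l => barE p (Acn (K t)) l z)
    have hN0 := pairE_self_nonneg hP (fun l => nabE (K t) p (Acn (K t)) l z)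
    have hB0 := pairE_self_nonneg hP (fun l => barE p (Acn (K t)) l z)
    obtain ⟨a, ha⟩ : ∃ a, a = Real.sqrt (pairE (K t z) (fun l => nabE (K t) p (Acn (K t)) l z)
          (fun l => nabE (K t) p (Acn (K t)) l z)).re := ⟨_, rfl⟩
    obtain ⟨b, hb⟩ : ∃ b, b = Real.sqrt (pairE (K t z) (fun l => barE p (Acn (K t)) l z)
          (fun l => barE p (Acn (K t)) l z)).re := ⟨_, rfl⟩
    obtain ⟨σ, hσd⟩ : ∃ σ, σ = Real.sqrt (pairE (K t z) (fun l => Acn (K t) l z)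
          (fun l => Acn (K t) l z)).re := ⟨_, rfl⟩
    have ha0 : 0 ≤ a := ha ▸ Real.sqrt_nonneg _
    have hb0 : 0 ≤ b := hb ▸ Real.sqrt_nonneg _
    have hσ0 : 0 ≤ σ := hσd ▸ Real.sqrt_nonneg _
    have ea : (pairE (K t z) (fun l => nabE (K t) p (Acn (K t)) l z)
          (fun l => nabE (K t) p (Acn (K t)) l z)).re = a ^ 2 := by rw [ha, Real.sq_sqrt hN0]
    have eb' : (pairE (K t z) (fun l => barE p (Acn (K t)) l z)
          (fun l => barE p (Acn (K t)) l z)).re = b ^ 2 := by rw [hb, Real.sq_sqrt hB0]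
    have es : Scal (K t) z = σ ^ 2 := by
      rw [hσd]
      exact (Real.sq_sqrt hS0).symm
    rw [← ha, ← hσd] at n1
    rw [← hb, ← hσd] at n2
    rw [ea, eb', es, hx p]
    have n3 := (norm_add_le _ _).trans (add_le_add n1 n2)
    calc _ ≤ (a * σ + σ * b) ^ 2 := pow_le_pow_left₀ (norm_nonneg _) n3 2
      _ = σ ^ 2 * (a + b) ^ 2 := by ring
      _ ≤ σ ^ 2 * (2 * (a ^ 2 + b ^ 2)) := by
          refine mul_le_mul_of_nonneg_left ?_ (sq_nonneg _)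
          nlinarith [sq_nonneg (a - b)]
      _ = _ := by ring
  refine ((gcx_form_le hΛ ((h.pin hq).inv hΛ) _).2).trans ?_
  have hy := ycal_lower hΛ (h.pin hq)
  have hy' : ∑ p, ((pairE (K t z) (fun l => nabE (K t) p (Acn (K t)) l z)
          (fun l => nabE (K t) p (Acn (K t)) l z)).re
        + (pairE (K t z) (fun l => barE p (Acn (K t)) l z)
          (fun l => barE p (Acn (K t)) l z)).re) ≤ Λ * Ycal (K t) z := by
    have := mul_le_mul_of_nonneg_left hy hΛ.le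
    rwa [← mul_assoc, mul_inv_cancel₀ hΛ.ne', one_mul] at this
  calc Λ * ∑ p, ‖grad10 (Scal (K t)) z p‖ ^ 2
      ≤ Λ * ∑ p, 2 * Scal (K t) z *
      ((pairE (K t z) (fun l => nabE (K t) p (Acn (K t)) l z)
          (fun l => nabE (K t) p (Acn (K t)) l z)).re
        + (pairE (K t z) (fun l => barE p (Acn (K t)) l z)
          (fun l => barE p (Acn (K t)) l z)).re) :=
        mul_le_mul_of_nonneg_left (Finset.sum_le_sum fun p _ => hn p) hΛ.le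
    _ ≤ Λ * (2 * Scal (K t) z * (Λ * Ycal (K t) z)) := by
        rw [← Finset.mul_sum]
        exact mul_le_mul_of_nonneg_left (mul_le_mul_of_nonneg_left hy' (by positivity)) hΛ.le
    _ = _ := by ring

/-! ### B9-CAL-LOC -/

/-- **Local Calabi estimate.** -/
theorem calabi_local (ι : Type) [Fintype ι] [DecidableEq ι] (ρ' ρ δ Λ S₀ : ℝ) (Bτ : ℕ → ℝ)
    (hρ' : 0 < ρ') (hρ : ρ' < ρ) (hδ : 0 < δ) (hΛ : 0 < Λ) (hS : 0 ≤ S₀) :
    ∃ C : ℝ, 0 ≤ C ∧ ∀ (t₀ t₁ : ℝ) (z₀ : CE ι) (O : Set (ℝ × CE ι))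
      (K : ℝ → CE ι → Matrix ι ι ℂ) (τ : CE ι → ι → ι → ι → ℂ), t₀ ≤ t₁ → CRC O K τ Λ Bτ →
      Set.Icc t₀ t₁ ×ˢ Metric.closedBall z₀ ρ ⊆ O →
      ((∀ z ∈ Metric.closedBall z₀ ρ, Scal (K t₀) z ≤ S₀) →
        ∀ t ∈ Set.Icc t₀ t₁, ∀ z ∈ Metric.closedBall z₀ ρ', Scal (K t) z ≤ C) ∧
      (∀ t ∈ Set.Icc (t₀ + δ) t₁, ∀ z ∈ Metric.closedBall z₀ ρ', Scal (K t) z ≤ C) := by
  obtain ⟨c, C₁, hc, hC₁, Hp⟩ := cal_ineq_p ι Λ hΛ Bτ
  obtain ⟨C₄', hC₄', Hgp⟩ := cal_gamma_p ι Λ hΛ Bτ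
  obtain ⟨C₂, hC₂, Hs⟩ := cal_ineq_s ι Λ hΛ Bτ
  obtain ⟨Cs, hCs, H⟩ := shi_local_cplx (ι := ι) ρ' ρ δ Λ c C₁ C₂ (max C₄' (4 * Λ ^ 2))
    ((Fintype.card ι : ℝ) * Λ) S₀ hρ' hρ hδ hΛ.le hc hC₁ hC₂ (le_max_of_le_left hC₄')
    (by positivity) hS
  refine ⟨Cs, hCs, ?_⟩
  intro t₀ t₁ z₀ O K τ ht h hsub
  have hSP := h.toSPD hΛ
  refine H t₀ t₁ z₀ O (fun t z => (K t z)⁻¹) (fun t z => (K t z).trace.re)
    (fun t z => Scal (K t) z) (fun t z => Ycal (K t) z / 2) ht h.isOpen hsub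
    (hSP.trace_contDiffOn.of_le lv_two_le_infty) (hSP.Scal_contDiffOn.of_le lv_two_le_infty)
    (fun t ht' z hz => ?_)
  have hq : (t, z) ∈ O := hsub ⟨ht', hz⟩
  have hpin := h.pin hq
  have hS0 := scal_nonneg (hpin.posDef hΛ)
  have hY0 := ycal_nonneg hΛ hpin
  refine ⟨((hpin.inv hΛ).posDef hΛ).posSemidef, (hpin.inv hΛ).upper, (hpin.trace_le hΛ).1,
    (hpin.trace_le hΛ).2, hS0, by positivity, Hp O K τ t z h hq, Hs O K τ t z h hq, ?_, ?_⟩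
  · exact (Hgp O K τ t z h hq).trans (mul_le_mul_of_nonneg_right (le_max_left _ _) hS0)
  · refine (cal_gamma_s h hΛ hq).trans ?_
    exact mul_le_mul_of_nonneg_right (mul_le_mul_of_nonneg_right (le_max_right _ _) hS0)
      (by positivity)

theorem scal_le_of_deriv (ι : Type) [Fintype ι] [DecidableEq ι] (Λ B : ℝ) (hΛ : 0 < Λ)
    (hB : 0 ≤ B) :
    ∃ C : ℝ, 0 ≤ C ∧ ∀ (Ks : CE ι → Matrix ι ι ℂ) (z : CE ι), Pin (Ks z) Λ →
      (∀ j k, ‖fderiv ℝ (fun w => Ks w j k) z‖ ≤ B) → Scal Ks z ≤ C := by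
  obtain ⟨C₀, hC₀, hfl⟩ := pairE_flat ι Λ hΛ
  refine ⟨C₀ * ((Fintype.card ι : ℝ) ^ 3 * ((Fintype.card ι : ℝ) * (Λ * B)) ^ 2), by positivity, ?_⟩
  intro Ks z hP hB'
  unfold Scal
  refine ((hfl _ _ hP).1).trans (mul_le_mul_of_nonneg_left
    (fl_le_of_entry _ _ (by positivity) fun l j k => ?_) hC₀.le)
  unfold Acn
  rw [Matrix.mul_apply]
  refine norm_usum_le _ _ fun c => ?_
  rw [norm_mul]
  refine mul_le_mul ((hP.inv hΛ).entry_le hΛ j c) ?_ (norm_nonneg _) hΛ.le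
  rw [dzM_apply]
  refine (norm_dz_le l).trans ?_
  rw [norm_iteratedFDeriv_one]
  exact hB' c k

theorem deriv_le_of_scal (ι : Type) [Fintype ι] [DecidableEq ι] (Λ S₁ : ℝ) (hΛ : 0 < Λ)
    (hS : 0 ≤ S₁) :
    ∃ C : ℝ, 0 ≤ C ∧ ∀ (Ks : CE ι → Matrix ι ι ℂ) (z : CE ι),
      (∀ j k, DifferentiableAt ℝ (fun w => Ks w j k) z) → (∀ᶠ w in 𝓝 z, (Ks w).IsHermitian) →
      Pin (Ks z) Λ → Scal Ks z ≤ S₁ → ∀ j k l,
      ‖fderiv ℝ (fun w => Ks w j k) z (eb l)‖ ≤ C ∧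
      ‖fderiv ℝ (fun w => Ks w j k) z (Complex.I • eb l)‖ ≤ C := by
  obtain ⟨C₁, hC₁, hent⟩ := cal_entries ι Λ hΛ
  refine ⟨2 * ((Fintype.card ι : ℝ) * (Λ * (C₁ * Real.sqrt S₁))), by positivity, ?_⟩
  intro Ks z hd hH hP hS' j k l
  have hPd := hP.posDef hΛ
  have b1 : ∀ l j k, ‖dz l (fun w => Ks w j k) z‖
      ≤ (Fintype.card ι : ℝ) * (Λ * (C₁ * Real.sqrt S₁)) := by
    intro l j k
    have e : dz l (fun w => Ks w j k) z = (dzM l Ks z) j k := rfl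
    rw [e, dzM_eq_mul_Acn hd hPd, Matrix.mul_apply]
    refine norm_usum_le _ _ fun c => ?_
    rw [norm_mul]
    exact mul_le_mul (hP.entry_le hΛ j c) (((hent _ _ hP).1 l c k).trans
      (mul_le_mul_of_nonneg_left (Real.sqrt_le_sqrt hS') hC₁)) (norm_nonneg _) hΛ.le
  have b2 : ∀ l j k, ‖dzb l (fun w => Ks w j k) z‖
      ≤ (Fintype.card ι : ℝ) * (Λ * (C₁ * Real.sqrt S₁)) := by
    intro l j k
    have e : dzb l (fun w => Ks w j k) z = (dzbM l Ks z) j k := rfl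
    rw [e, ← conjTranspose_dzM_of_isHermitian hH, Matrix.conjTranspose_apply, norm_star]
    exact b1 l k j
  have e1 : fderiv ℝ (fun w => Ks w j k) z (eb l)
      = dz l (fun w => Ks w j k) z + dzb l (fun w => Ks w j k) z := by
    rw [dz_def, dzb_def]; ring
  have e2 : fderiv ℝ (fun w => Ks w j k) z (Complex.I • eb l)
      = Complex.I * (dz l (fun w => Ks w j k) z - dzb l (fun w => Ks w j k) z) := by
    rw [dz_def, dzb_def]
    linear_combination (fderiv ℝ (fun w => Ks w j k) z (Complex.I • eb l)) * Complex.I_sq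
  constructor
  · rw [e1]
    refine (norm_add_le _ _).trans ?_
    linarith [b1 l j k, b2 l j k]
  · rw [e2, norm_mul, Complex.norm_I, one_mul]
    refine (norm_sub_le _ _).trans ?_
    linarith [b1 l j k, b2 l j k]

end Claimed.Agent.R316.B9
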