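import Claimed.Agent.R316.Pack030
import Claimed.Agent.R316.Pack006
import Claimed.Agent.R316.S7.SC.Win

/-!
# Row 316, package B9: a priori estimates in uniform charts for bounded solutions of the Chern-Ricci potential flow (from (R1))

ALL LEAVES B9-CT-0..4 PROVED (helper11): this file has no `sorry`; auxiliary lemmas: prefix `ct_` (`ct_slice_eq`, `ct_norm_iter_dz`, `ct_pin_lower/upper`, `ct_logdet_bound` via `SC.UB`, `ct_iter_slice`, `ct_integral_bound`).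

Leaves
* **B9-CT-1** `crsol_chart_data`: in a uniform chart `Φ` (radius `r`) the matrix function `K t z = S.K t Φ z` of a solution with `C⁻¹ α ≤ K ≤ C α` satisfies the hypotheses
  of `StCRLocalReg` on `Icc 0 T' ×ˢ ball 0 r` with `Λ' = C Λ`, `τ = torA (α Φ)`.
  (`isHFormST_flowMetric`; `isTimeDeriv_flowMetric_ricF` and `ricF = - levi log det`; `isClosedForm_ricF`, `isClosedForm_ddc` kill the torsion of `- t Ric α + dd U`;
  `flowMetric_zero`; `‖D^m (dz l f)‖ ≤ ‖D^{m+1} f‖`: `dz l f = ½ (Df e_l - i Df (i e_l))`, `norm_iteratedFDeriv_fderiv`, evaluation is a CLM of norm `≤ 1`.)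
* **B9-CT-2** `crsol_K_bounds`: apply `StCRLocalReg` (`r/2`, second alternative), then `slice_within`-type restriction to spatial directions
  (`fderiv_slice_eq` iterated, or `B9.slice_within` of `LocalReg.lean`; restated here as `slice_norm_le`).
* **B9-CT-3** `crsol_P_bounds`: `P t (Φ z) = log ((det K / det α).re)` (`detRatio_eq`), a smooth function of the entries of `K`, `α` on the compact set of pinched pairs;
  `comp_bound` (from `norm_iteratedFDerivWithin_comp_le` or `Dl_comp_bound`).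
* **B9-CT-4** `crsol_U_bounds`: for a list `L` of directions `g t = Dl L (S.U t ∘ Φ) z` has `HasDerivWithinAt g (Dl L (S.P t ∘ Φ) z) (Icc 0 T') t` (induction on `L`,
  `hasDerivWithinAt_fderiv_slice`), `g 0 = 0`, mean value inequality `norm_image_sub_le_of_norm_hasDerivWithin_le`; `norm_iteratedFDeriv_le_of_Dl`, `norm_Dl_le`.
-/

set_option autoImplicit false
set_option maxSynthPendingDepth 3
open scoped ContDiff ComplexOrder Topology

namespace Claimed.Agent.R316.B9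

open Claimed.Agent.R316.S3

/-! ### generic calculus (B9-CT-0, PROVED helper11; aux prefix `ct_`) -/

section Gen

variable {E F G : Type} [NormedAddCommGroup E] [NormedSpace ℝ E] [NormedAddCommGroup F]
  [NormedSpace ℝ F] [NormedAddCommGroup G] [NormedSpace ℝ G]

theorem ct_top_le (k : ℕ) : ((k : ℕ∞) : WithTop ℕ∞) ≤ ∞ := by exact_mod_cast le_top

open scoped Pointwise in
theorem ct_slice_eq {a b : ℝ} (hab : a < b) {U : Set E} (hU : IsOpen U) {f : ℝ × E → F}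
    (hf : ContDiffOn ℝ ∞ f (Set.Icc a b ×ˢ U)) {t : ℝ} {z : E} (ht : t ∈ Set.Icc a b) (hz : z ∈ U)
    (m : ℕ) :
    iteratedFDeriv ℝ m (fun y => f (t, y)) z
      = (iteratedFDerivWithin ℝ m f (Set.Icc a b ×ˢ U) (t, z)).compContinuousLinearMap
          fun _ => ContinuousLinearMap.inr ℝ ℝ E := by
  set A : ℝ × E := (t, 0) with hA
  set s' : Set (ℝ × E) := Set.Icc (a - t) (b - t) ×ˢ U with hs'
  have hmaps : ∀ p ∈ s', A + p ∈ Set.Icc a b ×ˢ U := by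
    rintro ⟨x, y⟩ ⟨hx, hy⟩
    refine ⟨⟨?_, ?_⟩, ?_⟩
    · simp only [hA, Prod.mk_add_mk]; linarith [hx.1]
    · simp only [hA, Prod.mk_add_mk]; linarith [hx.2]
    · simpa [hA] using hy
  have hf' : ContDiffOn ℝ ∞ (fun p => f (A + p)) s' :=
    hf.comp (contDiff_const.add contDiff_id).contDiffOn hmaps
  have hu' : UniqueDiffOn ℝ s' := (uniqueDiffOn_Icc (by linarith)).prod hU.uniqueDiffOn
  have hpre : (ContinuousLinearMap.inr ℝ ℝ E) ⁻¹' s' = U := by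
    ext y
    simp only [hs', Set.mem_preimage, ContinuousLinearMap.inr_apply, Set.mem_prod, Set.mem_Icc]
    constructor
    · exact fun h => h.2
    · exact fun h => ⟨⟨by linarith [ht.1], by linarith [ht.2]⟩, h⟩
  have hz' : (ContinuousLinearMap.inr ℝ ℝ E) z ∈ s' := by
    have : z ∈ (ContinuousLinearMap.inr ℝ ℝ E) ⁻¹' s' := by rw [hpre]; exact hz
    exact this
  have h1 := (ContinuousLinearMap.inr ℝ ℝ E).iteratedFDerivWithin_comp_right hf' hu'
    (by rw [hpre]; exact hU.uniqueDiffOn) hz' (i := m) (ct_top_le m)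
  rw [hpre, iteratedFDerivWithin_of_isOpen m hU hz, iteratedFDerivWithin_comp_add_left] at h1
  have e1 : (fun p => f (A + p)) ∘ (ContinuousLinearMap.inr ℝ ℝ E) = fun y => f (t, y) := by
    funext y
    simp [hA]
  have e2 : A +ᵥ s' = Set.Icc a b ×ˢ U := by
    ext ⟨x, y⟩
    rw [Set.mem_vadd_set_iff_neg_vadd_mem]
    simp only [hA, hs', vadd_eq_add, Prod.neg_mk, Prod.mk_add_mk, neg_zero, zero_add,
      Set.mem_prod, Set.mem_Icc]
    constructor
    · rintro ⟨⟨h1, h2⟩, h3⟩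
      exact ⟨⟨by linarith, by linarith⟩, h3⟩
    · rintro ⟨⟨h1, h2⟩, h3⟩
      exact ⟨⟨by linarith, by linarith⟩, h3⟩
  have e3 : A + (ContinuousLinearMap.inr ℝ ℝ E) z = (t, z) := by simp [hA]
  rw [e1, e2, e3] at h1
  exact h1

/-- spatial derivatives of a time slice are bounded by the space-time derivatives. -/
theorem slice_norm_le {a b : ℝ} (hab : a < b) {U : Set E} (hU : IsOpen U) {f : ℝ × E → F}
    (hf : ContDiffOn ℝ ∞ f (Set.Icc a b ×ˢ U)) {t : ℝ} {z : E} (ht : t ∈ Set.Icc a b) (hz : z ∈ U)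
    (m : ℕ) :
    ‖iteratedFDeriv ℝ m (fun y => f (t, y)) z‖
      ≤ ‖iteratedFDerivWithin ℝ m f (Set.Icc a b ×ˢ U) (t, z)‖ := by
  rw [ct_slice_eq hab hU hf ht hz m]
  refine (ContinuousMultilinearMap.norm_compContinuousLinearMap_le _ _).trans ?_
  have h1 : ∏ _i : Fin m, ‖ContinuousLinearMap.inr ℝ ℝ E‖ ≤ 1 :=
    Finset.prod_le_one (fun _ _ => norm_nonneg _)
      fun _ _ => ContinuousLinearMap.norm_inr_le_one ℝ ℝ E
  calc _ ≤ ‖iteratedFDerivWithin ℝ m f (Set.Icc a b ×ˢ U) (t, z)‖ * 1 :=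
        mul_le_mul_of_nonneg_left h1 (norm_nonneg _)
    _ = _ := mul_one _

/-- derivative bounds of a composition. -/
theorem comp_bound [FiniteDimensional ℝ F] (Ψ : F → G) (W 𝒦 : Set F) (hW : IsOpen W)
    (hΨ : ContDiffOn ℝ ∞ Ψ W) (hK : IsCompact 𝒦) (hsub : 𝒦 ⊆ W) (N : ℕ) (B : ℝ) :
    ∃ C : ℝ, 0 ≤ C ∧ ∀ (h : E → F) (z : E), ContDiffAt ℝ ∞ h z → h z ∈ 𝒦 →
      (∀ k ≤ N, ‖iteratedFDeriv ℝ k h z‖ ≤ B) → ‖iteratedFDeriv ℝ N (fun y => Ψ (h y)) z‖ ≤ C := by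
  have hb : ∀ k : ℕ, ∃ C : ℝ, ∀ y ∈ 𝒦, ‖iteratedFDeriv ℝ k Ψ y‖ ≤ C := by
    intro k
    have hc : ContinuousOn (iteratedFDeriv ℝ k Ψ) 𝒦 := by
      have h1 := (hΨ.continuousOn_iteratedFDerivWithin (ct_top_le k) hW.uniqueDiffOn).mono hsub
      exact h1.congr fun y hy => (iteratedFDerivWithin_of_isOpen k hW (hsub hy)).symm
    exact hK.exists_bound_of_continuousOn hc
  choose Cg hCg using hb
  set C : ℝ := ∑ j ∈ Finset.range (N + 1), max (Cg j) 0 with hC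
  have hC0 : 0 ≤ C := Finset.sum_nonneg fun j _ => le_max_right _ _
  set D : ℝ := 1 + |B| with hD
  have hD1 : 1 ≤ D := by rw [hD]; linarith [abs_nonneg B]
  refine ⟨(N.factorial : ℝ) * C * D ^ N, by positivity, fun h z hh hz hB => ?_⟩
  obtain ⟨u, hu, hzu, hhu⟩ := (hh.of_le (ct_top_le N)).contDiffOn' le_rfl (by simp)
  rw [Set.insert_eq_of_mem (Set.mem_univ z), Set.univ_inter] at hhu
  have hso : IsOpen (u ∩ h ⁻¹' W) := hhu.continuousOn.isOpen_inter_preimage hu hW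
  have hzs : z ∈ u ∩ h ⁻¹' W := ⟨hzu, hsub hz⟩
  have h1 := norm_iteratedFDerivWithin_comp_le (g := Ψ) (f := h) (n := N) (x := z)
    (C := C) (D := D) (hΨ.of_le (ct_top_le N)) (hhu.mono Set.inter_subset_left) le_rfl
    hW.uniqueDiffOn hso.uniqueDiffOn (fun x hx => hx.2) hzs ?_ ?_
  · rw [iteratedFDerivWithin_of_isOpen N hso hzs] at h1
    exact h1
  · intro j hj
    rw [iteratedFDerivWithin_of_isOpen j hW (hsub hz)]
    refine (hCg j _ hz).trans ((le_max_left _ (0 : ℝ)).trans ?_)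
    exact Finset.single_le_sum (f := fun j => max (Cg j) 0) (fun j _ => le_max_right _ _)
      (Finset.mem_range.2 (Nat.lt_succ_of_le hj))
  · intro j hj1 hj
    rw [iteratedFDerivWithin_of_isOpen j hso hzs]
    refine (hB j hj).trans ?_
    have h2 : B ≤ D := by rw [hD]; linarith [le_abs_self B]
    exact h2.trans (le_self_pow₀ hD1 (by omega))

end Gen

variable {V : Type} [NormedAddCommGroup V] [NormedSpace ℝ V] {n : ℕ}

/-! ### auxiliary: Wirtinger derivatives and pinching -/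

section Aux

variable {ι : Type} [Fintype ι] [DecidableEq ι]

/-- the Wirtinger combination as a continuous linear map on the derivative. -/
noncomputable def ctDz (ι : Type) [Fintype ι] [DecidableEq ι] (l : ι) : (CE ι →L[ℝ] ℂ) →L[ℝ] ℂ :=
  (2⁻¹ : ℝ) • (ContinuousLinearMap.apply ℝ ℂ (eb l)
    - (ContinuousLinearMap.mul ℝ ℂ Complex.I).comp
        (ContinuousLinearMap.apply ℝ ℂ (Complex.I • eb l)))

theorem ctDz_apply (l : ι) (T : CE ι →L[ℝ] ℂ) :
    ctDz ι l T = (1 / 2 : ℂ) * (T (eb l) - Complex.I * T (Complex.I • eb l)) := by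
  simp [ctDz, Complex.real_smul]

theorem ct_norm_eb (j : ι) : ‖(eb j : CE ι)‖ = 1 := by
  simp [eb]

theorem norm_ctDz_le (l : ι) : ‖ctDz ι l‖ ≤ 1 := by
  refine ContinuousLinearMap.opNorm_le_bound _ zero_le_one fun T => ?_
  rw [ctDz_apply, one_mul]
  have h1 : ‖T (eb l)‖ ≤ ‖T‖ := by
    have := T.le_opNorm (eb l)
    rwa [ct_norm_eb, mul_one] at this
  have h2 : ‖T (Complex.I • eb l)‖ ≤ ‖T‖ := by
    have := T.le_opNorm (Complex.I • eb l)
    rwa [norm_smul, ct_norm_eb, Complex.norm_I, mul_one, mul_one] at this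
  have h3 : ‖T (eb l) - Complex.I * T (Complex.I • eb l)‖
      ≤ ‖T (eb l)‖ + ‖T (Complex.I • eb l)‖ := by
    refine (norm_sub_le _ _).trans ?_
    rw [norm_mul, Complex.norm_I, one_mul]
  have h4 : ‖(1 / 2 : ℂ)‖ = 1 / 2 := by norm_num
  rw [norm_mul, h4]
  linarith

theorem ct_norm_iter_dz {f : CE ι → ℂ} {z : CE ι} (hf : ContDiffAt ℝ ∞ f z) (l : ι) (m : ℕ) :
    ‖iteratedFDeriv ℝ m (fun y => dz l f y) z‖ ≤ ‖iteratedFDeriv ℝ (m + 1) f z‖ := by
  have e : (fun y => dz l f y) = (ctDz ι l) ∘ (fderiv ℝ f) := by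
    funext y
    simp only [Function.comp_apply, ctDz_apply, dz]
  rw [e, (ctDz ι l).iteratedFDeriv_comp_left (hf.fderiv_right (m := ∞) (by simp)) (ct_top_le m)]
  refine ((ctDz ι l).norm_compContinuousMultilinearMap_le _).trans ?_
  rw [norm_iteratedFDeriv_fderiv]
  calc _ ≤ 1 * ‖iteratedFDeriv ℝ (m + 1) f z‖ :=
        mul_le_mul_of_nonneg_right (norm_ctDz_le l) (norm_nonneg _)
    _ = _ := one_mul _

theorem ct_contDiffAt_dz {f : CE ι → ℂ} {z : CE ι} (hf : ContDiffAt ℝ ∞ f z) (l : ι) :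
    ContDiffAt ℝ ∞ (fun y => dz l f y) z := by
  have e : (fun y => dz l f y) = (ctDz ι l) ∘ (fderiv ℝ f) := by
    funext y
    simp only [Function.comp_apply, ctDz_apply, dz]
  rw [e]
  exact (ctDz ι l).contDiff.contDiffAt.comp z (hf.fderiv_right (m := ∞) (by simp))

theorem ct_pin_lower {K A : Matrix ι ι ℂ} {C Λ : ℝ} (hC : 0 < C)
    (h1 : (((C : ℝ) : ℂ) • K - A).PosSemidef) (h2 : leM (cI Λ⁻¹) A) : leM (cI (C * Λ)⁻¹) K := by
  have h3 : (((C : ℝ) : ℂ) • K - cI Λ⁻¹).PosSemidef := loewner_trans h2 h1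
  have h4 := posSemidef_smul_real (inv_pos.2 hC).le h3
  have e : K - cI (C * Λ)⁻¹ = ((C⁻¹ : ℝ) : ℂ) • (((C : ℝ) : ℂ) • K - cI Λ⁻¹) := by
    simp only [cI, smul_sub, smul_smul, ← Complex.ofReal_mul, inv_mul_cancel₀ hC.ne', mul_inv,
      Complex.ofReal_one, one_smul]
  unfold leM
  rw [e]
  exact h4

theorem ct_pin_upper {K A : Matrix ι ι ℂ} {C Λ : ℝ} (hC : 0 < C)
    (h1 : (((C : ℝ) : ℂ) • A - K).PosSemidef) (h2 : leM A (cI Λ)) : leM K (cI (C * Λ)) := by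
  have h4 := posSemidef_smul_real hC.le h2
  have e : cI (C * Λ) - K = (((C : ℝ) : ℂ) • A - K) + ((C : ℝ) : ℂ) • (cI Λ - A) := by
    simp only [cI, smul_sub, smul_smul, ← Complex.ofReal_mul]
    abel
  unfold leM
  rw [e]
  exact h1.add h4

end Aux

/-! ### B9-CT-1 -/

theorem crsol_chart_data {X : CMfd V (Fin n)} {α : HFam V (Fin n)} {r Λ C T' : ℝ} {Ck : ℕ → ℝ}
    {Φ : CE (Fin n) → V} (hα : IsMetric X α) (hΦ : UChart X α r Λ Ck Φ) (hΛ : 0 < Λ) (hC : 0 < C)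
    (hT : 0 < T') (S : CRSol X α T')
    (hS : ∀ t ∈ Set.Icc (0 : ℝ) T', leF X (S.K t) (smulF (fun _ => C) α) ∧
      leF X α (smulF (fun _ => C) (S.K t))) :
    (∀ j k, ContDiffOn ℝ ∞ (fun q : ℝ × CE (Fin n) => S.K q.1 Φ q.2 j k)
      (Set.Icc 0 T' ×ˢ Metric.ball 0 r)) ∧
    (∀ t ∈ Set.Icc 0 T', ∀ z ∈ Metric.ball (0 : CE (Fin n)) r,
      (S.K t Φ z).IsHermitian ∧ leM (cI (C * Λ)⁻¹) (S.K t Φ z) ∧ leM (S.K t Φ z) (cI (C * Λ))) ∧
    (∀ t ∈ Set.Icc 0 T', ∀ z ∈ Metric.ball (0 : CE (Fin n)) r, ∀ j k,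
      HasDerivWithinAt (fun s => S.K s Φ z j k)
        (levi (fun y => Real.log (S.K t Φ y).det.re) z j k) (Set.Icc 0 T') t) ∧
    (∀ t ∈ Set.Icc 0 T', ∀ z ∈ Metric.ball (0 : CE (Fin n)) r, ∀ j k l,
      dz l (fun y => S.K t Φ y j k) z - dz k (fun y => S.K t Φ y j l) z = torA (α Φ) z j k l) ∧
    (∀ (m : ℕ) (j k l : Fin n), ∀ z ∈ Metric.ball (0 : CE (Fin n)) r,
      ‖iteratedFDeriv ℝ m (fun y => torA (α Φ) y j k l) z‖ ≤ 2 * Ck (m + 1)) ∧
    (∀ (m : ℕ) (j k : Fin n), ∀ z ∈ Metric.ball (0 : CE (Fin n)) r,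
      ‖iteratedFDeriv ℝ m (fun y => S.K 0 Φ y j k) z‖ ≤ Ck m) := by
  have hH : X.IsHol Φ (Metric.ball 0 r) := hΦ.isHol
  have hI : IsTimeDom (Set.Icc (0 : ℝ) T') := isTimeDom_Icc hT
  have hαd : ∀ z ∈ Metric.ball (0 : CE (Fin n)) r, ∀ j k,
      ContDiffAt ℝ ∞ (fun y => α Φ y j k) z := fun z hz j k =>
    (hα.smooth hH j k).contDiffAt (Metric.isOpen_ball.mem_nhds hz)
  refine ⟨?_, ?_, ?_, ?_, ?_, ?_⟩
  · exact fun j k => (isHFormST_flowMetric hI hα S.U_smooth).smooth Φ _ hH j k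
  · intro t ht z hz
    refine ⟨(S.metric t ht).herm hH z hz, ?_, ?_⟩
    · exact ct_pin_lower hC ((hS t ht).2 Φ _ hH z hz) (hΦ.lower z hz)
    · exact ct_pin_upper hC ((hS t ht).1 Φ _ hH z hz) (hΦ.upper z hz)
  · intro t ht z hz j k
    have h1 := isTimeDeriv_flowMetric_ricF hI hα S.U_smooth S.U_t S.metric S.P_eq Φ _ hH z hz t ht j k
    have e : (- ricF (flowMetric α S.U t) Φ z) j k
        = levi (fun y => Real.log (S.K t Φ y).det.re) z j k := by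
      simp only [ricF, neg_neg, CRSol.K]
    rw [← e]
    exact h1
  · intro t ht z hz j k l
    have hUt : X.Smooth (S.U t) := S.U_smooth.smooth ht
    have hB : IsHForm X (fun Φ z => ddc (S.U t) Φ z - ((t : ℝ) : ℂ) • ricF α Φ z) :=
      (isHForm_ddc hUt).sub ((isHForm_ricF hα).smul_real t)
    have cB : IsClosedForm X (fun Φ z => ddc (S.U t) Φ z - ((t : ℝ) : ℂ) • ricF α Φ z) :=
      IsClosedForm.sub (isHForm_ddc hUt) ((isHForm_ricF hα).smul_real t) (isClosedForm_ddc hUt)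
        (IsClosedForm.smul_real t (isHForm_ricF hα) (isClosedForm_ricF hα))
    have e : ∀ a b : Fin n, (fun y => S.K t Φ y a b) = fun y => α Φ y a b
        + (ddc (S.U t) Φ y - ((t : ℝ) : ℂ) • ricF α Φ y) a b := by
      intro a b
      funext y
      simp only [CRSol.K, flowMetric_apply, Matrix.add_apply, Matrix.sub_apply]
      ring
    rw [e j k, e j l, dz_add (hα.toIsHForm.differentiableAt hH hz j k) (hB.differentiableAt hH hz j k),
      dz_add (hα.toIsHForm.differentiableAt hH hz j l) (hB.differentiableAt hH hz j l),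
      cB Φ _ hH z hz j k l]
    simp only [torA]
    ring
  · intro m j k l z hz
    have e : (fun y => torA (α Φ) y j k l)
        = (fun y => dz l (fun w => α Φ w j k) y) + (- fun y => dz k (fun w => α Φ w j l) y) := by
      funext y
      simp only [torA, Pi.add_apply, Pi.neg_apply, sub_eq_add_neg]
    have c1 : ContDiffAt ℝ m (fun y => dz l (fun w => α Φ w j k) y) z :=
      (ct_contDiffAt_dz (hαd z hz j k) l).of_le (ct_top_le m)
    have c2 : ContDiffAt ℝ m (- fun y => dz k (fun w => α Φ w j l) y) z :=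
      ((ct_contDiffAt_dz (hαd z hz j l) k).of_le (ct_top_le m)).neg
    rw [e, iteratedFDeriv_add_apply c1 c2, iteratedFDeriv_neg_apply]
    refine (norm_add_le _ _).trans ?_
    rw [norm_neg]
    have h1 := (ct_norm_iter_dz (hαd z hz j k) l m).trans (hΦ.deriv (m + 1) j k z hz)
    have h2 := (ct_norm_iter_dz (hαd z hz j l) k m).trans (hΦ.deriv (m + 1) j l z hz)
    linarith
  · intro m j k z hz
    have e : (fun y => S.K 0 Φ y j k) =ᶠ[𝓝 z] fun y => α Φ y j k := by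
      filter_upwards [Metric.isOpen_ball.mem_nhds hz] with y hy
      rw [CRSol.K, flowMetric_zero S.U_zero hH hy]
    rw [(Filter.EventuallyEq.iteratedFDeriv (𝕜 := ℝ) e m).eq_of_nhds]
    exact hΦ.deriv m j k z hz

/-! ### B9-CT-2 -/

theorem crsol_K_bounds (hR1 : StCRLocalReg) (n : ℕ) (r Λ C T : ℝ) (Ck : ℕ → ℝ) (hr : 0 < r)
    (hΛ : 0 < Λ) (hC : 0 < C) :
    ∃ CK : ℕ → ℝ, ∀ (V : Type) [NormedAddCommGroup V] [NormedSpace ℝ V] (X : CMfd V (Fin n))
      (α : HFam V (Fin n)) (Φ : CE (Fin n) → V) (T' : ℝ), IsMetric X α → UChart X α r Λ Ck Φ →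
      0 < T' → T' ≤ T → ∀ S : CRSol X α T',
      (∀ t ∈ Set.Icc (0 : ℝ) T', leF X (S.K t) (smulF (fun _ => C) α) ∧
        leF X α (smulF (fun _ => C) (S.K t))) →
      ∀ (m : ℕ) (j k : Fin n), ∀ t ∈ Set.Icc (0 : ℝ) T', ∀ z ∈ Metric.ball (0 : CE (Fin n)) (r / 2),
        ‖iteratedFDeriv ℝ m (fun y => S.K t Φ y j k) z‖ ≤ CK m := by
  obtain ⟨_, Cb, h⟩ := hR1 n (r / 2) 1 (C * Λ) T (fun m => 2 * Ck (m + 1)) Ck (by positivity)
    one_pos (by positivity)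
  refine ⟨Cb, ?_⟩
  intro V _ _ X α Φ T' hα hΦ hT hTT S hS m j k t ht z hz
  obtain ⟨d1, d2, d3, d4, d5, d6⟩ := crsol_chart_data hα hΦ hΛ hC hT S hS
  have e : 2 * (r / 2) = r := by ring
  have h' := h 0 T' (fun t z => S.K t Φ z) (torA (α Φ)) hT (by linarith)
  rw [e] at h'
  have h2 := (h' d1 d2 d3 d4 d5).2 d6 m j k t ht z hz
  have hz' : z ∈ Metric.ball (0 : CE (Fin n)) r := Metric.ball_subset_ball (by linarith) hz
  exact (slice_norm_le hT Metric.isOpen_ball (d1 j k) ht hz' m).trans h2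

/-! ### auxiliary: `log det` of a pinched family (through `SC.UB`) -/

theorem ct_logdet_bound (n : ℕ) (O : Set (CE (Fin n))) (hO : IsOpen O) (Λ : ℝ) (hΛ : 0 < Λ)
    (CK : ℕ → ℝ) :
    ∃ CL : ℕ → ℝ, ∀ A : CE (Fin n) → Matrix (Fin n) (Fin n) ℂ,
      (∀ j k, ContDiffOn ℝ ∞ (fun z => A z j k) O) →
      (∀ (m : ℕ) (j k : Fin n), ∀ z ∈ O, ‖iteratedFDeriv ℝ m (fun y => A y j k) z‖ ≤ CK m) →
      (∀ z ∈ O, leM (cI Λ⁻¹) (A z) ∧ leM (A z) (cI Λ)) →
      ContDiffOn ℝ ∞ (fun y => Real.log (A y).det.re) O ∧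
      ∀ (m : ℕ), ∀ z ∈ O, ‖iteratedFDeriv ℝ m (fun y => Real.log (A y).det.re) z‖ ≤ CL m := by
  set J : Type := {A : CE (Fin n) → Matrix (Fin n) (Fin n) ℂ //
    (∀ j k, ContDiffOn ℝ ∞ (fun z => A z j k) O) ∧
    (∀ (m : ℕ) (j k : Fin n), ∀ z ∈ O, ‖iteratedFDeriv ℝ m (fun y => A y j k) z‖ ≤ CK m) ∧
    (∀ z ∈ O, leM (cI Λ⁻¹) (A z) ∧ leM (A z) (cI Λ))} with hJ
  have u0 : ∀ j k, SC.UB O (fun (A : J) z => A.1 z j k) := fun j k =>
    ⟨fun A => A.2.1 j k, fun m => ⟨CK m, fun A z hz => A.2.2.1 m j k z hz⟩⟩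
  have u1 : SC.UB O (fun (A : J) z => (A.1 z).det.re) :=
    (SC.sl_ub_det hO u0).clm hO Complex.reCLM
  have hc : 0 < Λ⁻¹ ^ Fintype.card (Fin n) := pow_pos (inv_pos.2 hΛ) _
  have hmem : ∀ (A : J), ∀ z ∈ O, (A.1 z).det.re ∈
      Set.Icc (Λ⁻¹ ^ Fintype.card (Fin n)) (Λ ^ Fintype.card (Fin n)) := by
    intro A z hz
    have hl := (A.2.2.2 z hz).1
    have hu := (A.2.2.2 z hz).2
    have hpd : (A.1 z).PosDef :=
      posDef_of_loewner (posDef_smul_real (inv_pos.2 hΛ) Matrix.PosDef.one) hl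
    have h1 := pow_mul_det_le (inv_pos.2 hΛ).le (Matrix.PosDef.one (n := Fin n) (R := ℂ)) hl
    have h2 := det_le_pow_mul (c := Λ) (Matrix.PosDef.one (n := Fin n) (R := ℂ)) hpd.posSemidef hu
    simp only [Matrix.det_one, Complex.one_re, mul_one] at h1 h2
    exact ⟨h1, h2⟩
  have u2 : SC.UB O (fun (A : J) z => Real.log (A.1 z).det.re) := by
    refine SC.UB.comp_compact hO (U := Set.Ioi (0 : ℝ))
      (S := Set.Icc (Λ⁻¹ ^ Fintype.card (Fin n)) (Λ ^ Fintype.card (Fin n))) (γ := Real.log)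
      isOpen_Ioi ?_ isCompact_Icc (fun y hy => hc.trans_le hy.1) u1 hmem
    exact contDiffOn_id.log fun y hy => (ne_of_gt hy)
  choose CL hCL using u2.bdd
  exact ⟨CL, fun A a1 a2 a3 => ⟨u2.smooth ⟨A, a1, a2, a3⟩,
    fun m z hz => hCL m ⟨A, a1, a2, a3⟩ z hz⟩⟩

/-! ### B9-CT-3 -/

theorem crsol_P_bounds (hR1 : StCRLocalReg) (n : ℕ) (r Λ C T : ℝ) (Ck : ℕ → ℝ) (hr : 0 < r)
    (hΛ : 0 < Λ) (hC : 0 < C) :
    ∃ CP : ℕ → ℝ, ∀ (V : Type) [NormedAddCommGroup V] [NormedSpace ℝ V] (X : CMfd V (Fin n))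
      (α : HFam V (Fin n)) (Φ : CE (Fin n) → V) (T' : ℝ), IsMetric X α → UChart X α r Λ Ck Φ →
      0 < T' → T' ≤ T → ∀ S : CRSol X α T',
      (∀ t ∈ Set.Icc (0 : ℝ) T', leF X (S.K t) (smulF (fun _ => C) α) ∧
        leF X α (smulF (fun _ => C) (S.K t))) →
      ∀ (m : ℕ), ∀ t ∈ Set.Icc (0 : ℝ) T', ∀ z ∈ Metric.ball (0 : CE (Fin n)) (r / 2),
        ‖iteratedFDeriv ℝ m (S.P t ∘ Φ) z‖ ≤ CP m := by
  obtain ⟨CK, hCK⟩ := crsol_K_bounds hR1 n r Λ C T Ck hr hΛ hC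
  have hO : IsOpen (Metric.ball (0 : CE (Fin n)) (r / 2)) := Metric.isOpen_ball
  obtain ⟨C1, hC1⟩ := ct_logdet_bound n _ hO (C * Λ) (by positivity) CK
  obtain ⟨C2, hC2⟩ := ct_logdet_bound n _ hO Λ hΛ Ck
  refine ⟨fun m => C1 m + C2 m, ?_⟩
  intro V _ _ X α Φ T' hα hΦ hT hTT S hS m t ht z hz
  have hH : X.IsHol Φ (Metric.ball 0 r) := hΦ.isHol
  have hsub : Metric.ball (0 : CE (Fin n)) (r / 2) ⊆ Metric.ball 0 r :=
    Metric.ball_subset_ball (by linarith)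
  obtain ⟨_, d2, _, _, _, _⟩ := crsol_chart_data hα hΦ hΛ hC hT S hS
  obtain ⟨s1, b1⟩ := hC1 (fun y => S.K t Φ y)
    (fun j k => ((S.metric t ht).smooth hH j k).mono hsub)
    (fun m j k z hz => hCK V X α Φ T' hα hΦ hT hTT S hS m j k t ht z hz)
    (fun z hz => (d2 t ht z (hsub hz)).2)
  obtain ⟨s2, b2⟩ := hC2 (fun y => α Φ y) (fun j k => (hα.smooth hH j k).mono hsub)
    (fun m j k z hz => hΦ.deriv m j k z (hsub hz))
    (fun z hz => ⟨hΦ.lower z (hsub hz), hΦ.upper z (hsub hz)⟩)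
  have e : (S.P t ∘ Φ) =ᶠ[𝓝 z] ((fun y => Real.log (S.K t Φ y).det.re)
      + (- fun y => Real.log (α Φ y).det.re)) := by
    filter_upwards [hO.mem_nhds hz] with y hy
    have hy' := hsub hy
    simp only [Function.comp_apply, Pi.add_apply, Pi.neg_apply]
    rw [S.P_eq t ht (Φ y) (CMfd.mem_carrier hH hy'),
      detRatio_eq (S.metric t ht).toIsHForm hα hH hy',
      log_det_div_re ((S.metric t ht).posDef hH y hy') (hα.posDef hH y hy'), sub_eq_add_neg]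
    rfl
  have c1 : ContDiffAt ℝ m (fun y => Real.log (S.K t Φ y).det.re) z :=
    (s1.contDiffAt (hO.mem_nhds hz)).of_le (ct_top_le m)
  have c2 : ContDiffAt ℝ m (- fun y => Real.log (α Φ y).det.re) z :=
    ((s2.contDiffAt (hO.mem_nhds hz)).of_le (ct_top_le m)).neg
  rw [(Filter.EventuallyEq.iteratedFDeriv (𝕜 := ℝ) e m).eq_of_nhds,
    iteratedFDeriv_add_apply c1 c2, iteratedFDeriv_neg_apply]
  refine (norm_add_le _ _).trans ?_
  rw [norm_neg]
  exact add_le_add (b1 m z hz) (b2 m z hz)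

/-! ### auxiliary: time derivative of the spatial derivatives of a slice -/

section Gen2

variable {E F : Type} [NormedAddCommGroup E] [NormedSpace ℝ E] [NormedAddCommGroup F]
  [NormedSpace ℝ F]

theorem ct_iter_succ {f : E → F} {z : E} (hf : ContDiffAt ℝ ∞ f z) (m : ℕ) (v : Fin (m + 1) → E) :
    iteratedFDeriv ℝ (m + 1) f z v
      = fderiv ℝ (fun y => iteratedFDeriv ℝ m f y (Fin.tail v)) z (v 0) := by
  have hd : DifferentiableAt ℝ (iteratedFDeriv ℝ m f) z :=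
    hf.differentiableAt_iteratedFDeriv (by exact_mod_cast WithTop.coe_lt_top _)
  rw [iteratedFDeriv_succ_apply_left, fderiv_continuousMultilinear_apply_const_apply hd]

theorem ct_iter_slice {I : Set ℝ} {U : Set E} (hI : IsTimeDom I) (hU : IsOpen U) (m : ℕ) :
    ∀ (v : Fin m → E) {G Gt : ℝ × E → F}, ContDiffOn ℝ ∞ G (I ×ˢ U) →
      (∀ t ∈ I, ∀ y ∈ U, HasDerivWithinAt (fun s => G (s, y)) (Gt (t, y)) I t) →
      ContDiffOn ℝ ∞ (fun q : ℝ × E => iteratedFDeriv ℝ m (fun y => G (q.1, y)) q.2 v) (I ×ˢ U) ∧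
      ∀ t ∈ I, ∀ z ∈ U, HasDerivWithinAt (fun s => iteratedFDeriv ℝ m (fun y => G (s, y)) z v)
        (iteratedFDeriv ℝ m (fun y => Gt (t, y)) z v) I t := by
  induction m with
  | zero =>
    intro v G Gt hG hGt
    simp only [iteratedFDeriv_zero_apply]
    exact ⟨hG, hGt⟩
  | succ m ih =>
    intro v G Gt hG hGt
    have hGt' : ContDiffOn ℝ ∞ Gt (I ×ˢ U) := contDiffOn_of_hasDerivWithinAt_slice hI hU hG hGt
    obtain ⟨a1, a2⟩ := ih (Fin.tail v) hG hGt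
    have es : ∀ {K : ℝ × E → F}, ContDiffOn ℝ ∞ K (I ×ˢ U) → ∀ t ∈ I, ∀ z ∈ U,
        iteratedFDeriv ℝ (m + 1) (fun y => K (t, y)) z v
          = fderiv ℝ (fun y => iteratedFDeriv ℝ m (fun y' => K (t, y')) y (Fin.tail v)) z (v 0) :=
      fun hK t ht z hz =>
        ct_iter_succ ((contDiffOn_slice_space hK ht).contDiffAt (hU.mem_nhds hz)) m v
    constructor
    · exact (contDiffOn_fderiv_slice hI hU a1 (v 0)).congr fun q hq => es hG q.1 hq.1 q.2 hq.2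
    · intro t ht z hz
      have h1 := hasDerivWithinAt_fderiv_slice
        (F := fun q : ℝ × E => iteratedFDeriv ℝ m (fun y => G (q.1, y)) q.2 (Fin.tail v))
        (Ft := fun q : ℝ × E => iteratedFDeriv ℝ m (fun y => Gt (q.1, y)) q.2 (Fin.tail v))
        hI hU a1 a2 ht hz (v 0)
      rw [es hGt' t ht z hz]
      exact h1.congr (fun s hs => es hG s hs z hz) (es hG t ht z hz)

/-- a function vanishing at time `0` whose time derivative has bounded spatial derivatives. -/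
theorem ct_integral_bound {T' B : ℝ} (hT : 0 < T') {U : Set E} (hU : IsOpen U) {G Gt : ℝ × E → F}
    (hG : ContDiffOn ℝ ∞ G (Set.Icc 0 T' ×ˢ U))
    (hGt : ∀ t ∈ Set.Icc (0 : ℝ) T', ∀ y ∈ U,
      HasDerivWithinAt (fun s => G (s, y)) (Gt (t, y)) (Set.Icc 0 T') t)
    (h0 : ∀ y ∈ U, G (0, y) = 0) (m : ℕ) {z : E} (hz : z ∈ U) (hB0 : 0 ≤ B)
    (hB : ∀ t ∈ Set.Icc (0 : ℝ) T', ‖iteratedFDeriv ℝ m (fun y => Gt (t, y)) z‖ ≤ B) :
    ∀ t ∈ Set.Icc (0 : ℝ) T', ‖iteratedFDeriv ℝ m (fun y => G (t, y)) z‖ ≤ B * T' := by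
  intro t ht
  have hI : IsTimeDom (Set.Icc (0 : ℝ) T') := isTimeDom_Icc hT
  refine ContinuousMultilinearMap.opNorm_le_bound (by positivity) fun v => ?_
  obtain ⟨_, a2⟩ := ct_iter_slice hI hU m v hG hGt
  have h1 := Convex.norm_image_sub_le_of_norm_hasDerivWithin_le
    (f := fun s => iteratedFDeriv ℝ m (fun y => G (s, y)) z v)
    (f' := fun s => iteratedFDeriv ℝ m (fun y => Gt (s, y)) z v) (C := B * ∏ i, ‖v i‖)
    (s := Set.Icc (0 : ℝ) T') (x := 0) (y := t) (fun s hs => a2 s hs z hz)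
    (fun s hs => (ContinuousMultilinearMap.le_opNorm _ v).trans
      (mul_le_mul_of_nonneg_right (hB s hs) (Finset.prod_nonneg fun _ _ => norm_nonneg _)))
    (convex_Icc _ _) ⟨le_rfl, hT.le⟩ ht
  have e0 : iteratedFDeriv ℝ m (fun y => G (0, y)) z = 0 := by
    have e : (fun y => G (0, y)) =ᶠ[𝓝 z] fun _ => (0 : F) := by
      filter_upwards [hU.mem_nhds hz] with y hy
      exact h0 y hy
    rw [(Filter.EventuallyEq.iteratedFDeriv (𝕜 := ℝ) e m).eq_of_nhds]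
    exact congrFun iteratedFDeriv_fun_zero z
  simp only [e0, zero_apply, sub_zero] at h1
  refine h1.trans ?_
  rw [Real.norm_eq_abs, abs_of_nonneg ht.1]
  have hp : 0 ≤ ∏ i, ‖v i‖ := Finset.prod_nonneg fun _ _ => norm_nonneg _
  have : B * (∏ i, ‖v i‖) * t ≤ B * (∏ i, ‖v i‖) * T' :=
    mul_le_mul_of_nonneg_left ht.2 (by positivity)
  linarith

end Gen2

/-! ### B9-CT-4 -/

theorem crsol_U_bounds (hR1 : StCRLocalReg) (n : ℕ) (r Λ C T : ℝ) (Ck : ℕ → ℝ) (hr : 0 < r)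
    (hΛ : 0 < Λ) (hC : 0 < C) :
    ∃ Cu : ℕ → ℝ, ∀ (V : Type) [NormedAddCommGroup V] [NormedSpace ℝ V] (X : CMfd V (Fin n))
      (α : HFam V (Fin n)) (Φ : CE (Fin n) → V) (T' : ℝ), IsMetric X α → UChart X α r Λ Ck Φ →
      0 < T' → T' ≤ T → ∀ S : CRSol X α T',
      (∀ t ∈ Set.Icc (0 : ℝ) T', leF X (S.K t) (smulF (fun _ => C) α) ∧
        leF X α (smulF (fun _ => C) (S.K t))) →
      ∀ (m : ℕ), ∀ t ∈ Set.Icc (0 : ℝ) T', ∀ z ∈ Metric.ball (0 : CE (Fin n)) (r / 2),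
        ‖iteratedFDeriv ℝ m (S.U t ∘ Φ) z‖ ≤ Cu m := by
  obtain ⟨CP, hCP⟩ := crsol_P_bounds hR1 n r Λ C T Ck hr hΛ hC
  refine ⟨fun m => CP m * T, ?_⟩
  intro V _ _ X α Φ T' hα hΦ hT hTT S hS m t ht z hz
  have hH : X.IsHol Φ (Metric.ball 0 r) := hΦ.isHol
  have hz' : z ∈ Metric.ball (0 : CE (Fin n)) r := Metric.ball_subset_ball (by linarith) hz
  have hb := fun s hs => hCP V X α Φ T' hα hΦ hT hTT S hS m s hs z hz
  have hB0 : 0 ≤ CP m := (norm_nonneg _).trans (hb t ht)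
  have h1 := ct_integral_bound (G := fun q : ℝ × CE (Fin n) => S.U q.1 (Φ q.2))
    (Gt := fun q : ℝ × CE (Fin n) => S.P q.1 (Φ q.2)) hT Metric.isOpen_ball
    (S.U_smooth Φ _ hH) (fun t ht y hy => S.U_t t ht (Φ y) (CMfd.mem_carrier hH hy))
    (fun y hy => S.U_zero (Φ y) (CMfd.mem_carrier hH hy)) m hz' hB0 hb t ht
  exact h1.trans (mul_le_mul_of_nonneg_left hTT hB0)

end Claimed.Agent.R316.B9
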