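import Claimed.Agent.R316.B9.CRQSys
import Claimed.Agent.R316.S3.Defs

/-!
# Row 316, package B9: `S3.StCRLocalReg` (R1) from the core theorem `cr_core`

Data on the NON-open set `s = Icc a b ×ˢ ball 0 (2r)`.  `O := Ioo a b ×ˢ ball 0 (2r)`, `ρ = 3r/2`, `ρ' = r`.
* `crc_of_data`: the hypotheses of `StCRLocalReg` give `CRC O K τ Λ Bτ` (`HasDerivWithinAt.hasDerivAt`, `Icc_mem_nhds`).
* `within_eq_interior`: at points of `O`, `iteratedFDerivWithin … s = iteratedFDeriv` (`iteratedFDerivWithin_eq_iteratedFDeriv`,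
  `UniqueDiffOn.prod`, `uniqueDiffOn_Icc`, `IsOpen.uniqueDiffOn`).
* `bound_closure`: `(t,z) ↦ iteratedFDerivWithin ℝ m f s (t,z)` is continuous on `s` (`ContDiffOn.continuousOn_iteratedFDerivWithin`), so a bound for
  `t ∈ Ioo a b ∩ Ici c` passes to `t ∈ Icc a b ∩ Ici c` (`c < b`; approximate `t = a` from the right and `t = b` from the left, `le_of_tendsto`).
* `slice_within`: `iteratedFDeriv ℝ m (fun y => f (t, y)) z v = iteratedFDerivWithin ℝ m f s (t, z) (fun i => (0, v i))` for `(t,z) ∈ s`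
  (composition with the affine map `y ↦ (t, y)`).
* `initial_approx`: by `slice_within`, continuity and compactness of `Icc a b ×ˢ closedBall 0 ρ`: for every `N` there is `η > 0` with
  `‖iteratedFDeriv ℝ m (K t₀ ·) z‖ ≤ B0 m + 1` for `t₀ ∈ Icc a (a + η)`, `|z| ≤ ρ`, `m ≤ N`.
* (b): `t₀ = a + δ/4`, `t₁ = t < b`, `cr_core (b)` with `δ/4` bounds all `t ∈ Ioo a b` with `c := a + δ/2 ≤ t`; `c < b` if `Icc (a+δ) b ≠ ∅`; `bound_closure`.  (a): for `t ∈ Ioo a b` choose `t₀ ∈ Ioo a (min t (a + η))`, `t₁ = t`.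
  The constants of `cr_core` do not depend on `t₀, t₁` (`len` is not used).

Leaves: **B9-LR-1** (`crc_of_data`, `within_eq_interior`, `bound_closure`) PROVED (helper11), **B9-LR-2** (`slice_within`, `initial_approx`) PROVED (helper11; aux prefix `lr_`), **B9-LR-3** (`stCRLocalReg`) PROVED (helper11) from `cr_core`.
-/

set_option autoImplicit false
set_option maxSynthPendingDepth 3
open scoped ContDiff ComplexOrder Topology Matrix

namespace Claimed.Agent.R316.B9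

variable {ι : Type} [Fintype ι] [DecidableEq ι]

/-! ### B9-LR-1 -/

theorem crc_of_data {a b R Λ : ℝ} {Bτ : ℕ → ℝ} {K : ℝ → CE ι → Matrix ι ι ℂ}
    {τ : CE ι → ι → ι → ι → ℂ}
    (h1 : ∀ j k, ContDiffOn ℝ ∞ (fun q : ℝ × CE ι => K q.1 q.2 j k)
      (Set.Icc a b ×ˢ Metric.ball 0 R))
    (h2 : ∀ t ∈ Set.Icc a b, ∀ z ∈ Metric.ball (0 : CE ι) R,
      (K t z).IsHermitian ∧ leM (cI Λ⁻¹) (K t z) ∧ leM (K t z) (cI Λ))
    (h3 : ∀ t ∈ Set.Icc a b, ∀ z ∈ Metric.ball (0 : CE ι) R, ∀ j k,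
      HasDerivWithinAt (fun s => K s z j k)
        (levi (fun y => Real.log (K t y).det.re) z j k) (Set.Icc a b) t)
    (h4 : ∀ t ∈ Set.Icc a b, ∀ z ∈ Metric.ball (0 : CE ι) R, ∀ j k l,
      dz l (fun y => K t y j k) z - dz k (fun y => K t y j l) z = τ z j k l)
    (h5 : ∀ (m : ℕ) (j k l : ι), ∀ z ∈ Metric.ball (0 : CE ι) R,
      ‖iteratedFDeriv ℝ m (fun y => τ y j k l) z‖ ≤ Bτ m) :
    CRC (Set.Ioo a b ×ˢ Metric.ball 0 R) K τ Λ Bτ := by
  have hI : ∀ q ∈ Set.Ioo a b ×ˢ Metric.ball (0 : CE ι) R, q.1 ∈ Set.Icc a b := fun q hq =>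
    Set.Ioo_subset_Icc_self hq.1
  exact
    { isOpen := isOpen_Ioo.prod Metric.isOpen_ball
      smooth := fun j k => (h1 j k).mono (Set.prod_mono Set.Ioo_subset_Icc_self (subset_refl _))
      herm := fun q hq => (h2 q.1 (hI q hq) q.2 hq.2).1
      lower := fun q hq => (h2 q.1 (hI q hq) q.2 hq.2).2.1
      upper := fun q hq => (h2 q.1 (hI q hq) q.2 hq.2).2.2
      flow := fun q hq j k =>
        ((h3 q.1 (hI q hq) q.2 hq.2 j k).hasDerivAt (Icc_mem_nhds hq.1.1 hq.1.2)).deriv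
      tors := fun q hq j k l => h4 q.1 (hI q hq) q.2 hq.2 j k l
      tbd := fun q hq m j k l => h5 m j k l q.2 hq.2 }

section Gen

variable {E F : Type} [NormedAddCommGroup E] [NormedSpace ℝ E] [NormedAddCommGroup F]
  [NormedSpace ℝ F]

theorem lr_top_le (k : ℕ) : ((k : ℕ∞) : WithTop ℕ∞) ≤ ∞ := by exact_mod_cast le_top

theorem lr_uniqueDiffOn {a b : ℝ} (hab : a < b) {U : Set E} (hU : IsOpen U) :
    UniqueDiffOn ℝ (Set.Icc a b ×ˢ U) := (uniqueDiffOn_Icc hab).prod hU.uniqueDiffOn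

theorem within_eq_interior {a b : ℝ} {U : Set E} (hU : IsOpen U) {f : ℝ × E → F}
    (hf : ContDiffOn ℝ ∞ f (Set.Icc a b ×ˢ U)) {t : ℝ} {z : E} (ht : t ∈ Set.Ioo a b) (hz : z ∈ U)
    (m : ℕ) :
    iteratedFDerivWithin ℝ m f (Set.Icc a b ×ˢ U) (t, z) = iteratedFDeriv ℝ m f (t, z) := by
  have hab : a < b := ht.1.trans ht.2
  have hn : Set.Icc a b ×ˢ U ∈ 𝓝 (t, z) := prod_mem_nhds (Icc_mem_nhds ht.1 ht.2) (hU.mem_nhds hz)
  exact iteratedFDerivWithin_eq_iteratedFDeriv (lr_uniqueDiffOn hab hU)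
    ((hf.contDiffAt hn).of_le (lr_top_le m)) ⟨Set.Ioo_subset_Icc_self ht, hz⟩

theorem lr_continuousOn {a b : ℝ} (hab : a < b) {U : Set E} (hU : IsOpen U)
    {f : ℝ × E → F} (hf : ContDiffOn ℝ ∞ f (Set.Icc a b ×ˢ U)) (m : ℕ) :
    ContinuousOn (iteratedFDerivWithin ℝ m f (Set.Icc a b ×ˢ U)) (Set.Icc a b ×ˢ U) :=
  hf.continuousOn_iteratedFDerivWithin (lr_top_le m) (lr_uniqueDiffOn hab hU)

theorem bound_closure {a b c C : ℝ} (hab : a < b) (hc : c < b) {U : Set E} (hU : IsOpen U)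
    {f : ℝ × E → F} (hf : ContDiffOn ℝ ∞ f (Set.Icc a b ×ˢ U)) (m : ℕ) {z : E} (hz : z ∈ U)
    (h : ∀ t ∈ Set.Ioo a b, c ≤ t → ‖iteratedFDerivWithin ℝ m f (Set.Icc a b ×ˢ U) (t, z)‖ ≤ C) :
    ∀ t ∈ Set.Icc a b, c ≤ t → ‖iteratedFDerivWithin ℝ m f (Set.Icc a b ×ˢ U) (t, z)‖ ≤ C := by
  intro t ht hct
  have hlt : max a c < b := max_lt hab hc
  have hcl : closure (Set.Ioo (max a c) b) = Set.Icc (max a c) b := closure_Ioo hlt.ne
  have hsub : Set.Icc (max a c) b ⊆ Set.Icc a b := Set.Icc_subset_Icc_left (le_max_left _ _)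
  have hcont : ContinuousOn
      (fun t' : ℝ => ‖iteratedFDerivWithin ℝ m f (Set.Icc a b ×ˢ U) (t', z)‖)
      (closure (Set.Ioo (max a c) b)) := by
    rw [hcl]
    refine ((lr_continuousOn hab hU hf m).comp
      (continuous_id.prodMk continuous_const).continuousOn ?_).norm
    intro t' ht'
    exact ⟨hsub ht', hz⟩
  refine le_on_closure (s := Set.Ioo (max a c) b)
    (f := fun t' : ℝ => ‖iteratedFDerivWithin ℝ m f (Set.Icc a b ×ˢ U) (t', z)‖)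
    (g := fun _ => C) ?_ hcont continuousOn_const ?_
  · intro t' ht'
    exact h t' ⟨(le_max_left _ _).trans_lt ht'.1, ht'.2⟩ ((le_max_right _ _).trans ht'.1.le)
  · rw [hcl]
    exact ⟨max_le ht.1 hct, ht.2⟩

/-! ### B9-LR-2 -/

open scoped Pointwise in
theorem lr_slice_eq {a b : ℝ} (hab : a < b) {U : Set E} (hU : IsOpen U) {f : ℝ × E → F}
    (hf : ContDiffOn ℝ ∞ f (Set.Icc a b ×ˢ U)) {t : ℝ} {z : E} (ht : t ∈ Set.Icc a b) (hz : z ∈ U)
    (m : ℕ) :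
    iteratedFDeriv ℝ m (fun y => f (t, y)) z
      = (iteratedFDerivWithin ℝ m f (Set.Icc a b ×ˢ U) (t, z)).compContinuousLinearMap
          fun _ => ContinuousLinearMap.inr ℝ ℝ E := by
  set A : ℝ × E := (t, 0) with hA
  set s' : Set (ℝ × E) := Set.Icc (a - t) (b - t) ×ˢ U with hs'
  have hmaps : ∀ p ∈ s', A + p ∈ Set.Icc a b ×ˢ U := by
    rintro ⟨x, y⟩ ⟨hx, hy⟩
    refine ⟨⟨?_, ?_⟩, ?_⟩
    · simp only [hA, Prod.mk_add_mk]; linarith [hx.1]
    · simp only [hA, Prod.mk_add_mk]; linarith [hx.2]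
    · simpa [hA] using hy
  have hf' : ContDiffOn ℝ ∞ (fun p => f (A + p)) s' :=
    hf.comp (contDiff_const.add contDiff_id).contDiffOn hmaps
  have hu' : UniqueDiffOn ℝ s' := lr_uniqueDiffOn (by linarith) hU
  have hpre : (ContinuousLinearMap.inr ℝ ℝ E) ⁻¹' s' = U := by
    ext y
    simp only [hs', Set.mem_preimage, ContinuousLinearMap.inr_apply, Set.mem_prod, Set.mem_Icc]
    constructor
    · exact fun h => h.2
    · exact fun h => ⟨⟨by linarith [ht.1], by linarith [ht.2]⟩, h⟩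
  have hz' : (ContinuousLinearMap.inr ℝ ℝ E) z ∈ s' := by
    have : z ∈ (ContinuousLinearMap.inr ℝ ℝ E) ⁻¹' s' := by rw [hpre]; exact hz
    exact this
  have h1 := (ContinuousLinearMap.inr ℝ ℝ E).iteratedFDerivWithin_comp_right hf' hu'
    (by rw [hpre]; exact hU.uniqueDiffOn) hz' (i := m) (lr_top_le m)
  rw [hpre, iteratedFDerivWithin_of_isOpen m hU hz, iteratedFDerivWithin_comp_add_left] at h1
  have e1 : (fun p => f (A + p)) ∘ (ContinuousLinearMap.inr ℝ ℝ E) = fun y => f (t, y) := by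
    funext y
    simp [hA]
  have e2 : A +ᵥ s' = Set.Icc a b ×ˢ U := by
    ext ⟨x, y⟩
    rw [Set.mem_vadd_set_iff_neg_vadd_mem]
    simp only [hA, hs', vadd_eq_add, Prod.neg_mk, Prod.mk_add_mk, neg_zero, zero_add,
      Set.mem_prod, Set.mem_Icc]
    constructor
    · rintro ⟨⟨h1, h2⟩, h3⟩
      exact ⟨⟨by linarith, by linarith⟩, h3⟩
    · rintro ⟨⟨h1, h2⟩, h3⟩
      exact ⟨⟨by linarith, by linarith⟩, h3⟩
  have e3 : A + (ContinuousLinearMap.inr ℝ ℝ E) z = (t, z) := by simp [hA]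
  rw [e1, e2, e3] at h1
  exact h1

theorem slice_within {a b : ℝ} (hab : a < b) {U : Set E} (hU : IsOpen U) {f : ℝ × E → F}
    (hf : ContDiffOn ℝ ∞ f (Set.Icc a b ×ˢ U)) {t : ℝ} {z : E} (ht : t ∈ Set.Icc a b) (hz : z ∈ U)
    (m : ℕ) (v : Fin m → E) :
    iteratedFDeriv ℝ m (fun y => f (t, y)) z v
      = iteratedFDerivWithin ℝ m f (Set.Icc a b ×ˢ U) (t, z) (fun i => ((0 : ℝ), v i)) := by
  rw [lr_slice_eq hab hU hf ht hz m]
  rfl

theorem lr_exists_min {P : ℕ → ℝ → Prop} (hmono : ∀ m η η', η' ≤ η → P m η → P m η')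
    (h : ∀ m, ∃ η, 0 < η ∧ P m η) (N : ℕ) : ∃ η, 0 < η ∧ ∀ m ≤ N, P m η := by
  induction N with
  | zero =>
    obtain ⟨η, h1, h2⟩ := h 0
    exact ⟨η, h1, fun m hm => by rw [Nat.le_zero.1 hm]; exact h2⟩
  | succ N ih =>
    obtain ⟨η1, h1, h2⟩ := ih
    obtain ⟨η2, h3, h4⟩ := h (N + 1)
    refine ⟨min η1 η2, lt_min h1 h3, fun m hm => ?_⟩
    rcases Nat.le_succ_iff.1 hm with hm | hm
    · exact hmono m η1 _ (min_le_left _ _) (h2 m hm)
    · rw [hm]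
      exact hmono _ η2 _ (min_le_right _ _) h4

theorem initial_approx [FiniteDimensional ℝ E] {a b ρ R : ℝ} (hab : a < b) (hρ : ρ < R) {x₀ : E}
    {f : ℝ × E → F} (hf : ContDiffOn ℝ ∞ f (Set.Icc a b ×ˢ Metric.ball x₀ R)) (N : ℕ) (B0 : ℕ → ℝ)
    (h0 : ∀ m, ∀ z ∈ Metric.ball x₀ R, ‖iteratedFDeriv ℝ m (fun y => f (a, y)) z‖ ≤ B0 m) :
    ∃ η : ℝ, 0 < η ∧ ∀ t₀ ∈ Set.Icc a (a + η), t₀ ≤ b → ∀ z ∈ Metric.closedBall x₀ ρ, ∀ m ≤ N,
      ‖iteratedFDeriv ℝ m (fun y => f (t₀, y)) z‖ ≤ B0 m + 1 := by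
  have hU : IsOpen (Metric.ball x₀ R) := Metric.isOpen_ball
  have hsub : Metric.closedBall x₀ ρ ⊆ Metric.ball x₀ R := Metric.closedBall_subset_ball hρ
  have hK : IsCompact (Set.Icc a b ×ˢ Metric.closedBall x₀ ρ) :=
    isCompact_Icc.prod (isCompact_closedBall x₀ ρ)
  have step : ∀ m, ∃ η : ℝ, 0 < η ∧ ∀ t₀ ∈ Set.Icc a (a + η), t₀ ≤ b →
      ∀ z ∈ Metric.closedBall x₀ ρ, ‖iteratedFDeriv ℝ m (fun y => f (t₀, y)) z‖ ≤ B0 m + 1 := by
    intro m
    set G : ℝ × E → ContinuousMultilinearMap ℝ (fun _ : Fin m => E) F := fun p =>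
      (iteratedFDerivWithin ℝ m f (Set.Icc a b ×ˢ Metric.ball x₀ R) p).compContinuousLinearMap
        fun _ => ContinuousLinearMap.inr ℝ ℝ E with hGdef
    have hG : ContinuousOn G (Set.Icc a b ×ˢ Metric.closedBall x₀ ρ) := by
      have h1 := (lr_continuousOn hab hU hf m).mono (Set.prod_mono (subset_refl _) hsub)
      exact (ContinuousMultilinearMap.compContinuousLinearMapL (𝕜 := ℝ) (F := F)
        (fun _ : Fin m => ContinuousLinearMap.inr ℝ ℝ E)).continuous.comp_continuousOn h1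
    obtain ⟨d, hd, hd'⟩ := Metric.uniformContinuousOn_iff.1
      (hK.uniformContinuousOn_of_continuous hG) 1 one_pos
    refine ⟨d / 2, by positivity, fun t₀ ht₀ htb z hz => ?_⟩
    have hx : ((t₀, z) : ℝ × E) ∈ Set.Icc a b ×ˢ Metric.closedBall x₀ ρ := ⟨⟨ht₀.1, htb⟩, hz⟩
    have hy : ((a, z) : ℝ × E) ∈ Set.Icc a b ×ˢ Metric.closedBall x₀ ρ :=
      ⟨⟨le_rfl, hab.le⟩, hz⟩
    have hdist : dist ((t₀, z) : ℝ × E) (a, z) < d := by
      rw [Prod.dist_eq, dist_self, Real.dist_eq, abs_of_nonneg (by linarith [ht₀.1])]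
      refine max_lt ?_ hd
      linarith [ht₀.2]
    have h2 := hd' _ hx _ hy hdist
    rw [lr_slice_eq hab hU hf hx.1 (hsub hz) m]
    have h3 := h0 m z (hsub hz)
    rw [lr_slice_eq hab hU hf hy.1 (hsub hz) m] at h3
    have h4 : ‖G (t₀, z)‖ ≤ ‖G (a, z)‖ + dist (G (t₀, z)) (G (a, z)) := by
      rw [dist_eq_norm]
      have := norm_add_le (G (a, z)) (G (t₀, z) - G (a, z))
      simpa using this
    have h5 : ‖G (a, z)‖ ≤ B0 m := h3
    change ‖G (t₀, z)‖ ≤ _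
    linarith
  obtain ⟨η, hη, h⟩ := lr_exists_min (P := fun m η => ∀ t₀ ∈ Set.Icc a (a + η), t₀ ≤ b →
      ∀ z ∈ Metric.closedBall x₀ ρ, ‖iteratedFDeriv ℝ m (fun y => f (t₀, y)) z‖ ≤ B0 m + 1)
    (fun m η η' hle hP t₀ ht₀ => hP t₀ ⟨ht₀.1, by linarith [ht₀.2]⟩) step N
  exact ⟨η, hη, fun t₀ ht₀ htb z hz m hm => h m hm t₀ ht₀ htb z hz⟩

end Gen

/-! ### B9-LR-3 -/

/-- **(R1)** -/
theorem stCRLocalReg : S3.StCRLocalReg := by
  intro n r δ Λ len Bτ B0 hr hδ hΛ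
  have hρ : r < 3 * r / 2 := by linarith
  have hρ2 : 3 * r / 2 < 2 * r := by linarith
  have hB0 : ∀ m : ℕ, 0 ≤ ∑ m' ∈ Finset.range (3 * m + 2), |B0 m' + 1| := fun m =>
    Finset.sum_nonneg fun _ _ => abs_nonneg _
  choose Cb hCb0 hCb using fun m : ℕ =>
    cr_core (Fin n) m r (3 * r / 2) (δ / 4) Λ 0 Bτ hr hρ (by positivity) hΛ le_rfl
  choose Ca hCa0 hCa using fun m : ℕ =>
    cr_core (Fin n) m r (3 * r / 2) 1 Λ (∑ m' ∈ Finset.range (3 * m + 2), |B0 m' + 1|) Bτ hr hρ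
      one_pos hΛ (hB0 m)
  refine ⟨Cb, Ca, ?_⟩
  intro a b K τ hab _ h1 h2 h3 h4 h5
  have hcrc := crc_of_data h1 h2 h3 h4 h5
  have hU : IsOpen (Metric.ball (0 : CE (Fin n)) (2 * r)) := Metric.isOpen_ball
  have hrr : Metric.ball (0 : CE (Fin n)) r ⊆ Metric.ball 0 (2 * r) :=
    Metric.ball_subset_ball (by linarith)
  have hcyl : ∀ t₀ t₁ : ℝ, a < t₀ → t₁ < b →
      cyl t₀ t₁ (0 : CE (Fin n)) (3 * r / 2) ⊆ Set.Ioo a b ×ˢ Metric.ball 0 (2 * r) := by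
    intro t₀ t₁ h0 h1 q hq
    exact ⟨⟨h0.trans_le hq.1.1, hq.1.2.trans_lt h1⟩, Metric.closedBall_subset_ball hρ2 hq.2⟩
  refine ⟨?_, ?_⟩
  · intro m j k t ht z hz
    have hc : a + δ / 2 < b := by linarith [ht.1, ht.2]
    refine bound_closure hab hc hU (h1 j k) m (hrr hz) ?_ t ⟨by linarith [ht.1], ht.2⟩
      (by linarith [ht.1])
    intro t' ht' hct'
    rw [within_eq_interior hU (h1 j k) ht' (hrr hz) m]
    refine (hCb m (a + δ / 4) t' 0 _ K τ (by linarith) hcrc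
      (hcyl _ _ (by linarith) ht'.2)).2 (t', z) ⟨⟨by linarith, le_rfl⟩, ?_⟩ j k
    exact Metric.ball_subset_closedBall hz
  · intro hini m j k t ht z hz
    refine bound_closure hab hab hU (h1 j k) m (hrr hz) ?_ t ht ht.1
    intro t' ht' _
    rw [within_eq_interior hU (h1 j k) ht' (hrr hz) m]
    -- a good initial time
    have hev : ∀ᶠ t₀ in 𝓝[>] a, ∀ j' k' : Fin n, ∀ z' ∈ Metric.closedBall (0 : CE (Fin n)) (3 * r / 2),
        ∀ m' ≤ 3 * m + 1, ‖iteratedFDeriv ℝ m' (fun y => K t₀ y j' k') z'‖ ≤ B0 m' + 1 := by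
      rw [Filter.eventually_all]
      intro j'
      rw [Filter.eventually_all]
      intro k'
      obtain ⟨η, hη, hη'⟩ := initial_approx hab hρ2 (h1 j' k') (3 * m + 1) B0
        (fun m' z' hz' => hini m' j' k' z' hz')
      filter_upwards [Ioo_mem_nhdsGT (show a < min (a + η) b from lt_min (by linarith) hab)]
        with t₀ ht₀
      exact hη' t₀ ⟨ht₀.1.le, (ht₀.2.trans_le (min_le_left _ _)).le⟩
        (ht₀.2.trans_le (min_le_right _ _)).le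
    obtain ⟨t₀, ht₀, ht₀a, ht₀t⟩ := (hev.and (Ioo_mem_nhdsGT ht'.1)).exists
    refine (hCa m t₀ t' 0 _ K τ ht₀t.le hcrc (hcyl _ _ ht₀a ht'.2)).1 ?_ (t', z)
      ⟨⟨ht₀t.le, le_rfl⟩, Metric.ball_subset_closedBall hz⟩ j k
    intro z' hz' m' hm' j' k'
    refine (ht₀ j' k' z' hz' m' hm').trans ((le_abs_self _).trans ?_)
    exact Finset.single_le_sum (f := fun m' => |B0 m' + 1|) (fun _ _ => abs_nonneg _)
      (Finset.mem_range.2 (by omega))

end Claimed.Agent.R316.B9
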