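import Claimed.Agent.R316.Pack006

/-!
# Row 316, package B9: the Bernstein-Shi gradient estimate for systems with scalar principal part (T1)

`u : ℝ × E → β → 𝕍` smooth, `A : ℝ × E → κ → κ → ℝ` smooth, `f := (∂_t - ∑ A_ij D_i D_j) u = fun q => Hop e (A q) u q`.
`pE u = ∑ |u_β|²`, `sE e u = ∑ |D_d u_β|²`, `yE e u = ∑ |D_i D_d u_β|²`.  Hypotheses at each point of the cylinder: `GH`.

Leaves
* **B9-QL-G1**: `hop_normSq`, `hop_Dd`, `ell_vec`, `coef_entry_le`.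
  - `hop_normSq`: `D_j |v|² = 2⟪v, D_j v⟫` near `q` (`Dd_normSq`, `Dd_congr`), `D_i D_j |v|² = 2⟪D_i v, D_j v⟫ + 2⟪v, D_i D_j v⟫` (`Dd_inner`).
  - `hop_Dd`: `Dd_sub`, `Dd_sum`, `Dd_smul`, and `Dd_comm` (twice for the third derivatives, in a neighbourhood).
  - `ell_vec`: expand `v_i` in an orthonormal basis of `span (range v)` (or: `stdOrthonormalBasis` of the finite dimensional `𝕍`) and apply
    the scalar inequality to each coordinate.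
* **B9-QL-G2**: `gh_p`:  `Hop p = ∑_β (2⟪u_β, f_β⟫ - 2 ∑ A_ij ⟪D_i u_β, D_j u_β⟫) ≤ 2 N (1 + √s) - 2 lam s`, `N = card β * √M * Cf`;
  `2 N √s ≤ lam s + N²/lam`.
* **B9-QL-G3**: `gh_s`:  `Hop s = ∑_{d,β} (2⟪D_d u_β, Hop (D_d u)_β⟫ - 2 ∑ A_ij ⟪D_i D_d u_β, D_j D_d u_β⟫)`,
  `Hop (D_d u) = D_d f + ∑ (D_d A_ij) D_i D_j u` (`hop_Dd`), so `≤ 2 n √s (Cf (1 + s + √y) + n² CA √y) - 2 lam y ≤ - lam y + C₂ (1 + s √s)`.
* **B9-QL-G4**: `gh_gamma_p`, `gh_gamma_s` (Cauchy-Schwarz) and `grad_est` (apply `shi_local_real` with `c = lam`, `y = lam * yE`,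
  `C₄ = max (4 Lam M) (4 Lam / lam)`; `hop_slice`, `gre_slice`).
-/

set_option autoImplicit false
set_option maxSynthPendingDepth 3
open scoped ContDiff Topology

namespace Claimed.Agent.R316.B9

variable {E : Type} [NormedAddCommGroup E] [NormedSpace ℝ E] {κ : Type} [Fintype κ]
variable {β : Type} [Fintype β] {𝕍 : Type} [NormedAddCommGroup 𝕍] [InnerProductSpace ℝ 𝕍]

/-- `∑ |u_β|²`. -/
noncomputable def pE (u : ℝ × E → β → 𝕍) (q : ℝ × E) : ℝ := ∑ b, ‖u q b‖ ^ 2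

/-- `∑ |D_d u_β|²`. -/
noncomputable def sE (e : κ → E) (u : ℝ × E → β → 𝕍) (q : ℝ × E) : ℝ :=
  ∑ d, ∑ b, ‖Dd (sp e d) u q b‖ ^ 2

/-- `∑ |D_i D_d u_β|²`. -/
noncomputable def yE (e : κ → E) (u : ℝ × E → β → 𝕍) (q : ℝ × E) : ℝ :=
  ∑ i, ∑ d, ∑ b, ‖Dd (sp e i) (Dd (sp e d) u) q b‖ ^ 2

/-- the pointwise hypotheses of the gradient estimate. -/
structure GH (e : κ → E) (A : ℝ × E → κ → κ → ℝ) (u : ℝ × E → β → 𝕍)
    (lam Lam CA Cf M : ℝ) (q : ℝ × E) : Prop where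
  u_smooth : ContDiffAt ℝ ∞ u q
  A_smooth : ContDiffAt ℝ ∞ A q
  coef : CoefOK (A q) Lam
  ell : ∀ ξ : κ → ℝ, lam * ∑ i, ξ i ^ 2 ≤ ∑ i, ∑ j, A q i j * (ξ i * ξ j)
  dA : ∀ d i j, |Dd (sp e d) (fun q' => A q' i j) q| ≤ CA
  bd : pE u q ≤ M
  f_le : ∀ b, ‖Hop e (A q) u q b‖ ≤ Cf * (1 + Real.sqrt (sE e u q))
  df_le : ∀ d b, ‖Dd (sp e d) (fun q' => Hop e (A q') u q') q b‖
    ≤ Cf * (1 + sE e u q + Real.sqrt (yE e u q))

/-! ### B9-QL-G1 -/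

theorem hop_normSq (e : κ → E) (a : κ → κ → ℝ) {v : ℝ × E → 𝕍} {q : ℝ × E}
    (hv : ContDiffAt ℝ ∞ v q) :
    Hop e a (fun q' => ‖v q'‖ ^ 2) q
      = 2 * inner ℝ (v q) (Hop e a v q)
        - 2 * ∑ i, ∑ j, a i j * inner ℝ (Dd (sp e i) v q) (Dd (sp e j) v q) := by
  have d0 : DifferentiableAt ℝ v q := hv.differentiableAt (by simp)
  have hev : ∀ᶠ x in 𝓝 q, DifferentiableAt ℝ v x := ev_diff_nat (n := 0) (contDiffAt_nat_of_top hv 1)
  have d1 : ∀ w, DifferentiableAt ℝ (Dd w v) q := fun w =>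
    (contDiffAt_Dd hv w).differentiableAt (by simp)
  have h2 : ∀ i j, Dd (sp e i) (Dd (sp e j) (fun q' => ‖v q'‖ ^ 2)) q
      = 2 * (inner ℝ (Dd (sp e i) v q) (Dd (sp e j) v q)
        + inner ℝ (v q) (Dd (sp e i) (Dd (sp e j) v) q)) := by
    intro i j
    have e1 : Dd (sp e j) (fun q' => ‖v q'‖ ^ 2)
        =ᶠ[𝓝 q] fun x => (2 : ℝ) • inner ℝ (v x) (Dd (sp e j) v x) := by
      filter_upwards [hev] with x hx
      rw [Dd_normSq hx, smul_eq_mul]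
    rw [(Dd_congr e1 (sp e i)).self_of_nhds,
      Dd_smul (differentiableAt_const _) (d0.inner ℝ (d1 _)), Dd_inner d0 (d1 _)]
    simp [Dd]
  simp only [Hop, h2, Dd_normSq d0, inner_sub_right, inner_sum, inner_smul_right, smul_eq_mul,
    Finset.mul_sum, mul_sub]
  rw [sub_sub, ← Finset.sum_add_distrib]
  congr 1
  refine Finset.sum_congr rfl fun i _ => ?_
  rw [← Finset.sum_add_distrib]
  refine Finset.sum_congr rfl fun j _ => ?_
  ring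

theorem hop_Dd {F : Type} [NormedAddCommGroup F] [NormedSpace ℝ F] (e : κ → E)
    {A : ℝ × E → κ → κ → ℝ} {u : ℝ × E → F} {q : ℝ × E}
    (hA : ContDiffAt ℝ ∞ A q) (hu : ContDiffAt ℝ ∞ u q) (d : κ) :
    Hop e (A q) (Dd (sp e d) u) q
      = Dd (sp e d) (fun q' => Hop e (A q') u q') q
        + ∑ i, ∑ j, Dd (sp e d) (fun q' => A q' i j) q • Dd (sp e i) (Dd (sp e j) u) q := by
  have hA' : ∀ i j, ContDiffAt ℝ ∞ (fun q' => A q' i j) q := fun i j =>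
    (contDiffAt_pi.1 ((contDiffAt_pi.1 hA) i)) j
  have dA : ∀ i j, DifferentiableAt ℝ (fun q' => A q' i j) q := fun i j =>
    (hA' i j).differentiableAt (by simp)
  have d2 : ∀ i j, DifferentiableAt ℝ (Dd (sp e i) (Dd (sp e j) u)) q := fun i j =>
    (contDiffAt_Dd (contDiffAt_Dd hu _) _).differentiableAt (by simp)
  have dt : DifferentiableAt ℝ (Dd tm u) q := (contDiffAt_Dd hu _).differentiableAt (by simp)
  have e1 : Dd (sp e d) (fun q' => Hop e (A q') u q') q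
      = Dd (sp e d) (Dd tm u) q - ∑ i, ∑ j, (A q i j • Dd (sp e d) (Dd (sp e i) (Dd (sp e j) u)) q
        + Dd (sp e d) (fun q' => A q' i j) q • Dd (sp e i) (Dd (sp e j) u) q) := by
    have s0 : ∀ i j, DifferentiableAt ℝ
        (fun q' => A q' i j • Dd (sp e i) (Dd (sp e j) u) q') q := fun i j => (dA i j).smul (d2 i j)
    have s1 : ∀ i, DifferentiableAt ℝ
        (fun q' => ∑ j, A q' i j • Dd (sp e i) (Dd (sp e j) u) q') q := fun i =>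
      DifferentiableAt.fun_sum fun j _ => s0 i j
    have s2 : DifferentiableAt ℝ
        (fun q' => ∑ i, ∑ j, A q' i j • Dd (sp e i) (Dd (sp e j) u) q') q :=
      DifferentiableAt.fun_sum fun i _ => s1 i
    unfold Hop
    rw [Dd_sub dt s2]
    congr 1
    rw [Dd_sum _ (fun i _ => s1 i)]
    refine Finset.sum_congr rfl fun i _ => ?_
    rw [Dd_sum _ (fun j _ => s0 i j)]
    refine Finset.sum_congr rfl fun j _ => ?_
    rw [Dd_smul (dA i j) (d2 i j)]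
  rw [e1]
  simp only [Hop, Finset.sum_add_distrib]
  rw [Dd_comm hu tm (sp e d)]
  have e3 : ∀ i j, Dd (sp e i) (Dd (sp e j) (Dd (sp e d) u)) q
      = Dd (sp e d) (Dd (sp e i) (Dd (sp e j) u)) q := by
    intro i j
    have hp : [sp e d, sp e j, sp e i].Perm [sp e j, sp e i, sp e d] := by
      have := List.perm_append_singleton (sp e d) [sp e j, sp e i]
      exact this.symm
    exact Dl_perm hu hp
  simp only [e3]
  abel

theorem ell_vec [FiniteDimensional ℝ 𝕍] (a : κ → κ → ℝ) (lam : ℝ)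
    (h : ∀ ξ : κ → ℝ, lam * ∑ i, ξ i ^ 2 ≤ ∑ i, ∑ j, a i j * (ξ i * ξ j)) (v : κ → 𝕍) :
    lam * ∑ i, ‖v i‖ ^ 2 ≤ ∑ i, ∑ j, a i j * inner ℝ (v i) (v j) := by
  set b := stdOrthonormalBasis ℝ 𝕍 with hb
  have h1 : ∀ i j, inner ℝ (v i) (v j) = ∑ k, inner ℝ (b k) (v i) * inner ℝ (b k) (v j) := by
    intro i j
    rw [← b.sum_inner_mul_inner (v i) (v j)]
    refine Finset.sum_congr rfl fun k _ => ?_
    rw [real_inner_comm]
  have h2 : ∀ i, ‖v i‖ ^ 2 = ∑ k, (inner ℝ (b k) (v i)) ^ 2 := by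
    intro i
    rw [← real_inner_self_eq_norm_sq, h1]
    refine Finset.sum_congr rfl fun k _ => ?_
    ring
  simp only [h1, h2]
  have l : lam * ∑ i, ∑ k, (inner ℝ (b k) (v i)) ^ 2
      = ∑ k, lam * ∑ i, (inner ℝ (b k) (v i)) ^ 2 := by
    rw [Finset.sum_comm, Finset.mul_sum]
  have r : ∑ i, ∑ j, a i j * ∑ k, inner ℝ (b k) (v i) * inner ℝ (b k) (v j)
      = ∑ k, ∑ i, ∑ j, a i j * (inner ℝ (b k) (v i) * inner ℝ (b k) (v j)) := by
    simp only [Finset.mul_sum]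
    rw [Finset.sum_comm (s := Finset.univ) (t := Finset.univ)
      (f := fun k i => ∑ j, a i j * (inner ℝ (b k) (v i) * inner ℝ (b k) (v j)))]
    exact Finset.sum_congr rfl fun i _ => Finset.sum_comm
  rw [l, r]
  exact Finset.sum_le_sum fun k _ => h _

theorem coef_entry_le (a : κ → κ → ℝ) (Lam : ℝ) (h : CoefOK a Lam) (i j : κ) : |a i j| ≤ Lam := by
  exact coefOK_abs_le h i j

theorem contDiffAt_pE {u : ℝ × E → β → 𝕍} {q : ℝ × E} (hu : ContDiffAt ℝ ∞ u q) :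
    ContDiffAt ℝ ∞ (pE u) q := by
  unfold pE
  exact ContDiffAt.sum fun b _ => ((contDiffAt_pi.1 hu) b).norm_sq ℝ

theorem contDiffAt_sE (e : κ → E) {u : ℝ × E → β → 𝕍} {q : ℝ × E} (hu : ContDiffAt ℝ ∞ u q) :
    ContDiffAt ℝ ∞ (sE e u) q := by
  unfold sE
  exact ContDiffAt.sum fun d _ => ContDiffAt.sum fun b _ =>
    ((contDiffAt_pi.1 (contDiffAt_Dd hu (sp e d))) b).norm_sq ℝ

theorem norm_Dd_le_sqrt_sE (e : κ → E) (u : ℝ × E → β → 𝕍) (q : ℝ × E) (d : κ) :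
    ‖Dd (sp e d) u q‖ ≤ Real.sqrt (sE e u q) := by
  rw [pi_norm_le_iff_of_nonneg (Real.sqrt_nonneg _)]
  intro b
  apply Real.le_sqrt_of_sq_le
  unfold sE
  have h1 : ‖Dd (sp e d) u q b‖ ^ 2 ≤ ∑ b, ‖Dd (sp e d) u q b‖ ^ 2 :=
    Finset.single_le_sum (f := fun b => ‖Dd (sp e d) u q b‖ ^ 2) (fun _ _ => by positivity)
      (Finset.mem_univ b)
  have h2 : ∑ b, ‖Dd (sp e d) u q b‖ ^ 2 ≤ ∑ d, ∑ b, ‖Dd (sp e d) u q b‖ ^ 2 :=
    Finset.single_le_sum (f := fun d => ∑ b, ‖Dd (sp e d) u q b‖ ^ 2)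
      (fun _ _ => Finset.sum_nonneg fun _ _ => by positivity) (Finset.mem_univ d)
  exact h1.trans h2

theorem norm_Dd_Dd_le_sqrt_yE (e : κ → E) (u : ℝ × E → β → 𝕍) (q : ℝ × E) (i d : κ) :
    ‖Dd (sp e i) (Dd (sp e d) u) q‖ ≤ Real.sqrt (yE e u q) := by
  rw [pi_norm_le_iff_of_nonneg (Real.sqrt_nonneg _)]
  intro b
  apply Real.le_sqrt_of_sq_le
  unfold yE
  have h1 : ‖Dd (sp e i) (Dd (sp e d) u) q b‖ ^ 2 ≤ ∑ b, ‖Dd (sp e i) (Dd (sp e d) u) q b‖ ^ 2 :=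
    Finset.single_le_sum (f := fun b => ‖Dd (sp e i) (Dd (sp e d) u) q b‖ ^ 2)
      (fun _ _ => by positivity) (Finset.mem_univ b)
  have h2 : ∑ b, ‖Dd (sp e i) (Dd (sp e d) u) q b‖ ^ 2
      ≤ ∑ d, ∑ b, ‖Dd (sp e i) (Dd (sp e d) u) q b‖ ^ 2 :=
    Finset.single_le_sum (f := fun d => ∑ b, ‖Dd (sp e i) (Dd (sp e d) u) q b‖ ^ 2)
      (fun _ _ => Finset.sum_nonneg fun _ _ => by positivity) (Finset.mem_univ d)
  have h3 : ∑ d, ∑ b, ‖Dd (sp e i) (Dd (sp e d) u) q b‖ ^ 2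
      ≤ ∑ i, ∑ d, ∑ b, ‖Dd (sp e i) (Dd (sp e d) u) q b‖ ^ 2 :=
    Finset.single_le_sum (f := fun i => ∑ d, ∑ b, ‖Dd (sp e i) (Dd (sp e d) u) q b‖ ^ 2)
      (fun _ _ => Finset.sum_nonneg fun _ _ => Finset.sum_nonneg fun _ _ => by positivity)
      (Finset.mem_univ i)
  exact h1.trans (h2.trans h3)

/-! ### B9-QL-G2 -/

theorem hop_sum {F : Type} [NormedAddCommGroup F] [NormedSpace ℝ F] {ι : Type} (s : Finset ι)
    (e : κ → E) (a : κ → κ → ℝ) {f : ι → ℝ × E → F} {q : ℝ × E}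
    (hf : ∀ b ∈ s, ContDiffAt ℝ ∞ (f b) q) :
    Hop e a (fun q' => ∑ b ∈ s, f b q') q = ∑ b ∈ s, Hop e a (f b) q := by
  have d0 : ∀ b ∈ s, DifferentiableAt ℝ (f b) q := fun b hb => (hf b hb).differentiableAt (by simp)
  have hev : ∀ᶠ x in 𝓝 q, ∀ b ∈ s, DifferentiableAt ℝ (f b) x := by
    rw [Filter.eventually_all_finset]
    exact fun b hb => ev_diff_nat (n := 0) (contDiffAt_nat_of_top (hf b hb) 1)
  have h2 : ∀ i j, Dd (sp e i) (Dd (sp e j) (fun q' => ∑ b ∈ s, f b q')) q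
      = ∑ b ∈ s, Dd (sp e i) (Dd (sp e j) (f b)) q := by
    intro i j
    have e1 : Dd (sp e j) (fun q' => ∑ b ∈ s, f b q')
        =ᶠ[𝓝 q] fun x => ∑ b ∈ s, Dd (sp e j) (f b) x := by
      filter_upwards [hev] with x hx
      exact Dd_sum s hx _
    rw [(Dd_congr e1 (sp e i)).self_of_nhds, Dd_sum s fun b hb =>
      (contDiffAt_Dd (hf b hb) _).differentiableAt (by simp)]
  simp only [Hop, h2, Dd_sum s d0, Finset.smul_sum, Finset.sum_sub_distrib]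
  congr 1
  rw [Finset.sum_comm' (s := s) (t := fun _ => Finset.univ) (t' := Finset.univ) (s' := fun _ => s)
    (by simp)]
  refine Finset.sum_congr rfl fun i _ => ?_
  rw [Finset.sum_comm' (s := s) (t := fun _ => Finset.univ) (t' := Finset.univ) (s' := fun _ => s)
    (by simp)]

theorem hop_apply (e : κ → E) (a : κ → κ → ℝ) {u : ℝ × E → β → 𝕍} {q : ℝ × E}
    (hu : ContDiffAt ℝ ∞ u q) (b : β) :
    Hop e a (fun q' => u q' b) q = Hop e a u q b := by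
  have d0 : DifferentiableAt ℝ u q := hu.differentiableAt (by simp)
  have h2 : ∀ i j, Dd (sp e i) (Dd (sp e j) u) q b
      = Dd (sp e i) (Dd (sp e j) (fun q' => u q' b)) q := fun i j =>
    Dl_apply hu [sp e j, sp e i] b
  simp only [Hop, Pi.sub_apply, Finset.sum_apply, Pi.smul_apply, h2, Dd_apply d0]

theorem hop_pE (e : κ → E) (a : κ → κ → ℝ) {u : ℝ × E → β → 𝕍} {q : ℝ × E}
    (hu : ContDiffAt ℝ ∞ u q) :
    Hop e a (pE u) q = ∑ b, (2 * inner ℝ (u q b) (Hop e a u q b)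
      - 2 * ∑ i, ∑ j, a i j * inner ℝ (Dd (sp e i) u q b) (Dd (sp e j) u q b)) := by
  have d0 : DifferentiableAt ℝ u q := hu.differentiableAt (by simp)
  have hb : ∀ b, ContDiffAt ℝ ∞ (fun q' => u q' b) q := fun b => (contDiffAt_pi.1 hu) b
  unfold pE
  rw [hop_sum Finset.univ e a fun b _ => (hb b).norm_sq ℝ]
  refine Finset.sum_congr rfl fun b _ => ?_
  rw [hop_normSq e a (hb b), hop_apply e a hu b]
  simp only [Dd_apply d0]

theorem sE_nonneg (e : κ → E) (u : ℝ × E → β → 𝕍) (q : ℝ × E) : 0 ≤ sE e u q :=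
  Finset.sum_nonneg fun _ _ => Finset.sum_nonneg fun _ _ => by positivity

theorem yE_nonneg (e : κ → E) (u : ℝ × E → β → 𝕍) (q : ℝ × E) : 0 ≤ yE e u q :=
  Finset.sum_nonneg fun _ _ => Finset.sum_nonneg fun _ _ => Finset.sum_nonneg fun _ _ => by
    positivity

theorem pE_nonneg (u : ℝ × E → β → 𝕍) (q : ℝ × E) : 0 ≤ pE u q :=
  Finset.sum_nonneg fun _ _ => by positivity

theorem gh_p [FiniteDimensional ℝ 𝕍] (β : Type) [Fintype β] (lam Lam CA Cf M : ℝ) (hlam : 0 < lam)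
    (hCf : 0 ≤ Cf) (hM : 0 ≤ M) :
    ∃ C₁ : ℝ, 0 ≤ C₁ ∧ ∀ (e : κ → E) (A : ℝ × E → κ → κ → ℝ) (u : ℝ × E → β → 𝕍) (q : ℝ × E),
      GH e A u lam Lam CA Cf M q → Hop e (A q) (pE u) q ≤ - lam * sE e u q + C₁ := by
  obtain ⟨N, hN⟩ : ∃ N : ℝ, N = Fintype.card β * (Real.sqrt M * Cf) := ⟨_, rfl⟩
  have hN0 : 0 ≤ N := by rw [hN]; positivity
  refine ⟨2 * N + N ^ 2 / lam, by positivity, fun e A u q h => ?_⟩
  rw [hop_pE e _ h.u_smooth]
  have hs0 : 0 ≤ sE e u q := sE_nonneg e u q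
  obtain ⟨r, hr0, hr⟩ : ∃ r : ℝ, 0 ≤ r ∧ sE e u q = r ^ 2 :=
    ⟨Real.sqrt (sE e u q), Real.sqrt_nonneg _, (Real.sq_sqrt hs0).symm⟩
  have hsq : Real.sqrt (sE e u q) = r := by rw [hr, Real.sqrt_sq hr0]
  have h1 : ∀ b, inner ℝ (u q b) (Hop e (A q) u q b) ≤ Real.sqrt M * Cf * (1 + r) := by
    intro b
    have hb : ‖u q b‖ ≤ Real.sqrt M := by
      apply Real.le_sqrt_of_sq_le
      refine le_trans ?_ h.bd
      exact Finset.single_le_sum (f := fun b => ‖u q b‖ ^ 2) (fun _ _ => by positivity)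
        (Finset.mem_univ b)
    have hf := h.f_le b
    rw [hsq] at hf
    calc inner ℝ (u q b) (Hop e (A q) u q b) ≤ ‖u q b‖ * ‖Hop e (A q) u q b‖ :=
          real_inner_le_norm _ _
      _ ≤ Real.sqrt M * (Cf * (1 + r)) := mul_le_mul hb hf (norm_nonneg _) (Real.sqrt_nonneg _)
      _ = _ := by ring
  have h2 : lam * sE e u q
      ≤ ∑ b, ∑ i, ∑ j, A q i j * inner ℝ (Dd (sp e i) u q b) (Dd (sp e j) u q b) := by
    have : lam * sE e u q = ∑ b, lam * ∑ i, ‖Dd (sp e i) u q b‖ ^ 2 := by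
      unfold sE
      rw [Finset.sum_comm, Finset.mul_sum]
    rw [this]
    exact Finset.sum_le_sum fun b _ => ell_vec _ lam h.ell _
  have h3 : ∑ b, inner ℝ (u q b) (Hop e (A q) u q b) ≤ N * (1 + r) := by
    calc ∑ b, inner ℝ (u q b) (Hop e (A q) u q b) ≤ ∑ _b : β, Real.sqrt M * Cf * (1 + r) :=
          Finset.sum_le_sum fun b _ => h1 b
      _ = N * (1 + r) := by
          rw [Finset.sum_const, Finset.card_univ, nsmul_eq_mul, hN]; ring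
  rw [Finset.sum_sub_distrib, ← Finset.mul_sum, ← Finset.mul_sum]
  have h4 : 2 * (N * r) ≤ lam * r ^ 2 + N ^ 2 / lam := by
    have : N ^ 2 / lam = lam * (N / lam) ^ 2 := by field_simp
    rw [this]
    have e : N = lam * (N / lam) := by field_simp
    have := mul_nonneg hlam.le (sq_nonneg (r - N / lam))
    nlinarith
  rw [hr] at h2 ⊢
  linarith

/-! ### B9-QL-G3 -/

/-- the inequality between real numbers behind `gh_s`. -/
theorem gh_s_real (lam CA Cf n m : ℝ) (hlam : 0 < lam) (hCA : 0 ≤ CA) (hCf : 0 ≤ Cf) (hn : 0 ≤ n)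
    (hm : 0 ≤ m) :
    ∃ C₂ : ℝ, 0 ≤ C₂ ∧ ∀ r w : ℝ, 0 ≤ r → 0 ≤ w →
      2 * (n * (m * (r * (Cf * (1 + r ^ 2 + w) + n * (n * (CA * w)))))) - 2 * (lam * w ^ 2)
        ≤ - (lam * w ^ 2) + C₂ * (1 + r ^ 2 * r) := by
  obtain ⟨K, hK⟩ : ∃ K : ℝ, K = n * m * (Cf + n * n * CA) := ⟨_, rfl⟩
  have hK0 : 0 ≤ K := by rw [hK]; positivity
  obtain ⟨N, hN⟩ : ∃ N : ℝ, N = n * m * Cf := ⟨_, rfl⟩
  have hN0 : 0 ≤ N := by rw [hN]; positivity
  refine ⟨4 * N + K ^ 2 / lam, by positivity, fun r w hr hw => ?_⟩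
  have e : 2 * (n * (m * (r * (Cf * (1 + r ^ 2 + w) + n * (n * (CA * w))))))
      = 2 * N * (r + r ^ 3) + 2 * (K * r * w) := by rw [hN, hK]; ring
  rw [e]
  have h4 : 2 * (K * r * w) ≤ lam * w ^ 2 + K ^ 2 / lam * r ^ 2 := by
    have : K ^ 2 / lam * r ^ 2 = lam * (K * r / lam) ^ 2 := by field_simp
    rw [this]
    have e : K * r = lam * (K * r / lam) := by field_simp
    have := mul_nonneg hlam.le (sq_nonneg (w - K * r / lam))
    nlinarith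
  have r1 : r ≤ 1 + r ^ 3 := by
    rcases le_total r 1 with h | h
    · have : 0 ≤ r ^ 3 := by positivity
      linarith
    · have : r * 1 ≤ r * r ^ 2 := mul_le_mul_of_nonneg_left (by nlinarith) hr
      nlinarith
  have r2 : r ^ 2 ≤ 1 + r ^ 3 := by
    rcases le_total r 1 with h | h
    · have : 0 ≤ r ^ 3 := by positivity
      nlinarith
    · have : r ^ 2 * 1 ≤ r ^ 2 * r := mul_le_mul_of_nonneg_left h (by positivity)
      nlinarith
  have a1 : 2 * N * (r + r ^ 3) ≤ 4 * N * (1 + r ^ 3) := by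
    have : 2 * N * (r + r ^ 3) ≤ 2 * N * (2 * (1 + r ^ 3)) :=
      mul_le_mul_of_nonneg_left (by linarith) (by positivity)
    linarith
  have a2 : K ^ 2 / lam * r ^ 2 ≤ K ^ 2 / lam * (1 + r ^ 3) :=
    mul_le_mul_of_nonneg_left r2 (by positivity)
  have e3 : r ^ 2 * r = r ^ 3 := by ring
  rw [e3]
  linarith

theorem gh_s [FiniteDimensional ℝ 𝕍] (κ β : Type) [Fintype κ] [Fintype β] (lam Lam CA Cf M : ℝ)
    (hlam : 0 < lam) (hCA : 0 ≤ CA) (hCf : 0 ≤ Cf) :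
    ∃ C₂ : ℝ, 0 ≤ C₂ ∧ ∀ (e : κ → E) (A : ℝ × E → κ → κ → ℝ) (u : ℝ × E → β → 𝕍) (q : ℝ × E),
      GH e A u lam Lam CA Cf M q →
      Hop e (A q) (sE e u) q
        ≤ - (lam * yE e u q) + C₂ * (1 + sE e u q * Real.sqrt (sE e u q)) := by
  obtain ⟨n, hn⟩ : ∃ n : ℝ, n = Fintype.card κ := ⟨_, rfl⟩
  obtain ⟨m, hm⟩ : ∃ m : ℝ, m = Fintype.card β := ⟨_, rfl⟩
  have hn0 : 0 ≤ n := by rw [hn]; positivity
  have hm0 : 0 ≤ m := by rw [hm]; positivity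
  obtain ⟨C₂, hC₂, key⟩ := gh_s_real lam CA Cf n m hlam hCA hCf hn0 hm0
  refine ⟨C₂, hC₂, fun e A u q h => ?_⟩
  have hu := h.u_smooth
  have hs0 : 0 ≤ sE e u q := sE_nonneg e u q
  have hy0 : 0 ≤ yE e u q := yE_nonneg e u q
  obtain ⟨r, hr0, hr⟩ : ∃ r : ℝ, 0 ≤ r ∧ sE e u q = r ^ 2 :=
    ⟨Real.sqrt (sE e u q), Real.sqrt_nonneg _, (Real.sq_sqrt hs0).symm⟩
  have hsq : Real.sqrt (sE e u q) = r := by rw [hr, Real.sqrt_sq hr0]
  obtain ⟨w, hw0, hw⟩ : ∃ w : ℝ, 0 ≤ w ∧ yE e u q = w ^ 2 :=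
    ⟨Real.sqrt (yE e u q), Real.sqrt_nonneg _, (Real.sq_sqrt hy0).symm⟩
  have hyq : Real.sqrt (yE e u q) = w := by rw [hw, Real.sqrt_sq hw0]
  have e0 : Hop e (A q) (sE e u) q = ∑ d, Hop e (A q) (pE (Dd (sp e d) u)) q :=
    hop_sum Finset.univ e (A q) (f := fun d => pE (Dd (sp e d) u))
      fun d _ => contDiffAt_pE (contDiffAt_Dd hu _)
  rw [e0]
  simp only [hop_pE e _ (contDiffAt_Dd hu _)]
  have h1 : ∀ d b, ‖Hop e (A q) (Dd (sp e d) u) q b‖ ≤ Cf * (1 + r ^ 2 + w) + n * (n * (CA * w)) := by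
    intro d b
    rw [hop_Dd e h.A_smooth hu d]
    simp only [Pi.add_apply, Finset.sum_apply, Pi.smul_apply]
    refine (norm_add_le _ _).trans (add_le_add ?_ ?_)
    · have := h.df_le d b
      rwa [hr, hyq] at this
    · calc ‖∑ i, ∑ j, Dd (sp e d) (fun q' => A q' i j) q • Dd (sp e i) (Dd (sp e j) u) q b‖
          ≤ ∑ _i : κ, ∑ _j : κ, CA * w := by
            refine (norm_sum_le _ _).trans (Finset.sum_le_sum fun i _ => ?_)
            refine (norm_sum_le _ _).trans (Finset.sum_le_sum fun j _ => ?_)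
            rw [norm_smul]
            refine mul_le_mul (h.dA d i j) ?_ (norm_nonneg _) hCA
            rw [← hyq]
            exact (norm_le_pi_norm _ b).trans (norm_Dd_Dd_le_sqrt_yE e u q i j)
        _ = n * (n * (CA * w)) := by
            simp only [Finset.sum_const, Finset.card_univ, nsmul_eq_mul, hn]
  have h2 : ∀ d b, inner ℝ (Dd (sp e d) u q b) (Hop e (A q) (Dd (sp e d) u) q b)
      ≤ r * (Cf * (1 + r ^ 2 + w) + n * (n * (CA * w))) := by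
    intro d b
    refine (real_inner_le_norm _ _).trans (mul_le_mul ?_ (h1 d b) (norm_nonneg _) hr0)
    rw [← hsq]
    exact (norm_le_pi_norm _ b).trans (norm_Dd_le_sqrt_sE e u q d)
  have h3 : lam * yE e u q ≤ ∑ d, ∑ b, ∑ i, ∑ j, A q i j *
      inner ℝ (Dd (sp e i) (Dd (sp e d) u) q b) (Dd (sp e j) (Dd (sp e d) u) q b) := by
    have : lam * yE e u q = ∑ d, ∑ b, lam * ∑ i, ‖Dd (sp e i) (Dd (sp e d) u) q b‖ ^ 2 := by
      unfold yE
      rw [Finset.sum_comm, Finset.mul_sum]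
      refine Finset.sum_congr rfl fun d _ => ?_
      rw [Finset.sum_comm, Finset.mul_sum]
    rw [this]
    exact Finset.sum_le_sum fun d _ => Finset.sum_le_sum fun b _ => ell_vec _ lam h.ell _
  have h4 : ∑ d, ∑ b, inner ℝ (Dd (sp e d) u q b) (Hop e (A q) (Dd (sp e d) u) q b)
      ≤ n * (m * (r * (Cf * (1 + r ^ 2 + w) + n * (n * (CA * w))))) := by
    calc _ ≤ ∑ _d : κ, ∑ _b : β, r * (Cf * (1 + r ^ 2 + w) + n * (n * (CA * w))) :=
          Finset.sum_le_sum fun d _ => Finset.sum_le_sum fun b _ => h2 d b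
      _ = _ := by simp only [Finset.sum_const, Finset.card_univ, nsmul_eq_mul, hn, hm]
  simp only [Finset.sum_sub_distrib, ← Finset.mul_sum]
  rw [hsq, hr]
  rw [hw] at h3 ⊢
  have := key r w hr0 hw0
  linarith

/-! ### B9-QL-G4 -/

theorem sum_inner_sq_le {ι : Type} (s : Finset ι) (a c : ι → 𝕍) :
    (∑ b ∈ s, inner ℝ (a b) (c b)) ^ 2 ≤ (∑ b ∈ s, ‖a b‖ ^ 2) * ∑ b ∈ s, ‖c b‖ ^ 2 := by
  have h1 : |∑ b ∈ s, inner ℝ (a b) (c b)| ≤ ∑ b ∈ s, ‖a b‖ * ‖c b‖ :=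
    (Finset.abs_sum_le_sum_abs _ _).trans (Finset.sum_le_sum fun b _ => abs_real_inner_le_norm _ _)
  have h2 : (∑ b ∈ s, inner ℝ (a b) (c b)) ^ 2 ≤ (∑ b ∈ s, ‖a b‖ * ‖c b‖) ^ 2 := by
    rw [← sq_abs]
    exact pow_le_pow_left₀ (abs_nonneg _) h1 2
  exact h2.trans (Finset.sum_mul_sq_le_sq_mul_sq _ _ _)

theorem Dd_pE {u : ℝ × E → β → 𝕍} {q : ℝ × E} (hu : DifferentiableAt ℝ u q) (v : ℝ × E) :
    Dd v (pE u) q = 2 * ∑ b, inner ℝ (u q b) (Dd v u q b) := by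
  have hb : ∀ b, DifferentiableAt ℝ (fun q' => u q' b) q := fun b => (differentiableAt_pi.1 hu) b
  unfold pE
  rw [Dd_sum Finset.univ fun b _ => (hb b).norm_sq ℝ, Finset.mul_sum]
  refine Finset.sum_congr rfl fun b _ => ?_
  rw [Dd_normSq (hb b), Dd_apply hu]

theorem gh_gamma_p {e : κ → E} {A : ℝ × E → κ → κ → ℝ} {u : ℝ × E → β → 𝕍}
    {lam Lam CA Cf M : ℝ} {q : ℝ × E} (h : GH e A u lam Lam CA Cf M q) :
    ∑ i, ∑ j, A q i j * (Dd (sp e i) (pE u) q * Dd (sp e j) (pE u) q)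
      ≤ 4 * Lam * M * sE e u q := by
  have hu := h.u_smooth
  have d0 : DifferentiableAt ℝ u q := hu.differentiableAt (by simp)
  rcases isEmpty_or_nonempty κ with he | ⟨⟨i₀⟩⟩
  · simp [sE]
  have hLam : 0 ≤ Lam := (abs_nonneg _).trans (coefOK_abs_le h.coef i₀ i₀)
  refine (h.coef.le _).trans ?_
  have h1 : ∀ i, (Dd (sp e i) (pE u) q) ^ 2 ≤ 4 * M * ∑ b, ‖Dd (sp e i) u q b‖ ^ 2 := by
    intro i
    rw [Dd_pE d0, mul_pow]
    have := sum_inner_sq_le Finset.univ (fun b => u q b) (fun b => Dd (sp e i) u q b)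
    have hM : (∑ b, ‖u q b‖ ^ 2) * ∑ b, ‖Dd (sp e i) u q b‖ ^ 2
        ≤ M * ∑ b, ‖Dd (sp e i) u q b‖ ^ 2 :=
      mul_le_mul_of_nonneg_right h.bd (Finset.sum_nonneg fun _ _ => by positivity)
    linarith
  have h2 : ∑ i, (Dd (sp e i) (pE u) q) ^ 2 ≤ 4 * M * sE e u q := by
    unfold sE
    rw [Finset.mul_sum]
    exact Finset.sum_le_sum fun i _ => h1 i
  calc Lam * ∑ i, (Dd (sp e i) (pE u) q) ^ 2 ≤ Lam * (4 * M * sE e u q) :=
        mul_le_mul_of_nonneg_left h2 hLam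
    _ = _ := by ring

theorem gh_gamma_s {e : κ → E} {A : ℝ × E → κ → κ → ℝ} {u : ℝ × E → β → 𝕍}
    {lam Lam CA Cf M : ℝ} {q : ℝ × E} (h : GH e A u lam Lam CA Cf M q) :
    ∑ i, ∑ j, A q i j * (Dd (sp e i) (sE e u) q * Dd (sp e j) (sE e u) q)
      ≤ 4 * Lam * sE e u q * yE e u q := by
  have hu := h.u_smooth
  rcases isEmpty_or_nonempty κ with he | ⟨⟨i₀⟩⟩
  · simp [sE]
  have hLam : 0 ≤ Lam := (abs_nonneg _).trans (coefOK_abs_le h.coef i₀ i₀)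
  refine (h.coef.le _).trans ?_
  have d1 : ∀ d, DifferentiableAt ℝ (Dd (sp e d) u) q := fun d =>
    (contDiffAt_Dd hu _).differentiableAt (by simp)
  have e0 : ∀ i, Dd (sp e i) (sE e u) q
      = 2 * ∑ db : κ × β, inner ℝ (Dd (sp e db.1) u q db.2)
          (Dd (sp e i) (Dd (sp e db.1) u) q db.2) := by
    intro i
    have : sE e u = fun q' => ∑ d, pE (Dd (sp e d) u) q' := rfl
    rw [this, Dd_sum Finset.univ fun d _ =>
      (contDiffAt_pE (contDiffAt_Dd hu _)).differentiableAt (by simp), Fintype.sum_prod_type,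
      Finset.mul_sum]
    exact Finset.sum_congr rfl fun d _ => Dd_pE (d1 d) _
  have h1 : ∀ i, (Dd (sp e i) (sE e u) q) ^ 2
      ≤ 4 * sE e u q * ∑ d, ∑ b, ‖Dd (sp e i) (Dd (sp e d) u) q b‖ ^ 2 := by
    intro i
    rw [e0, mul_pow]
    have := sum_inner_sq_le Finset.univ (fun db : κ × β => Dd (sp e db.1) u q db.2)
      (fun db : κ × β => Dd (sp e i) (Dd (sp e db.1) u) q db.2)
    rw [Fintype.sum_prod_type (f := fun db : κ × β => ‖Dd (sp e db.1) u q db.2‖ ^ 2),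
      Fintype.sum_prod_type
        (f := fun db : κ × β => ‖Dd (sp e i) (Dd (sp e db.1) u) q db.2‖ ^ 2)] at this
    unfold sE
    linarith
  have h2 : ∑ i, (Dd (sp e i) (sE e u) q) ^ 2 ≤ 4 * sE e u q * yE e u q := by
    conv_rhs => unfold yE
    rw [Finset.mul_sum]
    exact Finset.sum_le_sum fun i _ => h1 i
  calc Lam * ∑ i, (Dd (sp e i) (sE e u) q) ^ 2 ≤ Lam * (4 * sE e u q * yE e u q) :=
        mul_le_mul_of_nonneg_left h2 hLam
    _ = _ := by ring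

/-- **T1: the gradient estimate.** -/
theorem grad_est [FiniteDimensional ℝ E] [FiniteDimensional ℝ 𝕍] (e : κ → E) (β : Type) [Fintype β]
    (ρ' ρ δ lam Lam CA Cf M S₀ : ℝ) (hρ' : 0 < ρ') (hρ : ρ' < ρ) (hδ : 0 < δ) (hlam : 0 < lam)
    (hLam : 0 ≤ Lam) (hCA : 0 ≤ CA) (hCf : 0 ≤ Cf) (hM : 0 ≤ M) (hS : 0 ≤ S₀) :
    ∃ C : ℝ, 0 ≤ C ∧ ∀ (t₀ t₁ : ℝ) (x₀ : E) (O : Set (ℝ × E)) (A : ℝ × E → κ → κ → ℝ)
      (u : ℝ × E → β → 𝕍), t₀ ≤ t₁ → IsOpen O → cyl t₀ t₁ x₀ ρ ⊆ O →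
      ContDiffOn ℝ ∞ u O → ContDiffOn ℝ ∞ A O →
      (∀ q ∈ cyl t₀ t₁ x₀ ρ, GH e A u lam Lam CA Cf M q) →
      ((∀ x ∈ Metric.closedBall x₀ ρ, sE e u (t₀, x) ≤ S₀) →
        ∀ q ∈ cyl t₀ t₁ x₀ ρ', sE e u q ≤ C) ∧
      (∀ q ∈ cyl (t₀ + δ) t₁ x₀ ρ', sE e u q ≤ C) := by
  obtain ⟨C₁, hC₁, H1⟩ := gh_p (E := E) (κ := κ) (𝕍 := 𝕍) β lam Lam CA Cf M hlam hCf hM
  obtain ⟨C₂, hC₂, H2⟩ := gh_s (E := E) (𝕍 := 𝕍) κ β lam Lam CA Cf M hlam hCA hCf
  obtain ⟨C₄, hC₄⟩ : ∃ C₄ : ℝ, C₄ = max (4 * Lam * M) (4 * Lam / lam) := ⟨_, rfl⟩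
  have hC₄0 : 0 ≤ C₄ := by rw [hC₄]; exact le_max_of_le_left (by positivity)
  obtain ⟨Cs, hCs, H⟩ := shi_local_real e ρ' ρ δ Lam lam C₁ C₂ C₄ M S₀ hρ' hρ hδ hLam hlam hC₁ hC₂
    hC₄0 hM hS
  refine ⟨Cs, hCs, ?_⟩
  intro t₀ t₁ x₀ O A u ht hO hsub hu hA hGH
  have hp : ContDiffOn ℝ 2 (fun q : ℝ × E => pE u (q.1, q.2)) O := fun q hq =>
    (contDiffAt_nat_of_top (contDiffAt_pE (hu.contDiffAt (hO.mem_nhds hq))) 2).contDiffWithinAt
  have hs : ContDiffOn ℝ 2 (fun q : ℝ × E => sE e u (q.1, q.2)) O := fun q hq =>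
    (contDiffAt_nat_of_top (contDiffAt_sE e (hu.contDiffAt (hO.mem_nhds hq))) 2).contDiffWithinAt
  have H' := H t₀ t₁ x₀ O (fun t x => A (t, x)) (fun t x => pE u (t, x)) (fun t x => sE e u (t, x))
    (fun t x => lam * yE e u (t, x)) ht hO hsub hp hs (fun t ht' x hx => by
      have hq : (t, x) ∈ cyl t₀ t₁ x₀ ρ := ⟨ht', hx⟩
      have h := hGH _ hq
      have cp := contDiffAt_pE h.u_smooth
      have cs := contDiffAt_sE e h.u_smooth
      have s0 := sE_nonneg e u (t, x)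
      have y0 := yE_nonneg e u (t, x)
      refine ⟨h.coef, pE_nonneg u _, h.bd, s0, by positivity, ?_, ?_, ?_, ?_⟩
      · rw [hop_slice e _ cp]; exact H1 e A u _ h
      · rw [hop_slice e _ cs]; exact H2 e A u _ h
      · rw [gre_slice e _ (cp.differentiableAt (by simp)) (cp.differentiableAt (by simp))]
        refine (gh_gamma_p h).trans (mul_le_mul_of_nonneg_right ?_ s0)
        rw [hC₄]; exact le_max_left _ _
      · rw [gre_slice e _ (cs.differentiableAt (by simp)) (cs.differentiableAt (by simp))]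
        refine (gh_gamma_s h).trans ?_
        have e1 : 4 * Lam * sE e u (t, x) * yE e u (t, x)
            = 4 * Lam / lam * (sE e u (t, x) * (lam * yE e u (t, x))) := by field_simp
        have e2 : C₄ * sE e u (t, x) * (lam * yE e u (t, x))
            = C₄ * (sE e u (t, x) * (lam * yE e u (t, x))) := by ring
        rw [e1, e2]
        refine mul_le_mul_of_nonneg_right ?_ (by positivity)
        rw [hC₄]; exact le_max_right _ _)
  exact ⟨fun hi q hq => H'.1 hi q.1 hq.1 q.2 hq.2, fun q hq => H'.2 q.1 hq.1 q.2 hq.2⟩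

end Claimed.Agent.R316.B9
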