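import Claimed.Agent.R316.B9.QLGrad

/-!
# Row 316, package B9: prolongation of quasilinear systems (T2), affine growth, gradient estimate for systems

Leaves
* **B9-QL-P1**: `contDiffOn_pro`, `Dl_pro_none`, `Dl_pro_some`, `nn_pro`, `sm_pro`, `Dd_pro_some`, `pro_sol` (T2).
  `pro_sol`: component `(none, β)`: the equation of `u_β` itself (`sm (pro e u q) = fun i => Dd (sp e i) u q`).
  Component `(some d, β)`: apply `Dd (sp e d)` to the equation of `u_β`, valid on the OPEN set `O` (`Dd_congr` through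
  `Filter.eventuallyEq_of_mem`); left side `Dd_comm`; right side `Dd_sum`, `Dd_smul`, `Dd_comp` for `S.a i j ∘ u` and for
  `S.Φ ∘ (u, Du)`; `D_d D_i D_j u = D_i D_j D_d u` by `Dd_comm` (in a neighbourhood) twice.
* **B9-QL-P2**: `prolong_reg`, `prolong_good`.  (`nn`, `sm` are continuous linear; `ContDiffOn.fderiv_of_isOpen`, `ContDiffOn.clm_apply`,
  `contDiffOn_pi`.  Compactness: closed subset of `(nn,sm)⁻¹ (𝒦 ×ˢ closedBall 0 B₁)`, bounded, finite dimension;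
  or the image of `𝒦 ×ˢ closedBall 0 B₁` under the continuous inverse of `W ↦ (nn W, sm W)`.)
* **B9-QL-P3**: `AG_of_affine`, `prolong_affine`, `prolong_AG`.
  `AG_of_affine`: put `c W = Φ (W, 0)`, `b W = fderiv Φ (W, 0) ∘ inr`; `Φ (W, Q) = c W + b W Q` on `dom ×ˢ univ`, `c`, `b` are `C^∞` on `dom`;
  `fderiv Φ (W,Q) (W',Q') = fderiv c W W' + (fderiv b W W') Q + b W Q'`; the four norms are bounded on the compact set `𝒦`.
* **B9-QL-P4**: `gh_of_sys` and `grad_sys`.  Active `β`: `Hop e (A q') u q' β = S.Φ (u q', Du q') β` on `O`, so `f_le` is `AG.1` with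
  `‖Du‖ ≤ √s`, and `df_le` is the chain rule + `AG.2`: `≤ CAG ((1 + √s) √s + √y) ≤ 2 CAG (1 + s + √y)`.
  Passive `β`: `|f_β| ≤ Bθ + n² Lam Bθ`, `|D_d f_β| ≤ Bθ + n² CA Bθ + n² Lam Bθ` (`coef_entry_le`; lists `[none]`, `[some j, some i]`,
  `[none, some d]`, `[some j, some i, some d]`).  `pE u q ≤ M` from the compactness of `𝒦`.
-/

set_option autoImplicit false
set_option maxSynthPendingDepth 3
open scoped ContDiff Topology

namespace Claimed.Agent.R316.B9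

variable {E : Type} [NormedAddCommGroup E] [NormedSpace ℝ E] {κ : Type} [Fintype κ]
variable {α : Type} [Fintype α] {𝕍 : Type} [NormedAddCommGroup 𝕍] [InnerProductSpace ℝ 𝕍]

/-! ### B9-QL-P1 -/

theorem nn_pro (e : κ → E) (u : ℝ × E → α → 𝕍) (q : ℝ × E) : nn (pro e u q) = u q := by
  rfl

theorem sm_pro (e : κ → E) (u : ℝ × E → α → 𝕍) (q : ℝ × E) :
    sm (pro e u q) = fun i => Dd (sp e i) u q := by
  rfl

theorem contDiffAt_pro (e : κ → E) {u : ℝ × E → α → 𝕍} {q : ℝ × E} (hu : ContDiffAt ℝ ∞ u q) :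
    ContDiffAt ℝ ∞ (pro e u) q := by
  rw [contDiffAt_pi]
  rintro ⟨_ | d, β⟩
  · exact (contDiffAt_pi.1 hu) β
  · exact (contDiffAt_pi.1 (contDiffAt_Dd hu (sp e d))) β

theorem contDiffOn_pro (e : κ → E) {u : ℝ × E → α → 𝕍} {O : Set (ℝ × E)} (hO : IsOpen O)
    (hu : ContDiffOn ℝ ∞ u O) : ContDiffOn ℝ ∞ (pro e u) O := by
  intro q hq
  exact (contDiffAt_pro e (hu.contDiffAt (hO.mem_nhds hq))).contDiffWithinAt

theorem Dd_prodMk {P F G : Type} [NormedAddCommGroup P] [NormedSpace ℝ P] [NormedAddCommGroup F]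
    [NormedSpace ℝ F] [NormedAddCommGroup G] [NormedSpace ℝ G] {f : P → F} {g : P → G} {q : P}
    (hf : DifferentiableAt ℝ f q) (hg : DifferentiableAt ℝ g q) (v : P) :
    Dd v (fun x => (f x, g x)) q = (Dd v f q, Dd v g q) := by
  simp only [Dd]
  rw [hf.fderiv_prodMk hg]
  rfl

theorem Dl_pro_none (e : κ → E) {u : ℝ × E → α → 𝕍} {q : ℝ × E} (hu : ContDiffAt ℝ ∞ u q)
    (L : List (ℝ × E)) (β : α) : Dl L (pro e u) q (none, β) = Dl L u q β := by
  rw [Dl_apply (contDiffAt_pro e hu), Dl_apply hu]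
  rfl

theorem Dl_pro_some (e : κ → E) {u : ℝ × E → α → 𝕍} {q : ℝ × E} (hu : ContDiffAt ℝ ∞ u q)
    (L : List (ℝ × E)) (d : κ) (β : α) :
    Dl L (pro e u) q (some d, β) = Dl (sp e d :: L) u q β := by
  rw [Dl_apply (contDiffAt_pro e hu)]
  show _ = Dl L (Dd (sp e d) u) q β
  rw [Dl_apply (contDiffAt_Dd hu _)]
  rfl

/-- **T2.** -/
theorem pro_sol (e : κ → E) (S : QSys κ α 𝕍) (hS : S.Reg) {u : ℝ × E → α → 𝕍} {O : Set (ℝ × E)}
    (hO : IsOpen O) (hu : ContDiffOn ℝ ∞ u O) (hdom : Set.MapsTo u O S.dom) (hsol : S.Sol e u O) :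
    S.prolong.Sol e (pro e u) O := by
  intro q hq b hb
  have huq : ContDiffAt ℝ ∞ u q := hu.contDiffAt (hO.mem_nhds hq)
  obtain ⟨_ | d, β⟩ := b
  · have h := hsol q hq β hb
    have e1 : Dd tm (pro e u) q (none, β) = Dd tm u q β := Dl_pro_none e huq [tm] β
    have e2 : ∀ i j, Dd (sp e i) (Dd (sp e j) (pro e u)) q (none, β)
        = Dd (sp e i) (Dd (sp e j) u) q β := fun i j => Dl_pro_none e huq [sp e j, sp e i] β
    simp only [e1, e2]
    exact h
  · have hb' : S.act β := hb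
    have e1 : Dd tm (pro e u) q (some d, β) = Dd tm (Dd (sp e d) u) q β :=
      Dl_pro_some e huq [tm] d β
    have e2 : ∀ i j, Dd (sp e i) (Dd (sp e j) (pro e u)) q (some d, β)
        = Dd (sp e i) (Dd (sp e j) (Dd (sp e d) u)) q β :=
      fun i j => Dl_pro_some e huq [sp e j, sp e i] d β
    have e3 : ∀ i j β', Dd (sp e i) (pro e u) q (some j, β') = Dd (sp e i) (Dd (sp e j) u) q β' :=
      fun i j β' => Dl_pro_some e huq [sp e i] j β'
    simp only [e1, e2]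
    show _ = _ + ((∑ i, ∑ j, (fderiv ℝ (S.a i j) (u q) (Dd (sp e d) u q))
        • Dd (sp e i) (pro e u) q (some j, β))
      + fderiv ℝ S.Φ (u q, fun i => Dd (sp e i) u q)
          (Dd (sp e d) u q, fun i β' => Dd (sp e d) (pro e u) q (some i, β')) β)
    simp only [e3]
    -- differentiate the equation
    have heq : (fun x => Dd tm u x β) =ᶠ[𝓝 q] fun x =>
        (∑ i, ∑ j, S.a i j (u x) • Dd (sp e i) (Dd (sp e j) u) x β)
          + S.Φ (u x, fun i => Dd (sp e i) u x) β :=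
      Filter.eventuallyEq_of_mem (hO.mem_nhds hq) fun x hx => hsol x hx β hb'
    have hD := (Dd_congr heq (sp e d)).self_of_nhds
    have du : DifferentiableAt ℝ u q := huq.differentiableAt (by simp)
    have d1 : ∀ v, DifferentiableAt ℝ (Dd v u) q := fun v =>
      (contDiffAt_Dd huq v).differentiableAt (by simp)
    have d2 : ∀ i j, DifferentiableAt ℝ (Dd (sp e i) (Dd (sp e j) u)) q := fun i j =>
      (contDiffAt_Dd (contDiffAt_Dd huq _) _).differentiableAt (by simp)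
    have d2' : ∀ i j, DifferentiableAt ℝ (fun x => Dd (sp e i) (Dd (sp e j) u) x β) q := fun i j =>
      (differentiableAt_pi.1 (d2 i j)) β
    have da0 : ∀ i j, DifferentiableAt ℝ (S.a i j) (u q) := fun i j =>
      ((hS.a_smooth i j).contDiffAt (hS.isOpen.mem_nhds (hdom hq))).differentiableAt (by simp)
    have da : ∀ i j, DifferentiableAt ℝ (fun x => S.a i j (u x)) q := fun i j =>
      (da0 i j).comp q du
    have dG : DifferentiableAt ℝ (fun x => fun i => Dd (sp e i) u x) q :=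
      differentiableAt_pi.2 fun i => d1 _
    have dpair : DifferentiableAt ℝ (fun x => (u x, fun i => Dd (sp e i) u x)) q := du.prodMk dG
    have dΦ0 : DifferentiableAt ℝ S.Φ (u q, fun i => Dd (sp e i) u q) :=
      (hS.Φ_smooth.contDiffAt ((hS.isOpen.prod isOpen_univ).mem_nhds
        ⟨hdom hq, Set.mem_univ _⟩)).differentiableAt (by simp)
    have dΦ : DifferentiableAt ℝ (fun x => S.Φ (u x, fun i => Dd (sp e i) u x)) q :=
      dΦ0.comp q dpair
    have dΦ' : DifferentiableAt ℝ (fun x => S.Φ (u x, fun i => Dd (sp e i) u x) β) q :=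
      (differentiableAt_pi.1 dΦ) β
    have s0 : ∀ i j, DifferentiableAt ℝ
        (fun x => S.a i j (u x) • Dd (sp e i) (Dd (sp e j) u) x β) q := fun i j =>
      (da i j).smul (d2' i j)
    have s1 : ∀ i, DifferentiableAt ℝ
        (fun x => ∑ j, S.a i j (u x) • Dd (sp e i) (Dd (sp e j) u) x β) q := fun i =>
      DifferentiableAt.fun_sum fun j _ => s0 i j
    have s2 : DifferentiableAt ℝ
        (fun x => ∑ i, ∑ j, S.a i j (u x) • Dd (sp e i) (Dd (sp e j) u) x β) q :=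
      DifferentiableAt.fun_sum fun i _ => s1 i
    rw [← Dd_apply (d1 tm), Dd_comm huq, Dd_add s2 dΦ', Dd_sum _ (fun i _ => s1 i)] at hD
    rw [hD, ← add_assoc]
    congr 1
    · rw [← Finset.sum_add_distrib]
      refine Finset.sum_congr rfl fun i _ => ?_
      rw [Dd_sum _ (fun j _ => s0 i j), ← Finset.sum_add_distrib]
      refine Finset.sum_congr rfl fun j _ => ?_
      rw [Dd_smul (da i j) (d2' i j), ← Dd_apply (d2 i j), Dd_comp (da0 i j) du]
      have hp : [sp e d, sp e j, sp e i].Perm [sp e j, sp e i, sp e d] :=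
        (List.perm_append_singleton (sp e d) [sp e j, sp e i]).symm
      have := Dl_perm huq hp
      have e4 : Dd (sp e i) (Dd (sp e j) (Dd (sp e d) u)) q
          = Dd (sp e d) (Dd (sp e i) (Dd (sp e j) u)) q := this
      rw [e4]
      rfl
    · rw [← Dd_apply dΦ, Dd_comp (Ψ := S.Φ) (h := fun x => (u x, fun i => Dd (sp e i) u x)) dΦ0 dpair]
      have e5 : Dd (sp e d) (fun x => (u x, fun i => Dd (sp e i) u x)) q
          = (Dd (sp e d) u q, fun i β' => Dd (sp e d) (Dd (sp e i) u) q β') := by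
        rw [Dd_prodMk du dG]
        refine Prod.ext rfl ?_
        funext i
        exact Dd_apply (F := α → 𝕍) dG (sp e d) i
      rw [e5]

/-! ### B9-QL-P2 -/

theorem contDiff_nn : ContDiff ℝ ∞ (nn : (Option κ × α → 𝕍) → α → 𝕍) :=
  contDiff_pi.2 fun β => contDiff_apply ℝ 𝕍 ((none : Option κ), β)

theorem contDiff_sm : ContDiff ℝ ∞ (sm : (Option κ × α → 𝕍) → κ → α → 𝕍) :=
  contDiff_pi.2 fun i => contDiff_pi.2 fun β => contDiff_apply ℝ 𝕍 (some i, β)

theorem prolong_reg [FiniteDimensional ℝ 𝕍] (S : QSys κ α 𝕍) (hS : S.Reg) : S.prolong.Reg := by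
  have hop : IsOpen S.prolong.dom := hS.isOpen.preimage contDiff_nn.continuous
  have hfst : ContDiff ℝ ∞ (fun p : (Option κ × α → 𝕍) × (κ → Option κ × α → 𝕍) => nn p.1) :=
    contDiff_nn.comp contDiff_fst
  have hsm : ContDiff ℝ ∞ (fun p : (Option κ × α → 𝕍) × (κ → Option κ × α → 𝕍) => sm p.1) :=
    contDiff_sm.comp contDiff_fst
  have hsmd : ∀ d, ContDiff ℝ ∞
      (fun p : (Option κ × α → 𝕍) × (κ → Option κ × α → 𝕍) => sm p.1 d) := fun d =>
    (contDiff_pi.1 hsm) d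
  have hmaps : Set.MapsTo (fun p : (Option κ × α → 𝕍) × (κ → Option κ × α → 𝕍) => nn p.1)
      (S.prolong.dom ×ˢ Set.univ) S.dom := fun p hp => hp.1
  have hmaps2 : Set.MapsTo
      (fun p : (Option κ × α → 𝕍) × (κ → Option κ × α → 𝕍) => (nn p.1, sm p.1))
      (S.prolong.dom ×ˢ Set.univ) (S.dom ×ˢ Set.univ) := fun p hp => ⟨hp.1, Set.mem_univ _⟩
  have hQ : ∀ (i : κ) (b : Option κ × α), ContDiff ℝ ∞
      (fun p : (Option κ × α → 𝕍) × (κ → Option κ × α → 𝕍) => p.2 i b) := fun i b =>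
    (contDiff_pi.1 ((contDiff_pi.1 contDiff_snd) i)) b
  refine ⟨hop, fun i j => (hS.a_smooth i j).comp contDiff_nn.contDiffOn fun W hW => hW, ?_⟩
  rw [contDiffOn_pi]
  rintro ⟨_ | d, β⟩
  · exact (contDiffOn_pi.1 (hS.Φ_smooth.comp (hfst.prodMk hsm).contDiffOn hmaps2)) β
  · have h1 : ∀ i j, ContDiffOn ℝ ∞
        (fun p : (Option κ × α → 𝕍) × (κ → Option κ × α → 𝕍) =>
          (fderiv ℝ (S.a i j) (nn p.1) (sm p.1 d)) • p.2 i (some j, β))
        (S.prolong.dom ×ˢ Set.univ) := fun i j =>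
      ((((hS.a_smooth i j).fderiv_of_isOpen hS.isOpen (m := ∞) (by simp)).comp hfst.contDiffOn
        hmaps).clm_apply (hsmd d).contDiffOn).smul (hQ i _).contDiffOn
    have h2 : ContDiffOn ℝ ∞
        (fun p : (Option κ × α → 𝕍) × (κ → Option κ × α → 𝕍) =>
          fderiv ℝ S.Φ (nn p.1, sm p.1) (sm p.1 d, fun i β' => p.2 d (some i, β')))
        (S.prolong.dom ×ˢ Set.univ) :=
      ((hS.Φ_smooth.fderiv_of_isOpen (hS.isOpen.prod isOpen_univ) (m := ∞) (by simp)).comp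
        (hfst.prodMk hsm).contDiffOn hmaps2).clm_apply
        ((hsmd d).prodMk (contDiff_pi.2 fun i => contDiff_pi.2 fun β' => hQ d _)).contDiffOn
    exact (ContDiffOn.sum fun i _ => ContDiffOn.sum fun j _ => h1 i j).add ((contDiffOn_pi.1 h2) β)

theorem prolong_good [FiniteDimensional ℝ 𝕍] (S : QSys κ α 𝕍) {𝒦 : Set (α → 𝕍)} {lam Lam : ℝ}
    (hS : S.Good 𝒦 lam Lam) (B₁ : ℝ) :
    S.prolong.Good {W | nn W ∈ 𝒦 ∧ ‖sm W‖ ≤ B₁} lam Lam := by
  refine ⟨prolong_reg S hS.reg, hS.lam_pos, hS.Lam_nonneg, ?_, fun W hW => hS.sub hW.1,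
    fun W hW => hS.coef _ hW.1, fun W hW => hS.ell _ hW.1⟩
  apply Metric.isCompact_of_isClosed_isBounded
  · exact (hS.compact.isClosed.preimage contDiff_nn.continuous).inter
      (isClosed_le contDiff_sm.continuous.norm continuous_const)
  · obtain ⟨R, hR⟩ := hS.compact.isBounded.subset_closedBall 0
    refine (Metric.isBounded_closedBall (x := (0 : Option κ × α → 𝕍))
      (r := max (max R B₁) 0)).subset fun W hW => ?_
    rw [mem_closedBall_zero_iff, pi_norm_le_iff_of_nonneg (le_max_right _ _)]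
    rintro ⟨_ | i, β⟩
    · have h1 : ‖nn W‖ ≤ R := mem_closedBall_zero_iff.1 (hR hW.1)
      exact ((norm_le_pi_norm (nn W) β).trans h1).trans
        ((le_max_left _ _).trans (le_max_left _ _))
    · exact (((norm_le_pi_norm (sm W i) β).trans (norm_le_pi_norm (sm W) i)).trans hW.2).trans
        ((le_max_right _ _).trans (le_max_left _ _))

/-! ### B9-QL-P3 -/

theorem AG_of_affine [FiniteDimensional ℝ 𝕍] (S : QSys κ α 𝕍) (hS : S.Reg)
    (haff : ∀ W ∈ S.dom, ∀ Q : κ → α → 𝕍,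
      S.Φ (W, Q) = S.Φ (W, 0) + fderiv ℝ S.Φ (W, 0) (0, Q))
    {𝒦 : Set (α → 𝕍)} (hK : IsCompact 𝒦) (hsub : 𝒦 ⊆ S.dom) : ∃ C : ℝ, 0 ≤ C ∧ S.AG 𝒦 C := by
  set X := α → 𝕍 with hX
  set Y := κ → α → 𝕍 with hY
  have hopen : IsOpen (S.dom ×ˢ (Set.univ : Set Y)) := hS.isOpen.prod isOpen_univ
  have hinc : ContDiff ℝ ∞ (fun W : X => (W, (0 : Y))) := contDiff_id.prodMk contDiff_const
  have hmaps : Set.MapsTo (fun W : X => (W, (0 : Y))) S.dom (S.dom ×ˢ Set.univ) :=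
    fun W hW => ⟨hW, Set.mem_univ _⟩
  -- the two coefficient functions
  obtain ⟨c, hc⟩ : ∃ c : X → X, c = fun W => S.Φ (W, 0) := ⟨_, rfl⟩
  obtain ⟨b, hb⟩ : ∃ b : X → (Y →L[ℝ] X),
      b = fun W => (fderiv ℝ S.Φ (W, 0)).comp (ContinuousLinearMap.inr ℝ X Y) := ⟨_, rfl⟩
  have cs : ContDiffOn ℝ ∞ c S.dom := by
    rw [hc]; exact hS.Φ_smooth.comp hinc.contDiffOn hmaps
  have bs : ContDiffOn ℝ ∞ b S.dom := by
    rw [hb]
    exact ((hS.Φ_smooth.fderiv_of_isOpen hopen (m := ∞) (by simp)).comp hinc.contDiffOn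
      hmaps).clm_comp contDiffOn_const
  have hΦ : ∀ W ∈ S.dom, ∀ Q : Y, S.Φ (W, Q) = c W + b W Q := by
    intro W hW Q
    rw [haff W hW Q, hc, hb]
    rfl
  have dcs : ContDiffOn ℝ ∞ (fderiv ℝ c) S.dom := cs.fderiv_of_isOpen hS.isOpen (by simp)
  have dbs : ContDiffOn ℝ ∞ (fderiv ℝ b) S.dom := bs.fderiv_of_isOpen hS.isOpen (by simp)
  obtain ⟨C0, h0⟩ := hK.exists_bound_of_continuousOn (cs.continuousOn.mono hsub)
  obtain ⟨C1, h1⟩ := hK.exists_bound_of_continuousOn (bs.continuousOn.mono hsub)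
  obtain ⟨C2, h2⟩ := hK.exists_bound_of_continuousOn (dcs.continuousOn.mono hsub)
  obtain ⟨C3, h3⟩ := hK.exists_bound_of_continuousOn (dbs.continuousOn.mono hsub)
  refine ⟨|C0| + |C1| + |C2| + |C3|, by positivity, fun W hW Q => ⟨?_, fun W' Q' => ?_⟩⟩
  · rw [hΦ W (hsub hW) Q]
    have a0 := (h0 W hW).trans (le_abs_self _)
    have a1 : ‖b W Q‖ ≤ |C1| * ‖Q‖ :=
      ((b W).le_opNorm Q).trans
        (mul_le_mul_of_nonneg_right ((h1 W hW).trans (le_abs_self _)) (norm_nonneg _))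
    have := norm_add_le (c W) (b W Q)
    have q0 := norm_nonneg Q
    have e : (|C0| + |C1| + |C2| + |C3|) * (1 + ‖Q‖)
        = |C0| + |C1| * ‖Q‖ + (|C0| * ‖Q‖ + |C1| + (|C2| + |C3|) * (1 + ‖Q‖)) := by ring
    have : 0 ≤ |C0| * ‖Q‖ + |C1| + (|C2| + |C3|) * (1 + ‖Q‖) := by positivity
    linarith
  · have hWd := hsub hW
    have dc : HasFDerivAt c (fderiv ℝ c W) W :=
      ((cs.contDiffAt (hS.isOpen.mem_nhds hWd)).differentiableAt (by simp)).hasFDerivAt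
    have db : HasFDerivAt b (fderiv ℝ b W) W :=
      ((bs.contDiffAt (hS.isOpen.mem_nhds hWd)).differentiableAt (by simp)).hasFDerivAt
    have dc' : HasFDerivAt (fun p : X × Y => c p.1)
        ((fderiv ℝ c W).comp (ContinuousLinearMap.fst ℝ X Y)) (W, Q) :=
      HasFDerivAt.comp (W, Q) (f := fun p : X × Y => p.1) dc hasFDerivAt_fst
    have db' : HasFDerivAt (fun p : X × Y => b p.1)
        ((fderiv ℝ b W).comp (ContinuousLinearMap.fst ℝ X Y)) (W, Q) :=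
      HasFDerivAt.comp (W, Q) (f := fun p : X × Y => p.1) db hasFDerivAt_fst
    have dtot : HasFDerivAt (fun p : X × Y => c p.1 + b p.1 p.2) _ (W, Q) :=
      dc'.add (db'.clm_apply (hasFDerivAt_snd (𝕜 := ℝ) (p := (W, Q))))
    have heq : S.Φ =ᶠ[𝓝 (W, Q)] fun p : X × Y => c p.1 + b p.1 p.2 :=
      Filter.eventuallyEq_of_mem (hopen.mem_nhds ⟨hWd, Set.mem_univ _⟩) fun p hp => hΦ p.1 hp.1 p.2
    rw [heq.fderiv_eq, dtot.fderiv]
    simp only [add_apply, ContinuousLinearMap.comp_apply,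
      ContinuousLinearMap.flip_apply, ContinuousLinearMap.coe_fst', ContinuousLinearMap.coe_snd']
    have a1 : ‖b W Q'‖ ≤ |C1| * ‖Q'‖ :=
      ((b W).le_opNorm Q').trans
        (mul_le_mul_of_nonneg_right ((h1 W hW).trans (le_abs_self _)) (norm_nonneg _))
    have a2 : ‖fderiv ℝ c W W'‖ ≤ |C2| * ‖W'‖ :=
      ((fderiv ℝ c W).le_opNorm W').trans
        (mul_le_mul_of_nonneg_right ((h2 W hW).trans (le_abs_self _)) (norm_nonneg _))
    have a3 : ‖fderiv ℝ b W W' Q‖ ≤ |C3| * ‖W'‖ * ‖Q‖ :=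
      ((fderiv ℝ b W W').le_opNorm Q).trans (mul_le_mul_of_nonneg_right
        (((fderiv ℝ b W).le_opNorm W').trans
          (mul_le_mul_of_nonneg_right ((h3 W hW).trans (le_abs_self _)) (norm_nonneg _)))
        (norm_nonneg _))
    have n1 := norm_add_le (fderiv ℝ c W W') (b W Q' + fderiv ℝ b W W' Q)
    have n2 := norm_add_le (b W Q') (fderiv ℝ b W W' Q)
    have e : (|C0| + |C1| + |C2| + |C3|) * ((1 + ‖Q‖) * ‖W'‖ + ‖Q'‖)
        = |C2| * ‖W'‖ + |C1| * ‖Q'‖ + |C3| * ‖W'‖ * ‖Q‖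
          + ((|C0| + |C1|) * ((1 + ‖Q‖) * ‖W'‖) + |C2| * (‖Q‖ * ‖W'‖) + |C3| * ‖W'‖
            + (|C0| + |C2| + |C3|) * ‖Q'‖) := by ring
    have : 0 ≤ (|C0| + |C1|) * ((1 + ‖Q‖) * ‖W'‖) + |C2| * (‖Q‖ * ‖W'‖) + |C3| * ‖W'‖
            + (|C0| + |C2| + |C3|) * ‖Q'‖ := by positivity
    linarith

theorem fderiv_of_affine_line {X Y : Type} [NormedAddCommGroup X] [NormedSpace ℝ X]
    [NormedAddCommGroup Y] [NormedSpace ℝ Y] {g : X → Y} (hg : DifferentiableAt ℝ g 0) (Q : X)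
    (h : ∀ t : ℝ, g (t • Q) = g 0 + t • (g Q - g 0)) : fderiv ℝ g 0 Q = g Q - g 0 := by
  have hl : HasDerivAt (fun t : ℝ => t • Q) Q 0 := by
    simpa using (hasDerivAt_id (0 : ℝ)).smul_const Q
  have hg' : DifferentiableAt ℝ g ((0 : ℝ) • Q) := by simpa using hg
  have h1 := hg'.hasFDerivAt.comp_hasDerivAt (0 : ℝ) hl
  have h2 : HasDerivAt (fun t : ℝ => g 0 + t • (g Q - g 0)) (g Q - g 0) 0 := by
    simpa using ((hasDerivAt_id (0 : ℝ)).smul_const (g Q - g 0)).const_add (g 0)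
  have h3 : (g ∘ fun t : ℝ => t • Q) = fun t : ℝ => g 0 + t • (g Q - g 0) := funext h
  rw [h3] at h1
  have := h1.unique h2
  simpa using this

theorem prolong_affine [FiniteDimensional ℝ 𝕍] (S : QSys κ α 𝕍) (hS : S.Reg) :
    ∀ W ∈ S.prolong.dom, ∀ Q : κ → Option κ × α → 𝕍,
      S.prolong.Φ (W, Q) = S.prolong.Φ (W, 0) + fderiv ℝ S.prolong.Φ (W, 0) (0, Q) := by
  intro W hW Q
  have hreg := prolong_reg S hS
  have hd : DifferentiableAt ℝ S.prolong.Φ (W, 0) :=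
    (hreg.Φ_smooth.contDiffAt ((hreg.isOpen.prod isOpen_univ).mem_nhds
      ⟨hW, Set.mem_univ _⟩)).differentiableAt (by simp)
  have hinr : HasFDerivAt (fun Q : κ → Option κ × α → 𝕍 => (W, Q))
      (ContinuousLinearMap.inr ℝ _ _) 0 := hasFDerivAt_prodMk_right W 0
  have hg : HasFDerivAt (fun Q : κ → Option κ × α → 𝕍 => S.prolong.Φ (W, Q))
      ((fderiv ℝ S.prolong.Φ (W, 0)).comp (ContinuousLinearMap.inr ℝ _ _)) 0 :=
    HasFDerivAt.comp (0 : κ → Option κ × α → 𝕍) (g := S.prolong.Φ) hd.hasFDerivAt hinr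
  have key := fderiv_of_affine_line (g := fun Q : κ → Option κ × α → 𝕍 => S.prolong.Φ (W, Q))
    hg.differentiableAt Q (by
      intro t
      funext b
      obtain ⟨_ | d, β⟩ := b
      · simp [QSys.prolong]
      · simp only [QSys.prolong, Pi.add_apply, Pi.smul_apply, Pi.sub_apply, Pi.zero_apply,
          smul_zero, Finset.sum_const_zero, zero_add]
        have e1 : (sm W d, fun i β' => t • Q d (some i, β'))
            = (sm W d, (0 : κ → α → 𝕍)) + t • ((0 : α → 𝕍), fun i β' => Q d (some i, β')) := by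
          refine Prod.ext (by simp) ?_
          funext i β'
          simp
        have e2 : (sm W d, fun i β' => Q d (some i, β'))
            = (sm W d, (0 : κ → α → 𝕍)) + ((0 : α → 𝕍), fun i β' => Q d (some i, β')) := by
          refine Prod.ext (by simp) ?_
          funext i β'
          simp
        have e3 : (fun (_ : κ) (_ : α) => (0 : 𝕍)) = (0 : κ → α → 𝕍) := rfl
        rw [e1, e2, e3]
        simp only [map_add, map_smul, Pi.add_apply, Pi.smul_apply]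
        have hs : ∑ i, ∑ j, (fderiv ℝ (S.a i j) (nn W) (sm W d)) • t • Q i (some j, β)
            = t • ∑ i, ∑ j, (fderiv ℝ (S.a i j) (nn W) (sm W d)) • Q i (some j, β) := by
          simp only [Finset.smul_sum, smul_comm t]
        rw [hs]
        module)
  rw [hg.fderiv] at key
  have : fderiv ℝ S.prolong.Φ (W, 0) (0, Q) = S.prolong.Φ (W, Q) - S.prolong.Φ (W, 0) := key
  rw [this]; abel

theorem prolong_AG [FiniteDimensional ℝ 𝕍] (S : QSys κ α 𝕍) (hS : S.Reg)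
    {𝒦 : Set (Option κ × α → 𝕍)} (hK : IsCompact 𝒦) (hsub : 𝒦 ⊆ S.prolong.dom) :
    ∃ C : ℝ, 0 ≤ C ∧ S.prolong.AG 𝒦 C :=
  AG_of_affine S.prolong (prolong_reg S hS) (prolong_affine S hS) hK hsub

/-! ### B9-QL-P4 -/

/-- the hypotheses on a solution used by the gradient estimate, at the point `q`. -/
structure SH (e : κ → E) (S : QSys κ α 𝕍) (𝒦 : Set (α → 𝕍)) (u : ℝ × E → α → 𝕍) (CA Bθ : ℝ)
    (N : ℕ) (q : ℝ × E) : Prop where
  mem : u q ∈ 𝒦
  dA : ∀ d i j, |Dd (sp e d) (fun q' => S.a i j (u q')) q| ≤ CA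
  pas : ∀ β, ¬ S.act β → ∀ L : List (Option κ), L.length ≤ N → ‖Dl (L.map (dir e)) u q β‖ ≤ Bθ

theorem hop_act {e : κ → E} {S : QSys κ α 𝕍} {u : ℝ × E → α → 𝕍} {O : Set (ℝ × E)}
    (hsol : S.Sol e u O) {q : ℝ × E} (hq : q ∈ O) {b : α} (hb : S.act b) :
    Hop e (fun i j => S.a i j (u q)) u q b = S.Φ (u q, fun i => Dd (sp e i) u q) b := by
  have h := hsol q hq b hb
  simp only [Hop, Pi.sub_apply, Finset.sum_apply, Pi.smul_apply]
  rw [h]; abel

theorem hop_pas_le (e : κ → E) {a : κ → κ → ℝ} {Lam Bθ n : ℝ} (ha : CoefOK a Lam) (hLam : 0 ≤ Lam)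
    (hn : n = Fintype.card κ) {v : ℝ × E → α → 𝕍} {q : ℝ × E} {b : α} (h1 : ‖Dd tm v q b‖ ≤ Bθ)
    (h2 : ∀ i j, ‖Dd (sp e i) (Dd (sp e j) v) q b‖ ≤ Bθ) :
    ‖Hop e a v q b‖ ≤ Bθ + n * (n * (Lam * Bθ)) := by
  simp only [Hop, Pi.sub_apply, Finset.sum_apply, Pi.smul_apply]
  refine (norm_sub_le _ _).trans (add_le_add h1 ?_)
  calc _ ≤ ∑ _i : κ, ∑ _j : κ, Lam * Bθ := by
        refine (norm_sum_le _ _).trans (Finset.sum_le_sum fun i _ => ?_)
        refine (norm_sum_le _ _).trans (Finset.sum_le_sum fun j _ => ?_)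
        rw [norm_smul]
        exact mul_le_mul (coefOK_abs_le ha i j) (h2 i j) (norm_nonneg _) hLam
    _ = _ := by simp only [Finset.sum_const, Finset.card_univ, nsmul_eq_mul, hn]

theorem contDiffAt_hop {F : Type} [NormedAddCommGroup F] [NormedSpace ℝ F] (e : κ → E)
    {A : ℝ × E → κ → κ → ℝ} {u : ℝ × E → F} {q : ℝ × E}
    (hA : ContDiffAt ℝ ∞ A q) (hu : ContDiffAt ℝ ∞ u q) :
    ContDiffAt ℝ ∞ (fun q' => Hop e (A q') u q') q := by
  unfold Hop
  exact (contDiffAt_Dd hu _).sub (ContDiffAt.sum fun i _ => ContDiffAt.sum fun j _ =>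
    ((contDiffAt_pi.1 ((contDiffAt_pi.1 hA) i)) j).smul (contDiffAt_Dd (contDiffAt_Dd hu _) _))

theorem gh_of_sys [FiniteDimensional ℝ 𝕍] (S : QSys κ α 𝕍) {𝒦 : Set (α → 𝕍)} {lam Lam CAG : ℝ}
    (hG : S.Good 𝒦 lam Lam) (hC : 0 ≤ CAG) (hAG : S.AG 𝒦 CAG) (CA Bθ : ℝ) (hCA : 0 ≤ CA)
    (hB : 0 ≤ Bθ) :
    ∃ Cf M : ℝ, 0 ≤ Cf ∧ 0 ≤ M ∧ ∀ (e : κ → E) (O : Set (ℝ × E)) (u : ℝ × E → α → 𝕍), IsOpen O →
      ContDiffOn ℝ ∞ u O → Set.MapsTo u O S.dom → S.Sol e u O →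
      ∀ q ∈ O, SH e S 𝒦 u CA Bθ 3 q →
        GH e (fun q' i j => S.a i j (u q')) u lam Lam CA Cf M q := by
  classical
  obtain ⟨R, hR⟩ := hG.compact.isBounded.subset_closedBall 0
  obtain ⟨n, hn⟩ : ∃ n : ℝ, n = Fintype.card κ := ⟨_, rfl⟩
  have hn0 : 0 ≤ n := by rw [hn]; positivity
  have hLam := hG.Lam_nonneg
  obtain ⟨Cf, hCf⟩ : ∃ Cf : ℝ, Cf = 2 * CAG + (Bθ + n * (n * (Lam * Bθ)) + n * (n * (CA * Bθ))) :=
    ⟨_, rfl⟩
  have hCf0 : 0 ≤ Cf := by rw [hCf]; positivity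
  refine ⟨Cf, Fintype.card α * R ^ 2, hCf0, by positivity, ?_⟩
  intro e O u hO hu hdom hsol q hq hSH
  have huq : ContDiffAt ℝ ∞ u q := hu.contDiffAt (hO.mem_nhds hq)
  have hAq : ContDiffAt ℝ ∞ (fun q' i j => S.a i j (u q')) q :=
    contDiffAt_pi.2 fun i => contDiffAt_pi.2 fun j =>
      ((hG.reg.a_smooth i j).contDiffAt (hG.reg.isOpen.mem_nhds (hdom hq))).comp q huq
  have hs0 : 0 ≤ sE e u q := sE_nonneg e u q
  have hy0 : 0 ≤ yE e u q := yE_nonneg e u q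
  have hr0 := Real.sqrt_nonneg (sE e u q)
  have hw0 := Real.sqrt_nonneg (yE e u q)
  have hcoef := hG.coef _ hSH.mem
  have pas1 : ∀ b, ¬ S.act b → ∀ v : Option κ, ‖Dd (dir e v) u q b‖ ≤ Bθ := fun b hb v =>
    hSH.pas b hb [v] (by simp)
  have pas2 : ∀ b, ¬ S.act b → ∀ v w : Option κ, ‖Dd (dir e v) (Dd (dir e w) u) q b‖ ≤ Bθ :=
    fun b hb v w => hSH.pas b hb [w, v] (by simp)
  have pas3 : ∀ b, ¬ S.act b → ∀ v w z : Option κ,
      ‖Dd (dir e v) (Dd (dir e w) (Dd (dir e z) u)) q b‖ ≤ Bθ :=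
    fun b hb v w z => hSH.pas b hb [z, w, v] (by simp)
  have hgrad : ‖fun i => Dd (sp e i) u q‖ ≤ Real.sqrt (sE e u q) :=
    (pi_norm_le_iff_of_nonneg hr0).2 fun i => norm_Dd_le_sqrt_sE e u q i
  refine ⟨huq, hAq, hcoef, hG.ell _ hSH.mem, hSH.dA, ?_, ?_, ?_⟩
  · -- bound of `pE`
    have h1 : ‖u q‖ ≤ R := mem_closedBall_zero_iff.1 (hR hSH.mem)
    unfold pE
    calc ∑ b, ‖u q b‖ ^ 2 ≤ ∑ _b : α, R ^ 2 := Finset.sum_le_sum fun b _ =>
          pow_le_pow_left₀ (norm_nonneg _) ((norm_le_pi_norm _ b).trans h1) 2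
      _ = _ := by simp
  · intro b
    by_cases hb : S.act b
    · rw [hop_act hsol hq hb]
      refine (norm_le_pi_norm _ b).trans (((hAG _ hSH.mem _).1).trans ?_)
      have h1 : CAG * (1 + ‖fun i => Dd (sp e i) u q‖) ≤ CAG * (1 + Real.sqrt (sE e u q)) :=
        mul_le_mul_of_nonneg_left (by linarith) hC
      refine h1.trans (mul_le_mul_of_nonneg_right ?_ (by positivity))
      rw [hCf]
      have : 0 ≤ Bθ + n * (n * (Lam * Bθ)) + n * (n * (CA * Bθ)) := by positivity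
      linarith
    · have h1 : ‖Hop e (fun i j => S.a i j (u q)) u q b‖ ≤ Bθ + n * (n * (Lam * Bθ)) :=
        hop_pas_le e hcoef hLam hn (pas1 b hb none) fun i j => pas2 b hb (some i) (some j)
      refine h1.trans ?_
      have h2 : Cf * 1 ≤ Cf * (1 + Real.sqrt (sE e u q)) :=
        mul_le_mul_of_nonneg_left (by linarith) hCf0
      have : 0 ≤ n * (n * (CA * Bθ)) := by positivity
      rw [hCf] at h2 ⊢
      linarith
  · intro d b
    by_cases hb : S.act b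
    · have du : DifferentiableAt ℝ u q := huq.differentiableAt (by simp)
      have d1 : ∀ v, DifferentiableAt ℝ (Dd v u) q := fun v =>
        (contDiffAt_Dd huq v).differentiableAt (by simp)
      have dG : DifferentiableAt ℝ (fun x => fun i => Dd (sp e i) u x) q :=
        differentiableAt_pi.2 fun i => d1 _
      have dpair : DifferentiableAt ℝ (fun x => (u x, fun i => Dd (sp e i) u x)) q := du.prodMk dG
      have dΦ0 : DifferentiableAt ℝ S.Φ (u q, fun i => Dd (sp e i) u q) :=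
        (hG.reg.Φ_smooth.contDiffAt ((hG.reg.isOpen.prod isOpen_univ).mem_nhds
          ⟨hdom hq, Set.mem_univ _⟩)).differentiableAt (by simp)
      have dΦ : DifferentiableAt ℝ (fun x => S.Φ (u x, fun i => Dd (sp e i) u x)) q :=
        dΦ0.comp q dpair
      have dH : DifferentiableAt ℝ (fun q' => Hop e (fun i j => S.a i j (u q')) u q') q :=
        (contDiffAt_hop e hAq huq).differentiableAt (by simp)
      have heq : (fun q' => Hop e (fun i j => S.a i j (u q')) u q' b)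
          =ᶠ[𝓝 q] fun x => S.Φ (u x, fun i => Dd (sp e i) u x) b :=
        Filter.eventuallyEq_of_mem (hO.mem_nhds hq) fun x hx => hop_act hsol hx hb
      rw [Dd_apply dH, (Dd_congr heq (sp e d)).self_of_nhds, ← Dd_apply dΦ,
        Dd_comp (Ψ := S.Φ) (h := fun x => (u x, fun i => Dd (sp e i) u x)) dΦ0 dpair,
        Dd_prodMk du dG]
      refine (norm_le_pi_norm _ b).trans (((hAG _ hSH.mem _).2 _ _).trans ?_)
      have g1 : ‖Dd (sp e d) u q‖ ≤ Real.sqrt (sE e u q) := norm_Dd_le_sqrt_sE e u q d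
      have g2 : ‖Dd (sp e d) (fun x => fun i => Dd (sp e i) u x) q‖ ≤ Real.sqrt (yE e u q) := by
        rw [pi_norm_le_iff_of_nonneg hw0]
        intro i
        rw [Dd_apply (F := α → 𝕍) dG]
        exact norm_Dd_Dd_le_sqrt_yE e u q d i
      obtain ⟨r, hr⟩ : ∃ r, r = Real.sqrt (sE e u q) := ⟨_, rfl⟩
      have hrs : sE e u q = r ^ 2 := by rw [hr, Real.sq_sqrt hs0]
      rw [← hr] at g1 hgrad hr0
      have g3 : (1 + ‖fun i => Dd (sp e i) u q‖) * ‖Dd (sp e d) u q‖ ≤ (1 + r) * r :=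
        mul_le_mul (by linarith) g1 (norm_nonneg _) (by linarith)
      have g4 : (1 + r) * r ≤ 2 * (1 + r ^ 2) := by nlinarith [sq_nonneg (r - 1)]
      have g5 : CAG * ((1 + ‖fun i => Dd (sp e i) u q‖) * ‖Dd (sp e d) u q‖
          + ‖Dd (sp e d) (fun x => fun i => Dd (sp e i) u x) q‖)
          ≤ CAG * (2 * (1 + r ^ 2 + Real.sqrt (yE e u q))) :=
        mul_le_mul_of_nonneg_left (by linarith) hC
      refine g5.trans ?_
      rw [hrs]
      have : 2 * CAG * (1 + r ^ 2 + Real.sqrt (yE e u q))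
          ≤ Cf * (1 + r ^ 2 + Real.sqrt (yE e u q)) := by
        refine mul_le_mul_of_nonneg_right ?_ (by positivity)
        rw [hCf]
        have : 0 ≤ Bθ + n * (n * (Lam * Bθ)) + n * (n * (CA * Bθ)) := by positivity
        linarith
      linarith
    · have e1 := hop_Dd e hAq huq d
      have e2 : Dd (sp e d) (fun q' => Hop e (fun i j => S.a i j (u q')) u q') q
          = Hop e (fun i j => S.a i j (u q)) (Dd (sp e d) u) q
            - ∑ i, ∑ j, Dd (sp e d) (fun q' => S.a i j (u q')) q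
                • Dd (sp e i) (Dd (sp e j) u) q := by
        rw [e1]; abel
      rw [e2]
      have h1 : ‖Hop e (fun i j => S.a i j (u q)) (Dd (sp e d) u) q b‖
          ≤ Bθ + n * (n * (Lam * Bθ)) :=
        hop_pas_le e hcoef hLam hn (pas2 b hb none (some d))
          fun i j => pas3 b hb (some i) (some j) (some d)
      have h2 : ‖(∑ i, ∑ j, Dd (sp e d) (fun q' => S.a i j (u q')) q
          • Dd (sp e i) (Dd (sp e j) u) q) b‖ ≤ n * (n * (CA * Bθ)) := by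
        simp only [Finset.sum_apply, Pi.smul_apply]
        calc _ ≤ ∑ _i : κ, ∑ _j : κ, CA * Bθ := by
              refine (norm_sum_le _ _).trans (Finset.sum_le_sum fun i _ => ?_)
              refine (norm_sum_le _ _).trans (Finset.sum_le_sum fun j _ => ?_)
              rw [norm_smul]
              exact mul_le_mul (hSH.dA d i j) (pas2 b hb (some i) (some j)) (norm_nonneg _) hCA
          _ = _ := by simp only [Finset.sum_const, Finset.card_univ, nsmul_eq_mul, hn]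
      rw [Pi.sub_apply]
      refine (norm_sub_le _ _).trans ?_
      have h3 : Cf * 1 ≤ Cf * (1 + sE e u q + Real.sqrt (yE e u q)) :=
        mul_le_mul_of_nonneg_left (by linarith) hCf0
      rw [hCf] at h3 ⊢
      linarith

/-- gradient estimate for solutions of a system with affine growth. -/
theorem grad_sys [FiniteDimensional ℝ E] [FiniteDimensional ℝ 𝕍] (e : κ → E) (S : QSys κ α 𝕍)
    {𝒦 : Set (α → 𝕍)} {lam Lam CAG : ℝ} (hG : S.Good 𝒦 lam Lam) (hC : 0 ≤ CAG)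
    (hAG : S.AG 𝒦 CAG) (ρ' ρ δ CA Bθ S₀ : ℝ) (hρ' : 0 < ρ') (hρ : ρ' < ρ) (hδ : 0 < δ)
    (hCA : 0 ≤ CA) (hB : 0 ≤ Bθ) (hS : 0 ≤ S₀) :
    ∃ C : ℝ, 0 ≤ C ∧ ∀ (t₀ t₁ : ℝ) (x₀ : E) (O : Set (ℝ × E)) (u : ℝ × E → α → 𝕍),
      t₀ ≤ t₁ → IsOpen O → cyl t₀ t₁ x₀ ρ ⊆ O → ContDiffOn ℝ ∞ u O → Set.MapsTo u O S.dom →
      S.Sol e u O → (∀ q ∈ cyl t₀ t₁ x₀ ρ, SH e S 𝒦 u CA Bθ 3 q) →
      ((∀ x ∈ Metric.closedBall x₀ ρ, ∀ i, ‖Dd (sp e i) u (t₀, x)‖ ≤ S₀) →
        ∀ q ∈ cyl t₀ t₁ x₀ ρ', ∀ i, ‖Dd (sp e i) u q‖ ≤ C) ∧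
      (∀ q ∈ cyl (t₀ + δ) t₁ x₀ ρ', ∀ i, ‖Dd (sp e i) u q‖ ≤ C) := by
  obtain ⟨Cf, M, hCf, hM, HG⟩ := gh_of_sys (E := E) S hG hC hAG CA Bθ hCA hB
  obtain ⟨C, hC0, H⟩ := grad_est e α (𝕍 := 𝕍) ρ' ρ δ lam Lam CA Cf M
    (Fintype.card κ * (Fintype.card α * S₀ ^ 2)) hρ' hρ hδ hG.lam_pos hG.Lam_nonneg hCA hCf hM
    (by positivity)
  refine ⟨Real.sqrt C, Real.sqrt_nonneg _, ?_⟩
  intro t₀ t₁ x₀ O u ht hO hsub hu hdom hsol hSH
  have hA : ContDiffOn ℝ ∞ (fun q' i j => S.a i j (u q')) O :=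
    contDiffOn_pi.2 fun i => contDiffOn_pi.2 fun j => (hG.reg.a_smooth i j).comp hu hdom
  have H' := H t₀ t₁ x₀ O (fun q' i j => S.a i j (u q')) u ht hO hsub hu hA
    fun q hq => HG e O u hO hu hdom hsol q (hsub hq) (hSH q hq)
  have conv : ∀ q, sE e u q ≤ C → ∀ i, ‖Dd (sp e i) u q‖ ≤ Real.sqrt C := fun q hq i =>
    (norm_Dd_le_sqrt_sE e u q i).trans (Real.sqrt_le_sqrt hq)
  refine ⟨fun hi q hq => conv q (H'.1 (fun x hx => ?_) q hq), fun q hq => conv q (H'.2 q hq)⟩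
  unfold sE
  calc ∑ d, ∑ b, ‖Dd (sp e d) u (t₀, x) b‖ ^ 2 ≤ ∑ _d : κ, ∑ _b : α, S₀ ^ 2 :=
        Finset.sum_le_sum fun d _ => Finset.sum_le_sum fun b _ =>
          pow_le_pow_left₀ (norm_nonneg _) ((norm_le_pi_norm _ b).trans (hi x hx d)) 2
    _ = _ := by simp only [Finset.sum_const, Finset.card_univ, nsmul_eq_mul]

end Claimed.Agent.R316.B9
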